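import Crest.Agent.R312.AOps

/-! # Row 312, part A: the algorithm on the curve `Y^l = F(X)` with coefficients in `α`

Elements of the coordinate ring are lists (indexed by `j < l`) of coefficient lists of polynomials in
`X`; ideals are lists of generators.  The only zero tests are made through `guard`, which aborts with a
zero divisor if a test does not have the same outcome in all interpretations. -/

set_option autoImplicit false
set_option linter.unusedSectionVars false

namespace Crest.Agent.R312

/-- The environment of the computation. -/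
structure Env (α : Type) where
  O : Ops α
  isZ : α → Bool
  q : ℕ
  l : ℕ
  η : α
  F : List α
  Fm : List α
  a : α
  fx : List α

/-- Elements of the coordinate ring. -/
abbrev Relt (α : Type) : Type := List (List α)
/-- Lists of generators, or tuples. -/
abbrev Gens (α : Type) : Type := List (Relt α)
/-- Exceptions: a zero divisor, or a finer partition of the branch points. -/
abbrev Exc (α : Type) : Type := α ⊕ List (List α)
/-- Tops of division chains: generators, height, socle. -/
abbrev Top (α : Type) : Type := Gens α × ℕ × List ℕ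

section Monad
variable {ε β γ : Type}
def bindS (x : ε ⊕ β) (f : β → ε ⊕ γ) : ε ⊕ γ := x.elim Sum.inl f
def mapS (f : β → ε ⊕ γ) (l : List β) : ε ⊕ List γ :=
  ((l.map f).findSome? Sum.getLeft?).elim (Sum.inr ((l.map f).filterMap Sum.getRight?)) Sum.inl
def iterS (f : β → ε ⊕ β) (n : ℕ) (x : β) : ε ⊕ β := (fun st => bindS st f)^[n] (Sum.inr x)
end Monad

/-- The `i`-th unit vector. -/
def unitV (i : ℕ) : List ℕ := List.replicate i 0 ++ [1]

/-- A nontrivial relation modulo `l` between the vectors `obs` (of length `nc`), up to constants. -/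
def rel (l nc : ℕ) (obs : List (List ℕ)) : Option (List ℕ) :=
  (((zops l).kerP (zops l).self.list (zops l).self.list l (fun (i : ℕ) r => r.getD i 0)
    (List.range nc) (((List.range obs.length).map fun i => (unitV i, obs.getD i [])) ++
      [(unitV obs.length, List.replicate nc 1)])).map (List.take obs.length)).find?
    fun c => c.any fun x => decide (x % l ≠ 0)

/-- A linear combination modulo `l` of the vectors `ws` (of length `nc`). -/
def lin (l nc : ℕ) (c : List ℕ) (ws : List (List ℕ)) : List ℕ :=
  (List.range nc).map fun Z =>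
    ((List.range ws.length).map fun i => c.getD i 0 * (ws.getD i []).getD Z 0).sum % l

namespace Env

variable {α : Type} (E : Env α)

def N : ℕ := E.Fm.length
/-- The primitive root of unity. -/
def ζ : α := E.O.pow E.η ((E.q - 1) / E.l)
/-- Functions on the branch points. -/
def O2 : Ops (List α) := E.O.quot E.Fm
def RV : MOps α (Relt α) := E.O.self.list.list
def TV : MOps α (Gens α) := E.RV.list
def rmul (g h : Relt α) : Relt α :=
  (List.range E.l).map fun m => E.O.poly.sum ((List.range E.l).map fun i =>
    if i ≤ m then E.O.pmul (g.getD i []) (h.getD (m - i) [])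
    else E.O.pmul E.F (E.O.pmul (g.getD i []) (h.getD (E.l + m - i) [])))
/-- `σ^t`. -/
def rsig (t : ℕ) (g : Relt α) : Relt α :=
  (List.range E.l).map fun j => (g.getD j []).map (E.O.mul (E.O.pow E.ζ (t * j)))
def rone : Relt α := [[E.O.one]]
/-- `X^i Y^j`. -/
def rmon (i j : ℕ) : Relt α := List.replicate j [] ++ [List.replicate i E.O.zero ++ [E.O.one]]
/-- The coordinate ring. -/
def RO : Ops (Relt α) := ⟨[], E.rone, E.RV.add, E.rmul, List.map (List.map E.O.neg)⟩
def rpow (g : Relt α) (n : ℕ) : Relt α := E.RO.prod (List.replicate n g)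
def nzR (g : Relt α) : α := E.O.anyNZ E.q ((List.range E.l).flatMap fun j => g.getD j [])
def nzT (x : Gens α) : α := E.O.anyNZ E.q (x.map E.nzR)
/-- A bound for the weighted degree. -/
def wt (G : Gens α) : ℕ := E.l * (mlen G.flatten + E.N)
/-- The monomials of weight `≤ W`. -/
def mons (W : ℕ) : Gens α :=
  (List.range E.l).flatMap fun j =>
    ((List.range (W + 1)).filter fun i => decide (E.l * i + j * E.N ≤ W)).map fun i => E.rmon i j
/-- The powers `X^i`, `i ≤ D`. -/
def pmons (D : ℕ) : Gens α := (List.range (D + 1)).map fun i => E.rmon i 0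
/-- A spanning list for the product of the spans. -/
def tupB (Ls : List (Gens α)) : List (Gens α) :=
  (List.range Ls.length).flatMap fun u => (Ls.getD u []).map fun g => List.replicate u [] ++ [g]
def fn3 (i : ℕ × ℕ × ℕ) (x : Gens α) : α := ((x.getD i.1 []).getD i.2.1 []).getD i.2.2 E.O.zero
def idx3 (cs : List (Gens α)) : List (ℕ × ℕ × ℕ) :=
  List.range (mlen cs) ×ˢ (List.range E.l ×ˢ List.range (mlen cs.flatten.flatten))
/-- Kernel of a linear map between tuples. -/
def kerT (us : List (Gens α)) (T : Gens α → Gens α) : List (Gens α) :=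
  E.O.kerP E.TV E.TV E.q E.fn3 (E.idx3 (us.map T)) (us.map fun u => (u, T u))
/-- Tuples `(h, t_1, …)` with `h ∈ span ms`, `h G_u = s t_(u+1)`. -/
def colonT (s : Relt α) (G ms : Gens α) : List (Gens α) :=
  E.kerT (tupB (ms :: G.map fun _ => E.mons (E.wt ms + E.wt G))) fun x =>
    (List.range G.length).map fun u =>
      E.RO.sub (E.rmul (x.getD 0 []) (G.getD u [])) (E.rmul s (x.getD (u + 1) []))
/-- A short list with the same span. -/
def compress (H : Gens α) : Gens α :=
  (E.O.elim E.RV E.q (fun (i : ℕ × ℕ) g => (g.getD i.1 []).getD i.2 E.O.zero)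
    (List.range E.l ×ˢ List.range (mlen H.flatten)) H).1
/-- `(s : G) ∩ span ms`. -/
def colon (s : Relt α) (G ms : Gens α) : Gens α :=
  E.compress ((E.colonT s G ms).map fun x => x.getD 0 [])
def mulI (G G' : Gens α) : Gens α := E.compress (G.flatMap fun g => G'.map (E.rmul g))
/-- `I σI ⋯ σ^(i-1) I`. -/
def preI (G : Gens α) (i : ℕ) : Gens α :=
  (List.range i).foldl (fun acc t => E.mulI acc (G.map (E.rsig t))) [E.rone]
def s0 (G : Gens α) : Relt α := E.O.firstNZ E.RV E.nzR G
def gw (W : ℕ) : ℕ := E.l * (W + E.N)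
/-- `s I⁻¹` for `s ∈ I` of weight `≤ W`. -/
def cinv (G : Gens α) : Gens α := E.colon (E.s0 G) G (E.mons (E.gw (E.wt G)))
/-- The norm polynomial. -/
def psi (G : Gens α) : List α :=
  (E.s0 ((List.range (E.wt (E.preI G E.l) + 1)).flatMap fun D =>
    E.colon (E.s0 (E.preI G E.l)) (E.cinv (E.preI G E.l)) (E.pmons D))).getD 0 []
/-- A nonzero element of minimal weight. -/
def small (G : Gens α) : Relt α :=
  E.s0 ((List.range (E.wt G + 1)).flatMap fun W => E.colon (E.s0 G) (E.cinv G) (E.mons W))
/-- A reduced ideal in the inverse class. -/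
def neg (G : Gens α) : Gens α := E.colon (E.small G) G (E.mons (E.gw (E.l * E.N)))
/-- An element generating the ideal at all branch points. -/
def wgen (G : Gens α) : Relt α :=
  (((E.colonT (E.s0 G) G (E.mons (E.gw (E.wt G)))).flatMap fun x =>
    (List.range G.length).map fun u => (G.getD u [], (x.getD (u + 1) []).getD 0 [])).foldl
    (fun (st : Relt α × List α) p =>
      (E.RV.add st.1 (E.rmul [E.O2.mul (E.O2.sub E.O2.one st.2) (E.O2.ind E.q p.2)] p.1),
        E.O2.add st.2 (E.O2.mul (E.O2.sub E.O2.one st.2) (E.O2.ind E.q p.2)))) ([], [])).1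
/-- An ideal prime to the branch points in the inverse class. -/
def cneg (G : Gens α) : Gens α := E.colon (E.wgen G) G (E.mons (E.gw (E.wt [E.wgen G])))
/-- Normal form. -/
def nrm (G : Gens α) : Gens α := E.cneg (E.neg G)
def addI (G G' : Gens α) : Gens α := E.nrm (E.mulI G G')
/-- `G₀ + ∑ c_i G_i`. -/
def comb (G₀ : Gens α) (c : List ℕ) (Gs : List (Gens α)) : Gens α :=
  ((List.range Gs.length).flatMap fun i =>
    List.replicate (c.getD i 0 % E.l) (Gs.getD i [])).foldl E.addI G₀
/-- The obstruction to divisibility by `σ - 1`. -/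
def ob (G : Gens α) : List α := E.O2.pow (E.psi G) ((E.q - 1) / E.l)

/-- `x` is a nonzero zero divisor. -/
def bad (x : α) : Bool := !E.isZ x && !E.isZ (E.O.sub (E.O.ind E.q x) E.O.one)
def guard {β : Type} (xs : List α) (r : Exc α ⊕ β) : Exc α ⊕ β :=
  (xs.find? E.bad).elim r fun x => Sum.inl (Sum.inl x)
/-- The degree of a polynomial all of whose coefficients passed the guard. -/
def degB (p : List α) : ℕ :=
  ((List.range p.length).filter fun i => !E.isZ (p.getD i E.O.zero)).foldr max 0

/-- The local conditions. -/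
def locT (β : List α) (x : Gens α) : Gens α :=
  (List.range E.l).map fun t => (List.range E.l).map fun m =>
    if m + t + 1 < E.l then
      E.O.prem E.Fm (E.O.poly.sum ((List.range E.l).map fun i =>
        (E.O.pmul (E.O2.pow β i) ((x.getD i []).getD m [])).map (E.O.mul (E.O.pow E.ζ (i * t)))))
    else []
def W0 : ℕ := E.N * (E.l - 1) - 1
/-- A zero divisor of the cyclic algebra. -/
def rho (G : Gens α) (ψ : List α) (d : ℕ) (β : List α) : Gens α :=
  E.O.firstNZ E.TV E.nzT (E.kerT (tupB ((List.range E.l).map fun i =>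
    E.colon [ψ] ((E.preI G (E.l - i)).map (E.rsig i)) (E.mons (E.W0 + i * d)))) (E.locT β))
def vmat (ψ : List α) (c : α) (ρ : Gens α) : List (Gens α) :=
  (List.range E.l).map fun j => (List.range E.l).map fun m =>
    if j ≤ m then E.rmul [ψ] (E.rsig j (ρ.getD (m - j) []))
    else E.RV.smul c (E.rsig j (ρ.getD (E.l + m - j) []))
def relD (W : ℕ) : ℕ := E.l * (W + E.l + E.l * E.N) + E.l * E.N
/-- Relations of bounded degree between the rows `0, …, r`. -/
def relK (v : List (Gens α)) (r : ℕ) : List (Gens α) :=
  E.kerT (tupB (List.replicate (r + 1) (E.mons (E.relD (E.wt v.flatten))))) fun h =>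
    (List.range E.l).map fun m => E.RO.sum ((List.range (r + 1)).map fun i =>
      E.rmul (h.getD i []) ((v.getD i []).getD m []))
def nzK (K : List (Gens α)) : α := E.O.anyNZ E.q (K.map E.nzT)
def h90 (G : Gens α) (g₁ g₂ : Relt α) : Gens α :=
  (List.range E.l).flatMap fun i => (E.preI G i).map (E.rmul
    (E.rmul (E.RO.prod ((List.range i).map fun j => E.rsig j g₁))
      (E.RO.prod ((List.range' i (E.l - i)).map fun j => E.rsig j g₂))))
/-- The inverse of `r` modulo `l`. -/
def invL (r : ℕ) : ℕ := ((List.range E.l).find? fun s => decide (r * s % E.l = 1)).getD 0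
/-- The rank. -/
def rk (v : List (Gens α)) : ℕ :=
  ((List.range E.l).find? fun r => !E.isZ (E.nzK (E.relK v r))).getD 0
/-- The divided class, given the rows and the rank. -/
def div2 (G : Gens α) (ψ : List α) (v : List (Gens α)) (r : ℕ) : Gens α :=
  E.nrm (E.neg (E.h90 G
    (E.rmul (E.rpow ((E.O.firstNZ E.TV E.nzT (E.relK v r)).getD 0 []) (E.invL r))
      (E.rpow [ψ] ((r * E.invL r - 1) / E.l)))
    (E.rpow ((E.O.firstNZ E.TV E.nzT (E.relK v r)).getD r []) (E.invL r))))
/-- The local roots. -/
def beta (ψ : List α) (c : α) : List α :=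
  E.O2.root E.q E.l [E.η] (E.O2.mul [c] (E.O2.pinv E.q ψ))
/-- The rows. -/
def div1 (G : Gens α) (j₀ : ℕ) : List (Gens α) :=
  E.vmat (E.psi G) (E.O.pow E.η j₀)
    (E.rho G (E.psi G) (E.degB (E.psi G)) (E.beta (E.psi G) (E.O.pow E.η j₀)))
/-- Division by `σ - 1` of a class whose obstruction is the constant `ζ^j₀`. -/
def divI (G : Gens α) (j₀ : ℕ) : Exc α ⊕ Gens α :=
  E.guard (E.psi G) (E.guard ((List.range E.l).map fun r => E.nzK (E.relK (E.div1 G j₀) r))
    (Sum.inr (E.div2 G (E.psi G) (E.div1 G j₀) (E.rk (E.div1 G j₀)))))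

/-- The part of the cell `ε` where `ω = ζ^j`. -/
def e2 (ω ε : List α) (j : ℕ) : List α :=
  E.O2.mul ε (E.O2.sub E.O2.one (E.O2.ind E.q (E.O2.sub ω [E.O.pow E.ζ j])))
def refine (ω : List α) (cells : List (List α)) : List (List α) :=
  cells.flatMap fun ε =>
    ((List.range E.l).filter fun j => !E.isZ (E.O.anyNZ E.q (E.e2 ω ε j))).map (E.e2 ω ε)
def readW (cells : List (List α)) (ω : List α) : Exc α ⊕ List ℕ :=
  E.guard (cells.flatMap fun ε => (List.range E.l).map fun j => E.O.anyNZ E.q (E.e2 ω ε j))
    (if cells.length < (E.refine ω cells).length then Sum.inl (Sum.inr (E.refine ω cells))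
    else Sum.inr (cells.map fun ε =>
      ((List.range E.l).find? fun j => !E.isZ (E.O.anyNZ E.q (E.e2 ω ε j))).getD 0))
/-- The values of the obstruction on the cells. -/
def readOb (cells : List (List α)) (G : Gens α) : Exc α ⊕ List ℕ := E.readW cells (E.ob G)
/-- Division of a class whose obstruction is constant. -/
def divC (cells : List (List α)) (G : Gens α) : Exc α ⊕ Gens α :=
  bindS (E.readOb cells G) fun js => E.divI G (js.headD 0)

/-- The maximal height of a top occurring in the relation `c`. -/
def emax (tops : List (Top α)) (c : List ℕ) : ℕ :=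
  (((List.range tops.length).filter fun i => decide (c.getD i 0 % E.l ≠ 0)).map fun i =>
    (tops.getD i ([], 0, [])).2.1).foldr max 0
def imax (tops : List (Top α)) (c : List ℕ) : ℕ :=
  ((List.range tops.length).find? fun i =>
    decide (c.getD i 0 % E.l ≠ 0 ∧ (tops.getD i ([], 0, [])).2.1 = E.emax tops c)).getD 0
/-- The new socle. -/
def newW (nc : ℕ) (tops : List (Top α)) (c : List ℕ) : List ℕ :=
  lin E.l nc ((List.range tops.length).map fun i =>
    if (tops.getD i ([], 0, [])).2.1 = E.emax tops c then c.getD i 0 else 0)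
    (tops.map fun t => t.2.2)
def stepT (cells : List (List α)) (tops : List (Top α)) : Exc α ⊕ List (Top α) :=
  bindS (mapS (E.readOb cells) (tops.map Prod.fst)) fun obs =>
    (rel E.l cells.length obs).elim (Sum.inr tops) fun c =>
      bindS (E.divC cells (E.comb [E.rone] c (tops.map Prod.fst))) fun G' =>
        Sum.inr (tops.set (E.imax tops c) (G', E.emax tops c + 1, E.newW cells.length tops c))
/-- The relation normalised so that the coefficient of the first vector is one. -/
def relQ (nc : ℕ) (oq : List ℕ) (obs : List (List ℕ)) : List ℕ :=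
  ((rel E.l nc (oq :: obs)).getD []).tail.map fun x =>
    x * (zops E.l).pinv E.l (((rel E.l nc (oq :: obs)).getD []).headD 0) % E.l
def stepQ (cells : List (List α)) (Gs : List (Gens α)) (obs : List (List ℕ))
    (st : Gens α × List (List ℕ)) : Exc α ⊕ (Gens α × List (List ℕ)) :=
  bindS (E.readOb cells st.1) fun oq =>
    bindS (E.divC cells (E.comb st.1 (E.relQ cells.length oq obs) Gs)) fun G' =>
      Sum.inr (G', st.2 ++ [E.relQ cells.length oq obs])
/-- A bound for the nilpotency index. -/
def B : ℕ := 2 * (E.l * (E.l * E.N + E.N) + E.l) ^ 2 * Nat.size E.q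
/-- The product of the branch points in the cell `ε`. -/
def tors (ε : List α) : Gens α := [E.rmon 0 1, [E.O.poly.sub [E.O.one] ε]]
def initT (cells : List (List α)) : List (Top α) :=
  (List.range (cells.length - 1)).map fun i =>
    (E.nrm (E.tors (cells.getD (i + 1) [])), 0, unitV (i + 1))
def QG : Gens α := [E.rmon 1 0, E.RO.sub (E.rmon 0 1) E.rone]
/-- The coefficients of order exactly `s`. -/
def coefS (es : List ℕ) (tbl : List (List ℕ)) (s : ℕ) : List ℕ :=
  (List.range es.length).map fun i =>
    if s ≤ es.getD i 0 + 1 then (tbl.getD (es.getD i 0 + 1 - s) []).getD i 0 else 0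
def mOrd (es : List ℕ) (tbl : List (List ℕ)) : ℕ :=
  ((List.range (E.B + 1)).filter fun s =>
    decide (2 ≤ s) && (coefS es tbl s).any fun x => decide (x % E.l ≠ 0)).foldr max 1
def omega0 (cells : List (List α)) (wv : List ℕ) (m : ℕ) : List α :=
  E.O2.sum ((List.range cells.length).map fun Z =>
    E.O2.mul [E.O.pow E.ζ (wv.getD Z 0 +
      ((List.range cells.length).map fun Z' =>
        wv.getD Z' 0 * E.degB (E.psi (E.tors (cells.getD Z' [])))).sum +
      if m = 1 then 1 else 0)] (cells.getD Z []))
def fin0 (cells : List (List α)) (tops : List (Top α)) (tbl : List (List ℕ)) : ℕ × List α :=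
  (E.mOrd (tops.map fun t => t.2.1) tbl,
    E.omega0 cells (lin E.l cells.length
      (coefS (tops.map fun t => t.2.1) tbl (E.mOrd (tops.map fun t => t.2.1) tbl))
      (tops.map fun t => t.2.2)) (E.mOrd (tops.map fun t => t.2.1) tbl))
def core (cells : List (List α)) : Exc α ⊕ (ℕ × List α) :=
  bindS (iterS (E.stepT cells) (cells.length * E.B) (E.initT cells)) fun tops =>
    bindS (mapS (E.readOb cells) (tops.map Prod.fst)) fun obs =>
      bindS (iterS (E.stepQ cells (tops.map Prod.fst) obs) E.B (E.QG, [])) fun st =>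
        E.guard (cells.flatMap fun ε => E.psi (E.tors ε)) (Sum.inr (E.fin0 cells tops st.2))
/-- Functions on all the roots. -/
def OX : Ops (List α) := E.O.quot E.fx
def omega (Ω₀ : List α) : List α :=
  E.OX.add (E.OX.mul (E.OX.horner (Ω₀.map fun c => [c]) (E.OX.pinv E.q [E.O.neg E.a, E.O.one]))
    (E.OX.ind E.q [E.O.neg E.a, E.O.one]))
    (E.OX.sub E.OX.one (E.OX.ind E.q [E.O.neg E.a, E.O.one]))
def resv (Ω₀ : List α) : α := E.O.firstNZ E.O.self (E.O.ind E.q) (E.omega Ω₀)
def cands (Ω₀ : List α) : List α :=
  (List.range E.l).map fun j => E.O.sub (E.resv Ω₀)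
    (E.O.mul (E.O.root E.q E.l E.η (E.O.pow (E.resv Ω₀) E.l)) (E.O.pow E.ζ j))
def attempt (cells : List (List α)) : Exc α :=
  (bindS (E.core cells) fun r => E.guard (E.cands r.2) (Sum.inr ())).elim id fun _ => Sum.inr cells
/-- The zero divisor. -/
def run : α :=
  ((fun st : Exc α => st.elim Sum.inl fun cells =>
      E.attempt ((cells.take E.N).map (E.O2.mul E.O2.one)))^[E.N + 1]
    (Sum.inr [E.O2.one])).elim id fun _ => E.O.zero

end Env

end Crest.Agent.R312
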