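import Crest.Agent.R312.APsi2

/-! # Row 312, part A: counting (the Riemann-Roch inequality) -/

set_option autoImplicit false
set_option linter.unusedSectionVars false

noncomputable section

open Polynomial Finset

namespace Crest.Agent.R312

namespace Mdl

variable {k : Type} [Field k] [Fintype k] (M : Mdl k)

/-- The number of monomials of weight `≤ W`. -/
def dimV (W : ℕ) : ℕ :=
  ((range M.l ×ˢ range (W + 1)).filter fun p => M.l * p.2 + p.1 * M.N ≤ W).card

/-- `V W ≃ (monomials of weight ≤ W → k)`. -/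
theorem card_V (W : ℕ) : Nat.card (M.V W) = Fintype.card k ^ M.dimV W := by
  classical
  set S := (range M.l ×ˢ range (W + 1)).filter fun p => M.l * p.2 + p.1 * M.N ≤ W with hS
  have hmem : ∀ j i, (j, i) ∈ S ↔ j < M.l ∧ M.l * i + j * M.N ≤ W := by
    intro j i
    simp only [hS, mem_filter, mem_product, mem_range]
    refine ⟨fun h => ⟨h.1.1, h.2⟩, fun h => ⟨⟨h.1, ?_⟩, h.2⟩⟩
    have := Nat.le_mul_of_pos_left i M.hl.pos
    omega
  let f : M.V W → (S → k) := fun g p => (M.co p.1.1 g).coeff p.1.2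
  have hf : Function.Bijective f := by
    constructor
    · intro g h e
      refine Subtype.ext (ext_co fun j hj => Polynomial.ext fun i => ?_)
      by_cases hw : M.l * i + j * M.N ≤ W
      · exact congrFun e ⟨(j, i), (hmem j i).2 ⟨hj, hw⟩⟩
      · exact (g.2 j i (not_le.1 hw)).trans (h.2 j i (not_le.1 hw)).symm
    · intro c
      let c' : ℕ → ℕ → k := fun j i => if h : (j, i) ∈ S then c ⟨(j, i), h⟩ else 0
      let g : M.R := ∑ j ∈ range M.l, M.ι (∑ i ∈ range (W + 1), monomial i (c' j i)) * M.Y ^ j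
      have hg : ∀ j < M.l, ∀ i, (M.co j g).coeff i = c' j i := by
        intro j hj i
        rw [co_sum (fun j => ∑ i ∈ range (W + 1), monomial i (c' j i)) hj, finsetSum_coeff]
        simp only [coeff_monomial, sum_ite_eq', mem_range]
        split_ifs with hi
        · rfl
        · refine Eq.symm (dif_neg (c := (j, i) ∈ S) fun h => hi ?_)
          simp only [hS, mem_filter, mem_product, mem_range] at h
          exact h.1.2
      refine ⟨⟨g, fun j i hw => ?_⟩, funext fun p => ?_⟩
      · by_cases hj : j < M.l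
        · rw [hg j hj]
          exact dif_neg fun h => absurd ((hmem j i).1 h).2 (not_le.2 hw)
        · rw [co_of_le (not_lt.1 hj), coeff_zero]
      · exact (hg _ ((hmem _ _).1 p.2).1 _).trans (dif_pos p.2)
  rw [Nat.card_congr (Equiv.ofBijective f hf), Nat.card_eq_fintype_card, Fintype.card_fun,
    Fintype.card_coe]
  rfl

instance (W : ℕ) : Finite (M.V W) :=
  Nat.finite_of_card_ne_zero (by rw [card_V]; exact pow_ne_zero _ Fintype.card_ne_zero)

theorem dimV_le (W : ℕ) : M.dimV W ≤ W + M.l := by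
  have h : M.dimV W ≤ (range M.l ×ˢ range (W / M.l + 1)).card := by
    refine card_le_card fun p hp => ?_
    simp only [mem_filter, mem_product, mem_range] at hp ⊢
    refine ⟨hp.1.1, Nat.lt_succ_of_le ((Nat.le_div_iff_mul_le M.hl.pos).2 ?_)⟩
    rw [mul_comm]
    omega
  rw [card_product, card_range, card_range, mul_add, mul_one] at h
  have := Nat.mul_div_le W M.l
  omega

theorem acard_res {l N : ℕ} (hl : 0 < l) (hc : N.Coprime l) (W : ℤ) :
    ∑ j ∈ range l, (W - j * N) % l = ∑ j ∈ range l, (j : ℤ) := by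
  classical
  have hl' : (0 : ℤ) < l := by exact_mod_cast hl
  have h0 : ∀ j : ℕ, (((W - j * N) % l).toNat : ℤ) = (W - j * N) % l := fun j =>
    Int.toNat_of_nonneg (Int.emod_nonneg _ hl'.ne')
  have hinj : Set.InjOn (fun j : ℕ => ((W - j * N) % l).toNat) (range l : Set ℕ) := by
    intro a ha b hb e
    have e1 : (W - a * N) % l = (W - b * N) % l := by
      rw [← h0 a, ← h0 b]
      exact congrArg _ e
    have e2 : (l : ℤ) ∣ (a - b) * N := by
      have := Int.ModEq.dvd e1
      rwa [show W - b * N - (W - a * N) = (a - b) * N by ring] at this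
    have e3 : (l : ℤ) ∣ a - b := (Nat.isCoprime_iff_coprime.2 hc.symm).dvd_of_dvd_mul_right e2
    have ha' : a < l := by simpa using ha
    have hb' : b < l := by simpa using hb
    have e4 := Int.eq_zero_of_abs_lt_dvd e3 (by rw [abs_lt]; constructor <;> omega)
    omega
  have him : (range l).image (fun j : ℕ => ((W - j * N) % l).toNat) = range l := by
    refine eq_of_subset_of_card_le (fun x hx => ?_) (card_image_of_injOn hinj).ge
    obtain ⟨j, -, rfl⟩ := mem_image.1 hx
    have := Int.emod_lt_of_pos (W - j * N) hl'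
    rw [← h0] at this
    exact mem_range.2 (by exact_mod_cast this)
  conv_rhs => rw [← him, sum_image hinj]
  exact sum_congr rfl fun j _ => (h0 j).symm

theorem acard_row {l : ℕ} (hl : 0 < l) (W a : ℕ) :
    ((W : ℤ) - a) / l + 1 ≤ ∑ i ∈ range (W + 1), ((if l * i + a ≤ W then 1 else 0 : ℕ) : ℤ) := by
  rw [← Nat.cast_sum, ← card_filter]
  have hl' : (0 : ℤ) < l := by exact_mod_cast hl
  by_cases h : a ≤ W
  · obtain ⟨d, rfl⟩ := Nat.exists_eq_add_of_le h
    have h1 : range (d / l + 1) ⊆ (range (a + d + 1)).filter fun i => l * i + a ≤ a + d := by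
      intro i hi
      have h2 : i * l ≤ d := (Nat.le_div_iff_mul_le hl).1 (Nat.lt_succ_iff.1 (mem_range.1 hi))
      have h3 := Nat.le_mul_of_pos_right i hl
      rw [mem_filter, mem_range, mul_comm]
      omega
    have h4 := card_le_card h1
    rw [card_range] at h4
    rw [Nat.cast_add, add_sub_cancel_left]
    exact_mod_cast h4
  · have : ((W : ℤ) - a) / l < 0 := Int.ediv_neg_of_neg_of_pos (by omega) hl'
    omega

/-- The sharp lower bound `dim V W ≥ W + 1 - g`, `2 g = (N-1)(l-1)`.  For each `j < l` the number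
of admissible `i` is at least `⌊(W - j N)/l⌋ + 1` (integer floor), and the residues
`(W - j N) mod l`, `j < l`, run over all residues since `N` is prime to `l`. -/
theorem le_dimV (W : ℕ) : 2 * (W + 1) ≤ 2 * M.dimV W + (M.N - 1) * (M.l - 1) := by
  have hl := M.hl.pos
  have hN := M.N_pos
  have hl' : (0 : ℤ) < M.l := by exact_mod_cast hl
  have h1 : ∑ j ∈ range M.l, (((W : ℤ) - j * M.N) / M.l + 1) ≤ M.dimV W := by
    rw [dimV, card_filter, sum_product, Nat.cast_sum]
    refine sum_le_sum fun j _ => ?_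
    rw [Nat.cast_sum]
    have := acard_row hl W (j * M.N)
    rwa [Nat.cast_mul] at this
  have h2 : (M.l : ℤ) * ∑ j ∈ range M.l, ((W : ℤ) - j * M.N) / M.l =
      M.l * W - (M.N + 1) * ∑ j ∈ range M.l, (j : ℤ) := by
    have h3 := acard_res hl M.cop (W : ℤ)
    have h4 : ∀ j ∈ range M.l, (M.l : ℤ) * (((W : ℤ) - j * M.N) / M.l) =
        W - j * M.N - ((W : ℤ) - j * M.N) % M.l := fun j _ => by
      have := Int.mul_ediv_add_emod ((W : ℤ) - j * M.N) M.l
      linarith
    rw [mul_sum, sum_congr rfl h4, sum_sub_distrib, sum_sub_distrib, ← sum_mul]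
    change _ - ∑ j ∈ range M.l, ((W : ℤ) - j * (M.T.card : ℕ)) % M.l = _
    rw [h3, sum_const, card_range, nsmul_eq_mul]
    ring
  have h5 : (∑ j ∈ range M.l, (j : ℤ)) * 2 = M.l * (M.l - 1) := by
    have := sum_range_id_mul_two M.l
    zify [hl] at this
    exact this
  rw [sum_add_distrib, sum_const, card_range, nsmul_eq_mul, mul_one] at h1
  have h6 : 2 * ∑ j ∈ range M.l, ((W : ℤ) - j * M.N) / M.l =
      2 * W - (M.N + 1) * (M.l - 1) := by
    refine mul_left_cancel₀ hl'.ne' ?_
    linear_combination 2 * h2 - (M.N + 1) * h5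
  zify [hl, hN]
  nlinarith

theorem le_dimV' (W : ℕ) : W + 1 ≤ M.dimV W + M.l * M.N := by
  have h1 := M.le_dimV W
  have h2 : (M.N - 1) * (M.l - 1) ≤ M.l * M.N := by
    rw [mul_comm]
    exact Nat.mul_le_mul (Nat.sub_le _ _) (Nat.sub_le _ _)
  omega

theorem acard_mul (I J : Ideal M.R) :
    Submodule.cardQuot (I * J) = Submodule.cardQuot I * Submodule.cardQuot J := by
  have : Infinite M.R := Infinite.of_injective _ (kum_algebraMap_injective (l := M.l) (F := M.F))
  exact UniqueFactorizationMonoid.multiplicative_of_coprime Submodule.cardQuot I J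
    (Submodule.cardQuot_bot _ _)
    (fun {I J} hI => by simp [Ideal.isUnit_iff.mp hI, Ideal.mul_top])
    (fun {I} i hI =>
      have : Ideal.IsPrime I := Ideal.isPrime_of_prime hI
      cardQuot_pow_of_prime hI.ne_zero)
    fun {I J} hIJ => cardQuot_mul_of_coprime <| Ideal.isCoprime_iff_sup_eq.mpr
      (Ideal.isUnit_iff.mp
        (hIJ (Ideal.dvd_iff_le.mpr le_sup_left) (Ideal.dvd_iff_le.mpr le_sup_right)))

theorem acard_cj (t : ℕ) (I : Ideal M.R) :
    Submodule.cardQuot (M.cj t I) = Submodule.cardQuot I := by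
  rw [Submodule.cardQuot_apply, Submodule.cardQuot_apply]
  let e : M.R ≃+* M.R := RingEquiv.ofBijective (M.σ ^ t) (sig_pow_bijective M.Cz_pow t)
  exact (Nat.card_congr (Ideal.quotientEquiv I (M.cj t I) e rfl).toEquiv).symm

theorem acard_A (I : Ideal M.R) (i : ℕ) :
    Submodule.cardQuot (M.A I i) = Submodule.cardQuot I ^ i := by
  unfold A
  induction i with
  | zero => rw [prod_range_zero, pow_zero, Ideal.one_eq_top, Submodule.cardQuot_top]
  | succ i ih => rw [prod_range_succ, acard_mul, ih, acard_cj, pow_succ]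

theorem acard_span {ψ : k[X]} (hψ : ψ ≠ 0) :
    Submodule.cardQuot (Ideal.span {M.ι ψ}) = (Fintype.card k ^ ψ.natDegree) ^ M.l := by
  let φ : M.R →+ (Fin M.l → k[X] ⧸ Ideal.span {ψ}) :=
    { toFun := fun g j => Ideal.Quotient.mk _ (M.co j g)
      map_zero' := by funext j; simp
      map_add' := fun a b => by funext j; simp }
  have hker : (Ideal.span {M.ι ψ}).toAddSubgroup = φ.ker := by
    ext g
    rw [Submodule.mem_toAddSubgroup, Ideal.mem_span_singleton, C_dvd_iff, AddMonoidHom.mem_ker,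
      funext_iff]
    constructor
    · intro h j
      exact Ideal.Quotient.eq_zero_iff_mem.2 (Ideal.mem_span_singleton.2 (h j j.2))
    · intro h j hj
      exact Ideal.mem_span_singleton.1 (Ideal.Quotient.eq_zero_iff_mem.1 (h ⟨j, hj⟩))
  have hsurj : Function.Surjective φ := by
    intro c
    choose d hd using fun j => Ideal.Quotient.mk_surjective (c j)
    refine ⟨∑ j ∈ range M.l, M.ι (if h : j < M.l then d ⟨j, h⟩ else 0) * M.Y ^ j, funext fun j => ?_⟩
    change Ideal.Quotient.mk _ (M.co j _) = _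
    rw [co_sum (fun j => if h : j < M.l then d ⟨j, h⟩ else 0) j.2, dif_pos j.2, hd]
  have : Module.Finite k (k[X] ⧸ Ideal.span {ψ}) := (AdjoinRoot.powerBasis hψ).finite
  rw [Submodule.cardQuot, hker, AddSubgroup.index_ker, AddMonoidHom.range_eq_top.2 hsurj,
    AddSubgroup.card_top, Nat.card_fun, Module.natCard_eq_pow_finrank (K := k),
    finrank_quotient_span_eq_natDegree, Nat.card_eq_fintype_card, Nat.card_eq_fintype_card,
    Fintype.card_fin]

/-- `#(R/I) = q^(deg ψ)`: `#(R/IJ) = #(R/I) #(R/J)` in a Dedekind domain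
(`Submodule.cardQuot`, `cardQuot_mul_of_coprime`, `cardQuot_pow_of_prime`, or directly
`I/IJ ≃ R/J` via `IsDedekindDomain.exists_sup_span_eq`), `#(R/σ^t I) = #(R/I)`, and
`#(R/ψ R) = q^(l deg ψ)` (`C_dvd_iff`); take `l`-th roots. -/
theorem IsPsi.card_quot {M : Mdl k} {I : Ideal M.R} {ψ : k[X]} (h : M.IsPsi I ψ) (hI : I ≠ ⊥) :
    Nat.card (M.R ⧸ I) = Fintype.card k ^ ψ.natDegree := by
  have h1 := M.acard_A I M.l
  rw [h, M.acard_span (h.ne_zero hI), Submodule.cardQuot_apply] at h1
  exact (Nat.pow_left_injective M.hl.ne_zero h1).symm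

/-- Riemann-Roch inequality: `V W → R/I` has kernel `I ∩ V W`. -/
theorem IsPsi.card_inf {M : Mdl k} {I : Ideal M.R} {ψ : k[X]} (h : M.IsPsi I ψ) (hI : I ≠ ⊥)
    (W : ℕ) : Fintype.card k ^ M.dimV W ≤
      Nat.card ↥(I.restrictScalars k ⊓ M.V W) * Fintype.card k ^ ψ.natDegree := by
  let f : M.V W →+ M.R ⧸ I := (Ideal.Quotient.mk I).toAddMonoidHom.comp (M.V W).subtype.toAddMonoidHom
  have hq := h.card_quot hI
  have : Finite (M.R ⧸ I) :=
    Nat.finite_of_card_ne_zero (by rw [hq]; exact pow_ne_zero _ Fintype.card_ne_zero)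
  have h1 : Nat.card f.ker = Nat.card ↥(I.restrictScalars k ⊓ M.V W) :=
    Nat.card_congr
      { toFun := fun g => ⟨g.1.1, Ideal.Quotient.eq_zero_iff_mem.1 g.2, g.1.2⟩
        invFun := fun g => ⟨⟨g.1, g.2.2⟩, Ideal.Quotient.eq_zero_iff_mem.2 g.2.1⟩
        left_inv := fun _ => rfl
        right_inv := fun _ => rfl }
  rw [← card_V, ← f.ker.card_mul_index, h1, AddSubgroup.index_ker, ← hq]
  exact Nat.mul_le_mul_left _ (Nat.card_le_card_of_injective _ Subtype.val_injective)

theorem IsPsi.exists_small {M : Mdl k} {I : Ideal M.R} {ψ : k[X]} (h : M.IsPsi I ψ) (hI : I ≠ ⊥) :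
    ∃ s ∈ I, s ≠ 0 ∧ s ∈ M.V (ψ.natDegree + M.l * M.N) := by
  by_contra hc
  push Not at hc
  have h1 := h.card_inf hI (ψ.natDegree + M.l * M.N)
  have h2 := M.le_dimV' (ψ.natDegree + M.l * M.N)
  have : Subsingleton ↥(I.restrictScalars k ⊓ M.V (ψ.natDegree + M.l * M.N)) := by
    have h0 : ∀ g : ↥(I.restrictScalars k ⊓ M.V (ψ.natDegree + M.l * M.N)), g.1 = 0 := fun g =>
      by_contra fun hg => hc g.1 g.2.1 hg g.2.2
    exact ⟨fun a b => Subtype.ext ((h0 a).trans (h0 b).symm)⟩
  rw [Nat.card_unique, one_mul, Nat.pow_le_pow_iff_right Fintype.one_lt_card] at h1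
  omega

/-- If `s ∈ I` is small then the ideal `s I⁻¹` has a small norm. -/
theorem natDegree_psi_le_of_mul {I J : Ideal M.R} {ψ χ : k[X]} {s : M.R} (hs : s ≠ 0)
    (hψ : M.IsPsi I ψ) (hχ : M.IsPsi J χ) (h : I * J = Ideal.span {s}) {W : ℕ} (hW : s ∈ M.V W) :
    ψ.natDegree + χ.natDegree ≤ W := by
  have h0 : I * J ≠ ⊥ := by
    rw [h]
    exact fun h0 => hs (Ideal.span_singleton_eq_bot.1 h0)
  have h1 := hψ.mul hχ
  rw [h] at h1
  rw [← natDegree_mul (hψ.ne_zero (left_ne_zero_of_mul h0)) (hχ.ne_zero (right_ne_zero_of_mul h0)),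
    h1.natDegree_eq (M.isPsi_span s)]
  exact M.natDegree_nm_le hW

/-- The bound for the logarithm of the class number. -/
def clB : ℕ := (M.l * (M.l * M.N + M.N) + M.l) ^ 2

/-- Bound for the class number: every class contains (invert twice, `exists_small`) an ideal `J`
with `deg ψ_J ≤ l N`, which is generated (`span_inter_V`) by the subspace `J ∩ V W₀`,
`W₀ = l (l N + N)`, which is spanned by a family `Fin D → V W₀`, `D = W₀ + l ≥ dimV W₀`. -/
theorem exists_class_reps : ∃ s : Finset (Ideal M.R), s.card ≤ Fintype.card k ^ M.clB ∧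
    ∀ I : Ideal M.R, I ≠ ⊥ → ∃ J ∈ s, M.Eqv I J := by
  classical
  set W := M.l * (M.l * M.N + M.N) with hW
  have := Fintype.ofFinite (M.V W)
  have hq : 1 < Fintype.card k := Fintype.one_lt_card
  refine ⟨univ.image fun v : Fin (W + M.l) → M.V W =>
    Ideal.span (Set.range fun i => (v i : M.R)), ?_, fun I hI => ?_⟩
  · refine card_image_le.trans ?_
    rw [card_univ, Fintype.card_fun, Fintype.card_fin, ← Nat.card_eq_fintype_card, card_V,
      ← pow_mul, clB, ← hW, sq]
    exact Nat.pow_le_pow_right hq.le (Nat.mul_le_mul_right _ (M.dimV_le W))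
  · obtain ⟨g, hg, hg0⟩ := Submodule.exists_mem_ne_zero_of_ne_bot hI
    obtain ⟨J, hJ⟩ := M.exists_mul_eq_span hg
    have hJ0 : J ≠ ⊥ := by
      rintro rfl
      rw [Ideal.mul_bot] at hJ
      exact hg0 (Ideal.span_singleton_eq_bot.1 hJ.symm)
    obtain ⟨ψ, hψ⟩ := M.exists_isPsi hJ0
    obtain ⟨s, hs, hs0, hsV⟩ := hψ.exists_small hJ0
    obtain ⟨K, hK⟩ := M.exists_mul_eq_span hs
    have hK0 : K ≠ ⊥ := by
      rintro rfl
      rw [Ideal.mul_bot] at hK
      exact hs0 (Ideal.span_singleton_eq_bot.1 hK.symm)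
    obtain ⟨χ, hχ⟩ := M.exists_isPsi hK0
    have hd := M.natDegree_psi_le_of_mul hs0 hψ hχ hK hsV
    have hsp := M.span_inter_V (hχ.ne_zero hK0) hχ.mem (W := M.l * M.N) (by omega)
    rw [← hW] at hsp
    refine ⟨K, mem_image.2 ?_, M.eqv_of_inv hg0 hs0 hJ hK⟩
    have hfin : Module.finrank k (M.V W) = M.dimV W := by
      have h1 := M.card_V W
      rw [Module.natCard_eq_pow_finrank (K := k), Nat.card_eq_fintype_card] at h1
      exact Nat.pow_right_injective hq h1
    obtain ⟨f, hf, hspan, -⟩ :=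
      Submodule.exists_fun_fin_finrank_span_eq k {x : M.V W | (x : M.R) ∈ K}
    have hr : Module.finrank k (Submodule.span k {x : M.V W | (x : M.R) ∈ K}) ≤ W + M.l :=
      (Submodule.finrank_le _).trans (hfin.le.trans (M.dimV_le W))
    generalize Module.finrank k (Submodule.span k {x : M.V W | (x : M.R) ∈ K}) = r at f hf hspan hr
    refine ⟨fun i => if h : (i : ℕ) < r then f ⟨i, h⟩ else 0, mem_univ _, le_antisymm ?_ ?_⟩
    · rw [Ideal.span_le]
      rintro _ ⟨i, rfl⟩
      dsimp only
      split_ifs with h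
      · exact hf _
      · exact K.zero_mem
    · refine hsp.ge.trans (Ideal.span_le.2 fun x hx => ?_)
      have h1 : (⟨x, hx.2⟩ : M.V W) ∈ Submodule.span k (Set.range f) := by
        rw [hspan]
        exact Submodule.subset_span hx.1
      have h2 : Submodule.span k (Set.range f) ≤ ((Ideal.span (Set.range fun i : Fin (W + M.l) =>
          ((if h : (i : ℕ) < r then f ⟨i, h⟩ else 0 : M.V W) : M.R))).restrictScalars k).comap
          (M.V W).subtype := by
        rw [Submodule.span_le]
        rintro _ ⟨i, rfl⟩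
        refine Ideal.subset_span ⟨⟨i, i.2.trans_le hr⟩, ?_⟩
        dsimp only
        rw [dif_pos i.2]
        rfl
      exact h2 h1

end Mdl

end Crest.Agent.R312
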