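import Crest.Agent.R312.APP

/-! # Row 312, part A: algebra of division chains -/

set_option autoImplicit false
set_option linter.unusedSectionVars false

noncomputable section

open Polynomial Finset

namespace Crest.Agent.R312

theorem achain_mul {P : Type} [AddCommGroup P] (f g : AddMonoid.End P) (x : P) :
    (f * g) x = f (g x) := rfl

/-- The kernels `H ∩ ker λ^j` increase strictly until they stabilise, and each strict inclusion at
least doubles the cardinality. -/
theorem nil_index {P : Type} [AddCommGroup P] (lam : AddMonoid.End P) (H : AddSubgroup P)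
    (hH : ∀ x ∈ H, lam x ∈ H) [Finite H] {B : ℕ} (hB : Nat.card H ≤ 2 ^ B) {x : P} (hx : x ∈ H)
    {j : ℕ} (hj : (lam ^ j) x = 0) : (lam ^ B) x = 0 := by
  classical
  by_contra hc
  have hex : ∃ j, (lam ^ j) x = 0 := ⟨j, hj⟩
  have hmem : ∀ i, (lam ^ i) x ∈ H := fun i => by
    induction i with
    | zero => simpa using hx
    | succ i ih => rw [pow_succ']; exact hH _ ih
  have hmono : ∀ (y : P) (i d : ℕ), (lam ^ i) y = 0 → (lam ^ (d + i)) y = 0 := fun y i d h => by
    rw [pow_add, achain_mul, h, map_zero]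
  have hlt : B < Nat.find hex := by
    by_contra hle
    obtain ⟨d, hd⟩ := Nat.exists_eq_add_of_le' (not_lt.1 hle)
    exact hc (hd ▸ hmono x _ d (Nat.find_spec hex))
  let K : ℕ → AddSubgroup H := fun i => (AddMonoidHom.ker (lam ^ i : AddMonoid.End P)).comap H.subtype
  have hK : ∀ i (y : H), y ∈ K i ↔ (lam ^ i) y.1 = 0 := fun _ _ => Iff.rfl
  have key : ∀ i ≤ Nat.find hex, 2 ^ i ≤ Nat.card (K i) := by
    intro i
    induction i with
    | zero => intro _; exact Nat.card_pos
    | succ i ih =>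
      intro hi
      have hle : K i ≤ K (i + 1) := fun y hy => by
        rw [hK, add_comm]; exact hmono _ _ 1 ((hK _ _).1 hy)
      obtain ⟨d, hd⟩ := Nat.exists_eq_add_of_le hi
      have hne : ¬ K (i + 1) ≤ K i := fun h => by
        have h1 : (⟨(lam ^ d) x, hmem d⟩ : H) ∈ K (i + 1) := by
          rw [hK]
          change (lam ^ (i + 1) * lam ^ d) x = 0
          rw [← pow_add, ← hd]
          exact Nat.find_spec hex
        have h2 : (lam ^ i * lam ^ d) x = 0 := (hK _ _).1 (h h1)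
        rw [← pow_add] at h2
        exact Nat.find_min hex (by omega) h2
      obtain ⟨c, hc⟩ := AddSubgroup.card_dvd_of_le hle
      have h3 : ¬ Nat.card (K (i + 1)) ≤ Nat.card (K i) := fun h =>
        hne (AddSubgroup.eq_of_le_of_card_ge hle h).ge
      have h4 : 2 ≤ c := by
        by_contra h5
        exact h3 (hc ▸ (Nat.mul_le_mul_left _ (by omega : c ≤ 1)).trans (mul_one _).le)
      have := ih (by omega)
      rw [hc, pow_succ]
      exact Nat.mul_le_mul this h4
  have h1 := (key (B + 1) hlt).trans ((AddSubgroup.card_le_card_addGroup _).trans hB)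
  exact absurd h1 (not_le.2 (Nat.pow_lt_pow_right (by norm_num) (Nat.lt_succ_self B)))

section Sem

variable {k : Type} [Field k] {M : Mdl k} {P : Type} [AddCommGroup P] {s : AddMonoid.End P}
  {cl : Ideal M.R → P}

/-- The torsion class attached to a function on the branch points. -/
def tau (M : Mdl k) (cl : Ideal M.R → P) (w : k → ZMod M.l) : P :=
  ∑ b ∈ M.T, (w b).val • cl (M.P b)

/-- The classes of the nonzero ideals. -/
def Sem.grp (h : Sem M s cl) : AddSubgroup P where
  carrier := {x | ∃ I, I ≠ ⊥ ∧ cl I = x}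
  add_mem' := by
    rintro _ _ ⟨I, hI, rfl⟩ ⟨J, hJ, rfl⟩
    exact ⟨I * J, mul_ne_zero hI hJ, h.mul I J hI hJ⟩
  zero_mem' := by
    refine ⟨⊤, top_ne_bot, ?_⟩
    have := h.mul ⊤ ⊤ top_ne_bot top_ne_bot
    rw [Ideal.top_mul] at this
    exact left_eq_add.1 this
  neg_mem' := by
    rintro _ ⟨I, hI, rfl⟩
    obtain ⟨g, hgI, hg⟩ := Submodule.exists_mem_ne_zero_of_ne_bot hI
    obtain ⟨J, hJ⟩ := M.exists_mul_eq_span hgI
    have hJ0 : J ≠ ⊥ := by
      rintro rfl
      rw [Ideal.mul_bot, eq_comm, Ideal.span_singleton_eq_bot] at hJ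
      exact hg hJ
    refine ⟨J, hJ0, ?_⟩
    have h1 := h.mul I J hI hJ0
    have h2 := h.eqv (Ideal.span {g} * ⊤) ⊤ (by simpa using hg) (M.eqv_span_mul hg ⊤)
    have h3 := h.mul ⊤ ⊤ top_ne_bot top_ne_bot
    rw [Ideal.top_mul] at h3
    rw [Ideal.mul_top, ← hJ, h1, left_eq_add.1 h3] at h2
    exact eq_neg_of_add_eq_zero_right h2

namespace Sem

variable (h : Sem M s cl)
include h

theorem top : cl ⊤ = 0 := by
  have := h.mul ⊤ ⊤ top_ne_bot top_ne_bot
  rw [Ideal.top_mul] at this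
  exact left_eq_add.1 this
theorem pow {I : Ideal M.R} (hI : I ≠ ⊥) (n : ℕ) : cl (I ^ n) = n • cl I := by
  induction n with
  | zero => rw [pow_zero, Ideal.one_eq_top, h.top, zero_smul]
  | succ n ih => rw [pow_succ, h.mul _ _ (pow_ne_zero n hI) hI, ih, succ_nsmul]
theorem prod {β : Type} (t : Finset β) {I : β → Ideal M.R} (hI : ∀ i ∈ t, I i ≠ ⊥) :
    cl (∏ i ∈ t, I i) = ∑ i ∈ t, cl (I i) := by
  classical
  induction t using Finset.induction_on with
  | empty => rw [prod_empty, Ideal.one_eq_top, h.top, sum_empty]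
  | insert i t hi ih =>
    rw [prod_insert hi, sum_insert hi, h.mul _ _ (hI i (mem_insert_self _ _))
      (prod_ne_zero_iff.2 fun j hj => hI j (mem_insert_of_mem hj)),
      ih fun j hj => hI j (mem_insert_of_mem hj)]
theorem div {I J : Ideal M.R} (hI : I ≠ ⊥) (hJ : J ≠ ⊥) (e : M.Eqv (I * J) (M.cj 1 J)) :
    (s - 1) (cl J) = cl I := by
  have h1 := h.eqv _ _ (mul_ne_zero hI hJ) e
  rw [h.mul _ _ hI hJ, h.cj _ hJ] at h1
  change s (cl J) - cl J = cl I
  rw [← h1, add_sub_cancel_right]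
theorem grp_stable : ∀ x ∈ h.grp, (s - 1) x ∈ h.grp := by
  rintro x ⟨I, hI, rfl⟩
  change s (cl I) - cl I ∈ h.grp
  exact h.grp.sub_mem ⟨_, M.cj_ne_bot 1 hI, h.cj I hI⟩ ⟨I, hI, rfl⟩
theorem finite_grp [Fintype k] : Finite h.grp := by
  classical
  obtain ⟨t, -, ht⟩ := M.exists_class_reps
  refine Set.Finite.subset (t.image cl).finite_toSet ?_
  rintro x ⟨I, hI, rfl⟩
  obtain ⟨J, hJ, e⟩ := ht I hI
  exact mem_coe.2 (mem_image.2 ⟨J, hJ, (h.eqv _ _ hI e).symm⟩)
theorem card_grp [Fintype k] : Nat.card h.grp ≤ Fintype.card k ^ M.clB := by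
  classical
  obtain ⟨t, hc, ht⟩ := M.exists_class_reps
  refine le_trans ?_ (card_image_le.trans hc : (t.image cl).card ≤ _)
  rw [← Set.ncard_coe_finset]
  refine Set.ncard_le_ncard (s := (h.grp : Set P)) ?_ (t.image cl).finite_toSet
  rintro x ⟨I, hI, rfl⟩
  obtain ⟨J, hJ, e⟩ := ht I hI
  exact mem_coe.2 (mem_image.2 ⟨J, hJ, (h.eqv _ _ hI e).symm⟩)
theorem achain_tors {b : k} (hb : b ∈ M.T) (n : ℕ) :
    (n % M.l) • cl (M.P b) = n • cl (M.P b) := by
  have hg := M.ι_ne_zero (X_sub_C_ne_zero b)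
  have h1 := h.eqv (Ideal.span {M.ι (X - C b)} * ⊤) ⊤ (by simpa using hg) (M.eqv_span_mul hg ⊤)
  rw [Ideal.mul_top, ← M.P_pow hb, h.pow (M.P_ne_bot b), h.top] at h1
  exact (nsmul_eq_mod_nsmul n h1).symm
theorem tau_add (w w' : k → ZMod M.l) : tau M cl (w + w') = tau M cl w + tau M cl w' := by
  rw [tau, tau, tau, ← sum_add_distrib]
  exact sum_congr rfl fun b hb => by rw [Pi.add_apply, ZMod.val_add, h.achain_tors hb, add_smul]
theorem tau_zero : tau M cl 0 = 0 := by
  simp [tau]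
theorem tau_nsmul (n : ℕ) (w : k → ZMod M.l) :
    tau M cl (fun b => (n : ZMod M.l) * w b) = n • tau M cl w := by
  rw [tau, tau, smul_sum]
  refine sum_congr rfl fun b hb => ?_
  rw [ZMod.val_mul, h.achain_tors hb, ZMod.val_natCast, mul_comm, mul_smul, h.achain_tors hb,
    smul_comm]
theorem tau_sum {β : Type} (t : Finset β) (c : β → ℕ) (w : β → k → ZMod M.l) :
    tau M cl (fun b => ∑ i ∈ t, (c i : ZMod M.l) * w i b) = ∑ i ∈ t, c i • tau M cl (w i) := by
  classical
  induction t using Finset.induction_on with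
  | empty => exact h.tau_zero
  | insert i t hi ih =>
    rw [sum_insert hi, ← ih, ← h.tau_nsmul, ← h.tau_add]
    simp only [sum_insert hi]
    rfl
omit h in
theorem tau_congr {w w' : k → ZMod M.l} (e : ∀ b ∈ M.T, w b = w' b) :
    tau M cl w = tau M cl w' := by
  exact sum_congr rfl fun b hb => by rw [e b hb]
theorem lam_tau (w : k → ZMod M.l) : (s - 1) (tau M cl w) = 0 := by
  rw [tau, map_sum]
  refine sum_eq_zero fun b _ => ?_
  have h1 := h.cj _ (M.P_ne_bot b)
  rw [M.cj_of_Y_mem _ (M.apsi_Y_mem_P b)] at h1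
  have h2 : (s - 1) (cl (M.P b)) = 0 := by
    change s (cl (M.P b)) - cl (M.P b) = 0
    rw [← h1, sub_self]
  rw [map_nsmul, h2, smul_zero]
open Classical in
theorem cl_prod_P {Z : Finset k} (hZ : Z ⊆ M.T) :
    cl (∏ b ∈ Z, M.P b) = tau M cl (fun b => if b ∈ Z then 1 else 0) := by
  have : Fact (1 < M.l) := ⟨M.hl.one_lt⟩
  rw [h.prod Z fun b _ => M.P_ne_bot b, tau, ← sum_subset hZ fun b _ hb => by simp [hb]]
  exact sum_congr rfl fun b hb => by simp [hb, ZMod.val_one]

end Sem

end Sem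

theorem achain_kill {P : Type} [AddCommGroup P] (lam : AddMonoid.End P) {x t : P} {e n : ℕ}
    (hx : (lam ^ e) x = t) (ht : lam t = 0) (h : e < n) : (lam ^ n) x = 0 := by
  obtain ⟨d, rfl⟩ := Nat.exists_eq_add_of_lt h
  rw [show e + d + 1 = d + 1 + e by omega, pow_add, achain_mul, hx, pow_succ,
    achain_mul, ht, map_zero]

/-- The socle of a combination of chain tops: if `λ^(e i) (x i) = t i`, `λ (t i) = 0` and the
coefficients `c j i` with `j + m < e i + 1` vanish, then only the terms with `j + m = e i + 1`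
survive in `λ^(m-1) ∑ c j i • λ^j (x i)`. -/
theorem socle_eq {P : Type} [AddCommGroup P] (lam : AddMonoid.End P) {r B m : ℕ} (hm : 1 ≤ m)
    (x t : ℕ → P) (e : ℕ → ℕ) (c : ℕ → ℕ → ℕ) (hx : ∀ i < r, (lam ^ e i) (x i) = t i)
    (ht : ∀ i < r, lam (t i) = 0) (he : ∀ i < r, e i < B)
    (hc : ∀ i < r, ∀ j < B, j + m < e i + 1 → c j i = 0) :
    (lam ^ (m - 1)) (∑ j ∈ range B, (lam ^ j) (∑ i ∈ range r, c j i • x i)) =
      ∑ i ∈ range r, (if m ≤ e i + 1 then c (e i + 1 - m) i else 0) • t i := by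
  simp only [map_sum, map_nsmul]
  rw [sum_comm]
  refine sum_congr rfl fun i hi => ?_
  have hi' := mem_range.1 hi
  have e1 : ∀ j, (lam ^ (m - 1)) ((lam ^ j) (x i)) = (lam ^ (m - 1 + j)) (x i) := fun j => by
    rw [pow_add, achain_mul]
  simp only [e1]
  split_ifs with h
  · rw [sum_eq_single_of_mem (e i + 1 - m) (mem_range.2 (by have := he i hi'; omega)),
      show m - 1 + (e i + 1 - m) = e i by omega, hx i hi']
    intro j hj hne
    rcases lt_or_gt_of_ne hne with h1 | h1
    · rw [hc i hi' j (mem_range.1 hj) (by omega), zero_smul]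
    · rw [achain_kill lam (hx i hi') (ht i hi') (by omega), smul_zero]
  · rw [zero_smul]
    exact sum_eq_zero fun j _ => by
      rw [achain_kill lam (hx i hi') (ht i hi') (by omega), smul_zero]

theorem socle_kill {P : Type} [AddCommGroup P] (lam : AddMonoid.End P) {r B : ℕ}
    (x t : ℕ → P) (e : ℕ → ℕ) (c : ℕ → ℕ → ℕ) (hx : ∀ i < r, (lam ^ e i) (x i) = t i)
    (ht : ∀ i < r, lam (t i) = 0) (he : ∀ i < r, e i < B) :
    (lam ^ B) (∑ j ∈ range B, (lam ^ j) (∑ i ∈ range r, c j i • x i)) = 0 := by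
  simp only [map_sum, map_nsmul]
  refine sum_eq_zero fun j _ => sum_eq_zero fun i hi => ?_
  have hi' := mem_range.1 hi
  rw [← achain_mul, ← pow_add,
    achain_kill lam (hx i hi') (ht i hi') (by have := he i hi'; omega), smul_zero]

end Crest.Agent.R312
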