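import Crest.Agent.R312.AOpsS

/-! # Row 312, part A: correctness of the branch-free linear algebra over a finite field -/

set_option autoImplicit false
set_option linter.unusedSectionVars false

open Polynomial

namespace Crest.Agent.R312

variable {α β γ ι : Type} {k : Type} [Field k] [Fintype k] {O : Ops α} {φ : α → k} {q : ℕ}

open Classical in
theorem Ops.Hom.ind (h : O.Hom φ) (hq : Fintype.card k = q) (x : α) :
    φ (O.ind q x) = if φ x = 0 then 0 else 1 := by
  have h1 : 1 < q := hq ▸ Fintype.one_lt_card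
  unfold Ops.ind
  rw [h.pow]
  split_ifs with hx
  · rw [hx, zero_pow (by omega)]
  · rw [← hq]; exact FiniteField.pow_card_sub_one_eq_one _ hx
theorem Ops.Hom.pinv (h : O.Hom φ) (hq : Fintype.card k = q) (x : α) :
    φ (O.pinv q x) = (φ x)⁻¹ := by
  have h1 : 1 < q := hq ▸ Fintype.one_lt_card
  unfold Ops.pinv
  rw [h.pow]
  by_cases hx : φ x = 0
  · rw [hx, zero_pow (by omega), inv_zero]
  · refine eq_inv_of_mul_eq_one_left ?_
    have h2 : φ x ^ (q - 1) = 1 := by rw [← hq]; exact FiniteField.pow_card_sub_one_eq_one _ hx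
    rw [← pow_succ, show 2 * q - 3 + 1 = (q - 1) * 2 by omega, pow_mul, h2, one_pow]
open Classical in
theorem Ops.Hom.anyNZ (h : O.Hom φ) (hq : Fintype.card k = q) (l : List α) :
    φ (O.anyNZ q l) = if ∀ x ∈ l, φ x = 0 then 0 else 1 := by
  have key : ((l.map fun x => O.sub O.one (O.ind q x)).map φ).prod =
      if ∀ x ∈ l, φ x = 0 then 1 else 0 := by
    induction l with
    | nil => simp
    | cons a l ih =>
      rw [List.map_cons, List.map_cons, List.prod_cons, ih, h.sub, h.one, h.ind hq]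
      by_cases ha : φ a = 0 <;> simp [ha]
  unfold Ops.anyNZ
  rw [h.sub, h.one, h.prod, key]
  split_ifs <;> simp

variable {M M' : Type} [AddCommGroup M] [Module k M] [AddCommGroup M'] [Module k M']
  {V : MOps α β} {W : MOps α γ} {ψ : β → M} {ψ' : γ → M'}

theorem aopsf_mono {l l' : List β} (h : ∀ x ∈ l, x ∈ l') : lspan k ψ l ≤ lspan k ψ l' :=
  lspan_le.2 fun r hr => mem_lspan (h r hr)

theorem aopsf_cons (a : β) (l : List β) :
    lspan k ψ (a :: l) = lspan k ψ [a] ⊔ lspan k ψ l := by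
  refine le_antisymm (lspan_le.2 fun r hr => ?_)
    (sup_le (aopsf_mono fun x hx => by simp_all) (aopsf_mono fun x hx => by simp [hx]))
  rcases List.mem_cons.1 hr with rfl | hr
  · exact Submodule.mem_sup_left (mem_lspan (by simp))
  · exact Submodule.mem_sup_right (mem_lspan hr)

theorem Ops.Hom.pick (h : O.Hom φ) (hq : Fintype.card k = q) (hV : V.Hom φ ψ) {f : β → α}
    {lam : M →ₗ[k] k} (hf : ∀ r, φ (f r) = lam (ψ r)) (rows : List β) :
    ψ (O.pick V q f rows) ∈ lspan k ψ rows ∧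
      ((∀ r ∈ rows, lam (ψ r) = 0) ∨ lam (ψ (O.pick V q f rows)) = 1) := by
  have key : ψ (O.pick V q f rows) ∈ lspan k ψ rows ∧
      (((∀ r ∈ rows, lam (ψ r) = 0) ∧ ψ (O.pick V q f rows) = 0) ∨
        lam (ψ (O.pick V q f rows)) = 1) := by
    induction rows using List.reverseRecOn with
    | nil => simp [Ops.pick, hV.zero]
    | append_singleton l r ih =>
      have e : ψ (O.pick V q f (l ++ [r])) = ψ (O.pick V q f l) +
          ((1 - lam (ψ (O.pick V q f l))) * (lam (ψ r))⁻¹) • ψ r := by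
        unfold Ops.pick
        rw [List.foldl_append, List.foldl_cons, List.foldl_nil, hV.add, hV.smul, h.mul, h.sub,
          h.one, h.pinv hq, hf, hf]
      rw [e]
      refine ⟨Submodule.add_mem _ (aopsf_mono (fun x hx => by simp [hx]) ih.1)
        (Submodule.smul_mem _ _ (mem_lspan (by simp))), ?_⟩
      rcases ih.2 with ⟨h1, h2⟩ | h1
      · by_cases hr : lam (ψ r) = 0
        · left
          refine ⟨fun x hx => ?_, by simp [h2, hr]⟩
          rcases List.mem_append.1 hx with hx | hx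
          · exact h1 x hx
          · rw [List.mem_singleton.1 hx]; exact hr
        · right
          simp [h2, hr]
      · right
        simp [h1]
  exact ⟨key.1, key.2.imp_left And.left⟩

theorem Ops.Hom.cut (h : O.Hom φ) (hq : Fintype.card k = q) (hV : V.Hom φ ψ) {f : β → α}
    {lam : M →ₗ[k] k} (hf : ∀ r, φ (f r) = lam (ψ r)) (rows : List β) :
    lspan k ψ (O.cut V q f rows) = lspan k ψ rows ⊓ LinearMap.ker lam ∧
      lspan k ψ (O.pick V q f rows :: O.cut V q f rows) = lspan k ψ rows := by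
  obtain ⟨hp, hp'⟩ := h.pick hq hV hf rows
  set p := ψ (O.pick V q f rows) with hpd
  set T : M →ₗ[k] M := LinearMap.id - lam.smulRight p with hT
  have hTx : ∀ x, T x = x - lam x • p := fun x => by simp [hT]
  have h1 : lspan k ψ (O.cut V q f rows) = (lspan k ψ rows).map T := by
    unfold Ops.cut
    refine lspan_map T rows _ fun r _ => ?_
    rw [hV.add, hV.smul, h.neg, hf, hTx, neg_smul, sub_eq_add_neg]
  have h2 : ∀ x ∈ lspan k ψ rows, lam (T x) = 0 := by
    intro x hx
    rcases hp' with h3 | h3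
    · have h4 : lspan k ψ rows ≤ LinearMap.ker lam := lspan_le.2 h3
      have h5 : lam x = 0 := h4 hx
      rw [hTx, h5, zero_smul, sub_zero, h5]
    · rw [hTx, map_sub, map_smul, h3, smul_eq_mul, mul_one, sub_self]
  have h3 : ∀ x ∈ lspan k ψ rows, T x ∈ lspan k ψ rows := fun x hx => by
    rw [hTx]; exact Submodule.sub_mem _ hx (Submodule.smul_mem _ _ hp)
  constructor
  · rw [h1]
    refine le_antisymm ?_ fun x hx => ⟨x, hx.1, ?_⟩
    · rintro _ ⟨x, hx, rfl⟩
      exact ⟨h3 x hx, h2 x hx⟩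
    · have h5 : lam x = 0 := hx.2
      rw [hTx, h5, zero_smul, sub_zero]
  · rw [aopsf_cons, h1]
    refine le_antisymm (sup_le (lspan_le.2 fun r hr => ?_) ?_) fun x hx => ?_
    · rw [List.mem_singleton.1 hr]; exact hp
    · rintro _ ⟨x, hx, rfl⟩
      exact h3 x hx
    · have e : x = lam x • p + T x := by rw [hTx]; abel
      rw [e]
      exact Submodule.add_mem _ (Submodule.mem_sup_left (Submodule.smul_mem _ _
        (mem_lspan (r := O.pick V q f rows) (by simp)))) (Submodule.mem_sup_right ⟨x, hx, rfl⟩)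

theorem Ops.Hom.elim (h : O.Hom φ) (hq : Fintype.card k = q) (hV : V.Hom φ ψ) {fn : ι → β → α}
    {lam : ι → M →ₗ[k] k} (idx : List ι) (hf : ∀ i ∈ idx, ∀ r, φ (fn i r) = lam i (ψ r))
    (rows : List β) :
    (∀ x, x ∈ lspan k ψ (O.elim V q fn idx rows).2 ↔
        x ∈ lspan k ψ rows ∧ ∀ i ∈ idx, lam i x = 0) ∧
      lspan k ψ (O.elim V q fn idx rows).1 ⊔ lspan k ψ (O.elim V q fn idx rows).2 =
        lspan k ψ rows := by
  induction idx using List.reverseRecOn with
  | nil =>
    refine ⟨fun x => by simp [Ops.elim], ?_⟩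
    have : lspan k ψ ([] : List β) = ⊥ := lspan_eq_bot.2 (by simp)
    simp [Ops.elim, this]
  | append_singleton l i ih =>
    obtain ⟨ih1, ih2⟩ := ih (fun j hj => hf j (by simp [hj]))
    have e : O.elim V q fn (l ++ [i]) rows =
        (O.pick V q (fn i) (O.elim V q fn l rows).2 :: (O.elim V q fn l rows).1,
          O.cut V q (fn i) (O.elim V q fn l rows).2) := by
      unfold Ops.elim
      rw [List.foldl_append, List.foldl_cons, List.foldl_nil]
    obtain ⟨c1, c2⟩ := h.cut hq hV (hf i (by simp)) (O.elim V q fn l rows).2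
    rw [e]
    constructor
    · intro x
      simp only [c1, Submodule.mem_inf, ih1, LinearMap.mem_ker, List.mem_append,
        List.mem_singleton]
      constructor
      · rintro ⟨⟨h1, h2⟩, h3⟩
        refine ⟨h1, fun j hj => ?_⟩
        rcases hj with hj | rfl
        · exact h2 j hj
        · exact h3
      · rintro ⟨h1, h2⟩
        exact ⟨⟨h1, fun j hj => h2 j (Or.inl hj)⟩, h2 i (Or.inr rfl)⟩
    · rw [aopsf_cons] at c2
      simp only
      rw [aopsf_cons, ← ih2, ← c2]
      ac_rfl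

/-- The pivots span the row space if the functionals separate the points of the row space. -/
theorem Ops.Hom.elim_fst (h : O.Hom φ) (hq : Fintype.card k = q) (hV : V.Hom φ ψ)
    {fn : ι → β → α} {lam : ι → M →ₗ[k] k} (idx : List ι)
    (hf : ∀ i ∈ idx, ∀ r, φ (fn i r) = lam i (ψ r)) (rows : List β) (hsep : ∀ x ∈ lspan k ψ rows, (∀ i ∈ idx, lam i x = 0) → x = 0) :
    lspan k ψ (O.elim V q fn idx rows).1 = lspan k ψ rows := by
  obtain ⟨h1, h2⟩ := h.elim hq hV idx hf rows
  have h3 : lspan k ψ (O.elim V q fn idx rows).2 = ⊥ :=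
    (Submodule.eq_bot_iff _).2 fun x hx => hsep x ((h1 x).1 hx).1 ((h1 x).1 hx).2
  rwa [h3, sup_bot_eq] at h2

/-- The kernel of a linear map `T`, given the graph of `T` on a spanning list. -/
theorem Ops.Hom.kerP (h : O.Hom φ) (hq : Fintype.card k = q) (hV : V.Hom φ ψ) (hW : W.Hom φ ψ')
    {fn : ι → γ → α} {lam : ι → M' →ₗ[k] k} (idx : List ι)
    (hf : ∀ i ∈ idx, ∀ r, φ (fn i r) = lam i (ψ' r)) (rows : List (β × γ)) (T : M →ₗ[k] M') (hT : ∀ r ∈ rows, ψ' r.2 = T (ψ r.1))
    (hsep : ∀ y ∈ lspan k (fun r : β × γ => ψ' r.2) rows, (∀ i ∈ idx, lam i y = 0) → y = 0) :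
    lspan k ψ (O.kerP V W q fn idx rows) =
      lspan k (fun r : β × γ => ψ r.1) rows ⊓ LinearMap.ker T := by
  obtain ⟨h1, -⟩ := h.elim hq (hV.prod hW) (fn := fun i r => fn i r.2)
    (lam := fun i => (lam i).comp (LinearMap.snd k M M')) idx (fun i hi r => hf i hi r.2) rows
  set Ψ : β × γ → M × M' := fun x => (ψ x.1, ψ' x.2) with hΨ
  have e1 : ∀ l : List (β × γ), lspan k ψ (l.map Prod.fst) =
      (lspan k Ψ l).map (LinearMap.fst k M M') := fun l => lspan_map _ l _ fun r _ => rfl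
  have e2 : lspan k (fun r : β × γ => ψ r.1) rows = (lspan k Ψ rows).map (LinearMap.fst k M M') := by
    have := lspan_map (ψ := Ψ) (ψ' := fun r : β × γ => ψ r.1) (LinearMap.fst k M M') rows id
      fun r _ => rfl
    rwa [List.map_id] at this
  have e3 : lspan k (fun r : β × γ => ψ' r.2) rows =
      (lspan k Ψ rows).map (LinearMap.snd k M M') := by
    have := lspan_map (ψ := Ψ) (ψ' := fun r : β × γ => ψ' r.2) (LinearMap.snd k M M') rows id
      fun r _ => rfl
    rwa [List.map_id] at this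
  have hg : lspan k Ψ rows ≤ T.graph := lspan_le.2 fun r hr => hT r hr
  unfold Ops.kerP
  rw [e1, e2]
  refine le_antisymm ?_ ?_
  · rintro _ ⟨z, hz, rfl⟩
    obtain ⟨h2, h3⟩ := (h1 z).1 hz
    refine ⟨⟨z, h2, rfl⟩, ?_⟩
    have h4 : z.2 = 0 := hsep z.2 (by rw [e3]; exact ⟨z, h2, rfl⟩) h3
    have h5 : z.2 = T z.1 := hg h2
    show T z.1 = 0
    rw [← h5, h4]
  · rintro _ ⟨⟨z, hz, rfl⟩, h2⟩
    refine ⟨z, (h1 z).2 ⟨hz, fun i _ => ?_⟩, rfl⟩
    have h5 : z.2 = T z.1 := hg hz
    have h6 : T z.1 = 0 := h2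
    show lam i z.2 = 0
    rw [h5, h6, map_zero]

open Classical in
theorem Ops.Hom.firstNZ (h : O.Hom φ) (hV : V.Hom φ ψ) {nz : β → α}
    (hnz : ∀ x, φ (nz x) = if ψ x = 0 then 0 else 1) (l : List β) :
    ψ (O.firstNZ V nz l) = ((l.map ψ).find? fun x => decide (x ≠ 0)).getD 0 := by
  have key : ∀ p : β, ψ (l.foldl (fun p r => V.add p (V.smul (O.sub O.one (nz p)) r)) p) =
      if ψ p = 0 then ((l.map ψ).find? fun x => decide (x ≠ 0)).getD 0 else ψ p := by
    induction l with
    | nil => intro p; split_ifs with hp <;> simp [*]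
    | cons a l ih =>
      intro p
      rw [List.foldl_cons, ih, hV.add, hV.smul, h.sub, h.one, hnz]
      by_cases hp : ψ p = 0
      · by_cases ha : ψ a = 0 <;> simp [hp, ha]
      · simp [hp]
  unfold Ops.firstNZ
  rw [key, if_pos hV.zero]

open Classical in
theorem Ops.Hom.firstNZ_mem (h : O.Hom φ) (hV : V.Hom φ ψ) {nz : β → α}
    (hnz : ∀ x, φ (nz x) = if ψ x = 0 then 0 else 1) {l : List β} (hl : ∃ r ∈ l, ψ r ≠ 0) :
    ψ (O.firstNZ V nz l) ≠ 0 ∧ ∃ r ∈ l, ψ (O.firstNZ V nz l) = ψ r := by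
  rw [h.firstNZ hV hnz]
  obtain ⟨r, hr, hr0⟩ := hl
  rcases hfind : (l.map ψ).find? fun x => decide (x ≠ 0) with _ | y
  · rw [List.find?_eq_none] at hfind
    exact absurd (by simpa using hr0) (hfind (ψ r) (List.mem_map_of_mem hr))
  · have h1 := List.find?_some hfind
    obtain ⟨r', hr', h2⟩ := List.mem_map.1 (List.mem_of_find?_eq_some hfind)
    exact ⟨by simpa using h1, r', hr', by simp [h2]⟩

open Classical in
/-- The first nonzero member of a concatenation comes from the first block having one. -/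
theorem Ops.Hom.firstNZ_flatMap (h : O.Hom φ) (hV : V.Hom φ ψ) {nz : β → α}
    (hnz : ∀ x, φ (nz x) = if ψ x = 0 then 0 else 1) (L : ℕ → List β) {n D : ℕ} (hD : D < n)
    (hl : ∃ r ∈ L D, ψ r ≠ 0) :
    ψ (O.firstNZ V nz ((List.range n).flatMap L)) ≠ 0 ∧
      ∃ D' ≤ D, ∃ r ∈ L D', ψ (O.firstNZ V nz ((List.range n).flatMap L)) = ψ r := by
  obtain ⟨m, rfl⟩ : ∃ m, n = (D + 1) + m := ⟨n - (D + 1), by omega⟩
  obtain ⟨r, hr, hr0⟩ := hl
  have hl' : ∃ r ∈ (List.range (D + 1)).flatMap L, ψ r ≠ 0 :=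
    ⟨r, List.mem_flatMap.2 ⟨D, by simp, hr⟩, hr0⟩
  obtain ⟨h1, r', hr', h2⟩ := h.firstNZ_mem hV hnz hl'
  have e : ψ (O.firstNZ V nz ((List.range (D + 1 + m)).flatMap L)) =
      ψ (O.firstNZ V nz ((List.range (D + 1)).flatMap L)) := by
    rw [h.firstNZ hV hnz] at h1
    rw [h.firstNZ hV hnz, h.firstNZ hV hnz, List.range_add, List.flatMap_append, List.map_append,
      List.find?_append]
    rcases hfind : (((List.range (D + 1)).flatMap L).map ψ).find? fun x => decide (x ≠ 0)
      with _ | y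
    · rw [hfind] at h1
      exact absurd rfl h1
    · rfl
  rw [e]
  obtain ⟨D', hD', hr''⟩ := List.mem_flatMap.1 hr'
  exact ⟨h1, D', by have := List.mem_range.1 hD'; omega, r', hr'', h2⟩

end Crest.Agent.R312
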