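import Crest.Agent.R312.AAlg
import Crest.Agent.R312.AOpsF

/-! # Row 312, part A: linear algebra modulo `l` -/

set_option autoImplicit false
set_option linter.unusedSectionVars false

noncomputable section

open Polynomial Finset

namespace Crest.Agent.R312

/-- The vectors `ws` (of length `nc`, modulo `l`) are independent modulo the constants. -/
def Indep (l nc : ℕ) (ws : List (List ℕ)) : Prop :=
  ∀ (c : ℕ → ZMod l) (κ : ZMod l),
    (∀ Z < nc, ∑ i ∈ range ws.length, c i * (((ws.getD i []).getD Z 0 : ℕ) : ZMod l) = κ) →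
      ∀ i < ws.length, c i = 0

theorem achainl_unitV (i j : ℕ) : (unitV i).getD j 0 = if j = i then 1 else 0 := by
  unfold unitV
  rw [List.getD_eq_getElem?_getD]
  rcases lt_trichotomy j i with h | h | h
  · rw [List.getElem?_append_left (by simpa using h), if_neg h.ne]
    simp [h]
  · subst h
    simp
  · rw [List.getElem?_eq_none (by simp; omega), if_neg h.ne']
    rfl

theorem achainl_cast_eq_zero {l x : ℕ} : ((x : ℕ) : ZMod l) = 0 ↔ x % l = 0 := by
  rw [ZMod.natCast_eq_zero_iff, Nat.dvd_iff_mod_eq_zero]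

/-- The rows of the elimination. -/
def achainlRows (nc : ℕ) (obs : List (List ℕ)) : List (List ℕ × List ℕ) :=
  ((List.range obs.length).map fun i => (unitV i, obs.getD i [])) ++
    [(unitV obs.length, List.replicate nc 1)]

/-- The result of the elimination. -/
def achainlK (l nc : ℕ) (obs : List (List ℕ)) : List (List ℕ × List ℕ) :=
  ((zops l).elim ((zops l).self.list.prod (zops l).self.list) l
    (fun (i : ℕ) (r : List ℕ × List ℕ) => r.2.getD i 0) (List.range nc) (achainlRows nc obs)).2

/-- The interpretation of the rows. -/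
def achainlψ (l : ℕ) (r : List ℕ × List ℕ) : (ℕ → ZMod l) × (ℕ → ZMod l) :=
  (fun i => ((r.1.getD i 0 : ℕ) : ZMod l), fun i => ((r.2.getD i 0 : ℕ) : ZMod l))

theorem achainl_rel (l nc : ℕ) (obs : List (List ℕ)) :
    rel l nc obs = (((achainlK l nc obs).map Prod.fst).map (List.take obs.length)).find?
      fun c => c.any fun x => decide (x % l ≠ 0) := rfl

theorem achainl_span {l : ℕ} [hl : Fact l.Prime] (nc : ℕ) (obs : List (List ℕ))
    (x : (ℕ → ZMod l) × (ℕ → ZMod l)) :
    x ∈ lspan (ZMod l) (achainlψ l) (achainlK l nc obs) ↔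
      x ∈ lspan (ZMod l) (achainlψ l) (achainlRows nc obs) ∧ ∀ Z < nc, x.2 Z = 0 := by
  have h : (zops l).Hom (fun n : ℕ => (n : ZMod l)) := zops_hom l hl.out.pos (ZMod.natCast_self l)
  have hV : ((zops l).self.list.prod (zops l).self.list).Hom (fun n : ℕ => (n : ZMod l))
      (achainlψ l) := h.self.list.prod h.self.list
  have := (h.elim (ZMod.card l) hV (fn := fun (i : ℕ) (r : List ℕ × List ℕ) => r.2.getD i 0)
    (lam := fun i => (LinearMap.proj i).comp (LinearMap.snd (ZMod l) (ℕ → ZMod l) (ℕ → ZMod l)))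
    (List.range nc) (fun i _ r => rfl) (achainlRows nc obs)).1 x
  simpa [achainlK] using this

theorem achainl_take (r : List ℕ) {n i : ℕ} (h : i < n) : (r.take n).getD i 0 = r.getD i 0 := by
  rw [List.getD_eq_getElem?_getD, List.getD_eq_getElem?_getD, List.getElem?_take_of_lt h]

theorem achainl_replicate {nc Z : ℕ} (h : Z < nc) : (List.replicate nc 1).getD Z 0 = 1 := by
  rw [List.getD_eq_getElem?_getD, List.getElem?_replicate, if_pos h]
  rfl

theorem achainl_sum {M : Type} [AddCommMonoid M] (n : ℕ) (f : ℕ → M) :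
    ((List.range n).map f).sum = ∑ i ∈ range n, f i := by
  induction n with
  | zero => simp
  | succ n ih => rw [List.range_succ, List.map_append, List.sum_append, ih, sum_range_succ]; simp

theorem rel_some {l nc : ℕ} (hl : l.Prime) {obs : List (List ℕ)} {c : List ℕ}
    (h : rel l nc obs = some c) :
    (∃ i < obs.length, c.getD i 0 % l ≠ 0) ∧ ∃ κ : ZMod l, ∀ Z < nc,
      ∑ i ∈ range obs.length, ((c.getD i 0 : ℕ) : ZMod l) *
        (((obs.getD i []).getD Z 0 : ℕ) : ZMod l) = κ := by
  have : Fact l.Prime := ⟨hl⟩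
  rw [achainl_rel] at h
  have h1 := List.find?_some h
  have h2 := List.mem_of_find?_eq_some h
  simp only [List.mem_map] at h2
  obtain ⟨_, ⟨r, hr, rfl⟩, rfl⟩ := h2
  constructor
  · obtain ⟨x, hx, hx'⟩ := List.any_eq_true.1 h1
    obtain ⟨i, hi, rfl⟩ := List.getElem_of_mem hx
    refine ⟨i, lt_of_lt_of_le hi (List.length_take_le _ _), ?_⟩
    rw [List.getD_eq_getElem _ _ hi]
    simpa using hx'
  · let S : Submodule (ZMod l) ((ℕ → ZMod l) × (ℕ → ZMod l)) :=
      { carrier := {x | ∀ Z < nc, x.2 Z = ∑ i ∈ range obs.length,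
          x.1 i * (((obs.getD i []).getD Z 0 : ℕ) : ZMod l) + x.1 obs.length}
        zero_mem' := fun Z _ => by simp
        add_mem' := fun {x y} hx hy Z hZ => by
          simp only [Prod.snd_add, Prod.fst_add, Pi.add_apply, hx Z hZ, hy Z hZ, add_mul,
            sum_add_distrib]
          ring
        smul_mem' := fun a x hx Z hZ => by
          simp only [Prod.smul_snd, Prod.smul_fst, Pi.smul_apply, smul_eq_mul, hx Z hZ, mul_add,
            mul_sum, mul_assoc] }
    have hS : lspan (ZMod l) (achainlψ l) (achainlRows nc obs) ≤ S := by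
      refine lspan_le.2 fun r hr Z hZ => ?_
      simp only [achainlRows, List.mem_append, List.mem_map, List.mem_range,
        List.mem_singleton] at hr
      rcases hr with ⟨j, hj, rfl⟩ | rfl
      · simp only [achainlψ, achainl_unitV]
        rw [if_neg hj.ne', sum_eq_single j]
        · simp
        · intro i _ hi
          simp [hi]
        · intro h3
          exact absurd (mem_range.2 hj) h3
      · simp only [achainlψ, achainl_unitV, achainl_replicate hZ]
        rw [sum_eq_zero]
        · simp
        · intro i hi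
          simp [(mem_range.1 hi).ne]
    obtain ⟨h3, h4⟩ := (achainl_span nc obs _).1 (mem_lspan (ψ := achainlψ l) hr)
    refine ⟨-(achainlψ l r).1 obs.length, fun Z hZ => ?_⟩
    have h5 := hS h3 Z hZ
    rw [h4 Z hZ] at h5
    rw [eq_neg_iff_add_eq_zero, h5]
    congr 1
    exact sum_congr rfl fun i hi => by rw [achainl_take _ (mem_range.1 hi)]; rfl

theorem rel_none {l nc : ℕ} (hl : l.Prime) {obs : List (List ℕ)} (h : rel l nc obs = none) :
    Indep l nc obs := by
  have : Fact l.Prime := ⟨hl⟩
  rw [achainl_rel, List.find?_eq_none] at h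
  intro c κ hc i hi
  have hS : lspan (ZMod l) (achainlψ l) (achainlK l nc obs) ≤ LinearMap.ker
      ((LinearMap.proj i).comp (LinearMap.fst (ZMod l) (ℕ → ZMod l) (ℕ → ZMod l))) := by
    refine lspan_le.2 fun r hr => ?_
    have h1 := h (r.1.take obs.length) (List.mem_map_of_mem (List.mem_map_of_mem hr))
    show ((r.1.getD i 0 : ℕ) : ZMod l) = 0
    rw [achainl_cast_eq_zero, ← achainl_take _ hi]
    by_cases h2 : i < (r.1.take obs.length).length
    · rw [List.getD_eq_getElem _ _ h2]
      by_contra h3
      exact h1 (List.any_eq_true.2 ⟨_, List.getElem_mem h2, by simpa using h3⟩)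
    · rw [List.getD_eq_default _ _ (not_lt.1 h2), Nat.zero_mod]
  have hx : ∑ j ∈ range obs.length, c j • achainlψ l (unitV j, obs.getD j []) -
      κ • achainlψ l (unitV obs.length, List.replicate nc 1) ∈
      lspan (ZMod l) (achainlψ l) (achainlK l nc obs) := by
    refine (achainl_span nc obs _).2 ⟨?_, fun Z hZ => ?_⟩
    · refine Submodule.sub_mem _ (Submodule.sum_mem _ fun j hj => Submodule.smul_mem _ _ ?_)
        (Submodule.smul_mem _ _ ?_)
      · exact mem_lspan (List.mem_append_left _
          (List.mem_map.2 ⟨j, List.mem_range.2 (mem_range.1 hj), rfl⟩))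
      · exact mem_lspan (List.mem_append_right _ (List.mem_singleton_self _))
    · simp only [Prod.snd_sub, Prod.snd_sum, Prod.smul_snd, Pi.sub_apply, Finset.sum_apply,
        Pi.smul_apply, smul_eq_mul, achainlψ, achainl_replicate hZ, hc Z hZ]
      simp
  have h2 := hS hx
  simp only [LinearMap.mem_ker, LinearMap.comp_apply, LinearMap.fst_apply, LinearMap.proj_apply,
    Prod.fst_sub, Prod.fst_sum, Prod.smul_fst, Pi.sub_apply, Finset.sum_apply, Pi.smul_apply,
    smul_eq_mul, achainlψ, achainl_unitV] at h2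
  rw [if_neg hi.ne, sum_eq_single i] at h2
  · simpa using h2
  · intro j _ hj
    simp [hj.symm]
  · intro h3
    exact absurd (mem_range.2 hi) h3

/-- `nc` vectors and the constant vector in a space of dimension `nc ≥ 1` are dependent. -/
theorem not_indep {l nc : ℕ} (hl : l.Prime) (hnc : 0 < nc) {obs : List (List ℕ)}
    (h : nc ≤ obs.length) : ¬ Indep l nc obs := by
  have : Fact l.Prime := ⟨hl⟩
  intro hind
  let v : Option (Fin obs.length) → Fin nc → ZMod l := fun o Z =>
    o.elim 1 fun i => (((obs.getD i []).getD Z 0 : ℕ) : ZMod l)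
  have hv : LinearIndependent (ZMod l) v := by
    rw [Fintype.linearIndependent_iff]
    intro g hg
    let c : ℕ → ZMod l := fun i => if h : i < obs.length then g (some ⟨i, h⟩) else 0
    have h1 : ∀ Z < nc, ∑ i ∈ range obs.length,
        c i * (((obs.getD i []).getD Z 0 : ℕ) : ZMod l) = -g none := by
      intro Z hZ
      have h2 := congrFun hg ⟨Z, hZ⟩
      simp only [Finset.sum_apply, Pi.smul_apply, smul_eq_mul, Fintype.sum_option, v, Option.elim,
        mul_one, Pi.zero_apply] at h2
      rw [eq_neg_iff_add_eq_zero, add_comm, ← h2, sum_range]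
      congr 1
      exact sum_congr rfl fun i _ => by simp only [c, dif_pos i.2]
    have h3 := hind c _ h1
    intro o
    cases o with
    | none =>
      have h4 := h1 0 hnc
      rw [sum_eq_zero fun i hi => by rw [h3 i (mem_range.1 hi), zero_mul]] at h4
      exact neg_eq_zero.1 h4.symm
    | some i =>
      have h4 := h3 i i.2
      simpa only [c, dif_pos i.2] using h4
  have h5 := hv.fintype_card_le_finrank
  simp only [Fintype.card_option, Fintype.card_fin, Module.finrank_fintype_fun_eq_card] at h5
  omega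

theorem lin_getD {l nc : ℕ} (c : List ℕ) (ws : List (List ℕ)) {Z : ℕ} (hZ : Z < nc) :
    (((lin l nc c ws).getD Z 0 : ℕ) : ZMod l) =
      ∑ i ∈ range ws.length, ((c.getD i 0 : ℕ) : ZMod l) *
        (((ws.getD i []).getD Z 0 : ℕ) : ZMod l) := by
  unfold lin
  rw [List.getD_eq_getElem _ _ (by simpa using hZ), List.getElem_map, List.getElem_range,
    ZMod.natCast_mod, achainl_sum]
  push_cast
  rfl

/-- Exchange. -/
theorem Indep.set {l nc : ℕ} (hl : l.Prime) {ws : List (List ℕ)} (h : Indep l nc ws) {c : List ℕ}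
    {i₀ : ℕ} (hi : i₀ < ws.length) (hc : c.getD i₀ 0 % l ≠ 0) :
    Indep l nc (ws.set i₀ (lin l nc c ws)) := by
  have : Fact l.Prime := ⟨hl⟩
  intro d κ hd
  rw [List.length_set] at hd ⊢
  have hc' : ((c.getD i₀ 0 : ℕ) : ZMod l) ≠ 0 := fun h0 => hc (achainl_cast_eq_zero.1 h0)
  have h1 := h (fun i => (if i = i₀ then 0 else d i) + d i₀ * ((c.getD i 0 : ℕ) : ZMod l)) κ
    (fun Z hZ => by
      rw [← hd Z hZ]
      simp only [add_mul, sum_add_distrib, mul_assoc, ← mul_sum]
      rw [← lin_getD c ws hZ, ← add_sum_erase _ _ (mem_range.2 hi),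
        ← add_sum_erase (range ws.length) _ (mem_range.2 hi), if_pos rfl, zero_mul, zero_add,
        add_comm]
      congr 1
      · congr 3
        rw [List.getD_eq_getElem _ _ (by simpa using hi), List.getElem_set_self]
      · refine sum_congr rfl fun i hi' => ?_
        have h2 : i ≠ i₀ := ne_of_mem_erase hi'
        rw [if_neg h2, List.getD_eq_getElem?_getD (l := ws.set _ _), List.getElem?_set_ne h2.symm,
          ← List.getD_eq_getElem?_getD])
  have h2 : d i₀ = 0 := by
    have h3 := h1 i₀ hi
    simp only [if_pos, zero_add] at h3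
    exact (mul_eq_zero.1 h3).resolve_right hc'
  intro i hi'
  by_cases h3 : i = i₀
  · rw [h3, h2]
  · have h4 := h1 i hi'
    simpa only [if_neg h3, h2, zero_mul, add_zero] using h4

theorem indep_unit (l nc : ℕ) :
    Indep l nc ((List.range (nc - 1)).map fun i => unitV (i + 1)) := by
  intro c κ h i hi
  simp only [List.length_map, List.length_range] at h hi
  have e : ∀ Z, ∑ j ∈ range (nc - 1), c j *
      (((((List.range (nc - 1)).map fun i => unitV (i + 1)).getD j []).getD Z 0 : ℕ) : ZMod l) =
      ∑ j ∈ range (nc - 1), if Z = j + 1 then c j else 0 := by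
    intro Z
    refine sum_congr rfl fun j hj => ?_
    rw [List.getD_eq_getElem (l := List.map _ _) _ (by simpa using hj), List.getElem_map,
      List.getElem_range, achainl_unitV]
    split_ifs <;> simp
  have h0 := h 0 (by omega)
  have h1 := h (i + 1) (by omega)
  rw [e] at h0 h1
  simp only [Nat.add_right_cancel_iff, sum_ite_eq, mem_range, if_pos hi] at h1
  rw [h1, ← h0]
  simp

/-- The normalised relation. -/
theorem relQ_spec {α : Type} (E : Env α) (hl : E.l.Prime) {nc : ℕ} (hnc : 0 < nc) (oq : List ℕ)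
    {obs : List (List ℕ)} (hlen : obs.length = nc - 1) (hind : Indep E.l nc obs) :
    ∃ κ : ZMod E.l, ∀ Z < nc, ((oq.getD Z 0 : ℕ) : ZMod E.l) +
      ∑ i ∈ range obs.length, (((E.relQ nc oq obs).getD i 0 : ℕ) : ZMod E.l) *
        (((obs.getD i []).getD Z 0 : ℕ) : ZMod E.l) = κ := by
  have : Fact E.l.Prime := ⟨hl⟩
  have hO : (zops E.l).Hom (fun n : ℕ => (n : ZMod E.l)) :=
    zops_hom E.l hl.pos (ZMod.natCast_self E.l)
  cases hr : rel E.l nc (oq :: obs) with
  | none => exact absurd (rel_none hl hr) (not_indep hl hnc (by simp; omega))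
  | some c =>
    obtain ⟨⟨i, hi, hi'⟩, κ, hκ⟩ := rel_some hl hr
    simp only [List.length_cons, sum_range_succ', List.getD_cons_succ, List.getD_cons_zero] at hκ hi
    have h0 : ((c.getD 0 0 : ℕ) : ZMod E.l) ≠ 0 := by
      intro h0
      have h1 := hind (fun i => ((c.getD (i + 1) 0 : ℕ) : ZMod E.l)) κ (fun Z hZ => by
        have := hκ Z hZ
        rwa [h0, zero_mul, add_zero] at this)
      apply hi'
      rw [← achainl_cast_eq_zero]
      cases i with
      | zero => exact h0
      | succ i => exact h1 i (by omega)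
    have h1 : ∀ j, (((E.relQ nc oq obs).getD j 0 : ℕ) : ZMod E.l) =
        ((c.getD (j + 1) 0 : ℕ) : ZMod E.l) * ((c.getD 0 0 : ℕ) : ZMod E.l)⁻¹ := by
      intro j
      unfold Env.relQ
      rw [hr, Option.getD_some]
      have e1 : c.headD 0 = c.getD 0 0 := by cases c <;> rfl
      have e2 : c.getD (j + 1) 0 = c.tail.getD j 0 := by cases c <;> simp
      rw [e1, e2]
      by_cases hj : j < c.tail.length
      · rw [List.getD_eq_getElem _ _ (by simpa using hj), List.getElem_map, ZMod.natCast_mod,
          Nat.cast_mul, hO.pinv (ZMod.card E.l), List.getD_eq_getElem _ _ hj]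
      · rw [List.getD_eq_default _ _ (by simpa using hj),
          List.getD_eq_default _ _ (not_lt.1 hj)]
        simp
    refine ⟨κ * ((c.getD 0 0 : ℕ) : ZMod E.l)⁻¹, fun Z hZ => ?_⟩
    rw [← hκ Z hZ, add_mul, sum_mul, add_comm]
    congr 1
    · exact sum_congr rfl fun j _ => by rw [h1]; ring
    · field_simp

end Crest.Agent.R312
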