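import Crest.Agent.R312.AMdl

/-! # Row 312, part A: the coordinate ring is a Dedekind domain -/

set_option autoImplicit false
set_option linter.unusedSectionVars false

noncomputable section

open Polynomial Finset

namespace Crest.Agent.R312

namespace Mdl

variable {k : Type} [Field k] (M : Mdl k)

/-- If `d^l ∣ c^l F^j` with `j < l` and `F` squarefree then `d ∣ c`. -/
theorem dvd_of_pow_dvd {c d : k[X]} {j : ℕ} (hj : j < M.l) (h : d ^ M.l ∣ c ^ M.l * M.F ^ j) :
    d ∣ c := by
  by_cases hd : d = 0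
  · rw [hd, zero_pow M.hl.ne_zero, zero_dvd_iff] at h
    rw [eq_zero_of_pow_eq_zero ((mul_eq_zero.1 h).resolve_right (pow_ne_zero _ M.F_ne_zero)), hd]
  obtain ⟨d, c, g, h1, rfl, rfl⟩ := UniqueFactorizationMonoid.exists_reduced_factors d hd c
  rw [mul_pow, mul_pow, mul_assoc, mul_dvd_mul_iff_left (pow_ne_zero _ (left_ne_zero_of_mul hd))] at h
  refine mul_dvd_mul_left _ (IsUnit.dvd ?_)
  by_contra hu
  obtain ⟨p, hp, hpd⟩ := WfDvdMonoid.exists_irreducible_factor hu (right_ne_zero_of_mul hd)
  have h2 : p ^ M.l ∣ M.F ^ j := (pow_dvd_pow_of_dvd hpd _).trans (h1.pow.dvd_of_dvd_mul_left h)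
  obtain ⟨G, hG⟩ := hp.prime.dvd_of_dvd_pow ((dvd_pow_self p M.hl.ne_zero).trans h2)
  have h3 : p ^ j * p ∣ p ^ j * G ^ j := by
    rw [← mul_pow, ← hG, ← pow_succ]
    exact (pow_dvd_pow p hj).trans h2
  have h4 := hp.prime.dvd_of_dvd_pow ((mul_dvd_mul_iff_left (pow_ne_zero _ hp.ne_zero)).1 h3)
  exact hp.not_isUnit (M.F_squarefree p (hG ▸ mul_dvd_mul_left p h4))

theorem aded_dvd {O K : Type*} [CommRing O] [IsDomain O] [IsIntegrallyClosed O] [Field K] [Algebra O K]
    (hi : Function.Injective (algebraMap O K)) {a b : O} (hb : b ≠ 0)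
    (h : IsIntegral O (algebraMap O K a / algebraMap O K b)) : b ∣ a := by
  let φ : FractionRing O →ₐ[O] K := IsFractionRing.liftAlgHom (g := Algebra.ofId O K) hi
  rw [← φ.commutes, ← φ.commutes, ← map_div₀, isIntegral_algHom_iff φ φ.injective] at h
  obtain ⟨e, he⟩ := IsIntegrallyClosed.isIntegral_iff.1 h
  rw [eq_div_iff ((map_ne_zero_iff _ (IsFractionRing.injective O _)).2 hb), ← map_mul] at he
  exact Dvd.intro_left e (IsFractionRing.injective O _ he)

theorem aded_conj {O R K : Type*} [CommRing O] [CommRing R] [IsDomain R] [Field K] [Algebra O R] [Algebra R K]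
    [Algebra O K] [IsScalarTower O R K] [IsFractionRing R K] (τ : R →ₐ[O] R) (hτ : Function.Injective τ)
    {g : R} {d : O} (h : IsIntegral O (algebraMap R K g / algebraMap O K d)) :
    IsIntegral O (algebraMap R K (τ g) / algebraMap O K d) := by
  have hi : Function.Injective ((IsScalarTower.toAlgHom O R K).comp τ) := (IsFractionRing.injective R K).comp hτ
  have := h.map (IsFractionRing.liftAlgHom (K := K) hi)
  rwa [map_div₀, AlgHom.commutes, IsFractionRing.liftAlgHom_apply, IsFractionRing.lift_algebraMap] at this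

theorem aded_main (K : Type) [Field K] [Algebra M.R K] [Algebra k[X] K] [IsScalarTower k[X] M.R K]
    [IsFractionRing M.R K] {g : M.R} {d : k[X]} (hd : d ≠ 0)
    (hx : IsIntegral k[X] (algebraMap M.R K g / algebraMap k[X] K d)) : M.ι d ∣ g := by
  refine (C_dvd_iff d g).2 fun m hm => ?_
  have h3 : IsIntegral k[X] (algebraMap M.R K (M.ι ((M.l : k[X]) * M.co m g) * M.Y ^ m) / algebraMap k[X] K d) := by
    rw [proj_eq M.Cz_pow M.Cz_prim g hm, map_sum, sum_div]
    refine IsIntegral.sum _ fun j _ => ?_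
    rw [map_mul, mul_div_assoc, ← IsScalarTower.algebraMap_apply]
    exact isIntegral_algebraMap.mul (aded_conj _ (sig_pow_bijective M.Cz_pow j).1 hx)
  have h4 := h3.pow M.l
  rw [div_pow, ← map_pow, ← map_pow, mul_pow, ← pow_mul, mul_comm m, pow_mul, kY_pow, ← map_pow, ← map_pow,
    ← map_mul, ← IsScalarTower.algebraMap_apply] at h4
  have hi : Function.Injective (algebraMap k[X] K) := by
    rw [IsScalarTower.algebraMap_eq k[X] M.R K]
    exact (IsFractionRing.injective M.R K).comp kum_algebraMap_injective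
  exact (IsUnit.dvd_mul_left (isUnit_C.2 (IsUnit.mk0 _ M.l_ne_zero))).1
    (M.dvd_of_pow_dvd hm (aded_dvd hi (pow_ne_zero _ hd) h4))

/-- Plan: let `x ∈ Frac R` be integral over `R`, hence over `k[X]` (`R` is finite over `k[X]`,
`AdjoinRoot.powerBasis'`).  Write `x = g / ι d` (`d = nm` of a denominator, `dvd_C_nm`).
Extend `σ^t` to the fraction field (`IsFractionRing.ringEquivOfRingEquiv`, or `IsLocalization.map`/
`IsFractionRing.lift`); by `proj_eq` every `ι (co m g) Y^m / ι d` is integral over `k[X]`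
(`l` is invertible), hence so is its `l`-th power `ι((co m g)^l F^m) / ι (d^l)`, which comes from
`Frac k[X]`; as `k[X]` is integrally closed `d^l ∣ (co m g)^l F^m`; conclude with
`dvd_of_pow_dvd` and `C_dvd_iff`. -/
theorem isIntegrallyClosed : IsIntegrallyClosed M.R := by
  have : Module.Finite k[X] M.R := (AdjoinRoot.powerBasis' (monic_X_pow_sub_C M.F (NeZero.ne M.l))).finite
  refine (isIntegrallyClosed_iff (FractionRing M.R)).2 fun {x} hx => ?_
  replace hx : IsIntegral k[X] x := isIntegral_trans x hx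
  obtain ⟨a, b, hb, rfl⟩ := IsFractionRing.div_surjective (A := M.R) x
  have hb0 := nonZeroDivisors.ne_zero hb
  obtain ⟨b', hb'⟩ : b ∣ M.ι (M.nm b) := dvd_C_nm M.Cz_pow M.Cz_prim b
  have hd : M.nm b ≠ 0 := M.nm_ne_zero hb0
  have hi := IsFractionRing.injective M.R (FractionRing M.R)
  have hd' := (map_ne_zero_iff _ hi).2 (M.ι_ne_zero hd)
  have e : algebraMap M.R (FractionRing M.R) a / algebraMap M.R (FractionRing M.R) b =
      algebraMap M.R (FractionRing M.R) (a * b') / algebraMap M.R (FractionRing M.R) (M.ι (M.nm b)) := by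
    rw [div_eq_div_iff ((map_ne_zero_iff _ hi).2 hb0) hd', ← map_mul, ← map_mul, hb', mul_assoc, mul_comm b']
  rw [e] at hx ⊢
  rw [← IsScalarTower.algebraMap_apply] at hx
  obtain ⟨y, hy⟩ := M.aded_main _ hd hx
  exact ⟨y, by rw [hy, map_mul, mul_div_cancel_left₀ _ hd']⟩

instance : Module.Finite k[X] M.R :=
  (AdjoinRoot.powerBasis' (monic_X_pow_sub_C M.F (NeZero.ne M.l))).finite

/-- Noetherian (finite over `k[X]`), dimension `≤ 1` (integral over `k[X]`), integrally closed. -/
theorem isDedekindDomain : IsDedekindDomain M.R := by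
  have := M.isIntegrallyClosed
  have : IsNoetherianRing M.R := IsNoetherianRing.of_finite k[X] M.R
  have : Ring.DimensionLEOne M.R := Ring.DimensionLEOne.of_isIntegral k[X] M.R
  exact {}

instance : IsDedekindDomain M.R := M.isDedekindDomain

end Mdl

end Crest.Agent.R312
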