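import Crest.Agent.R312.ADivDefs

/-! # Row 312, part A: division, the two counting arguments -/

set_option autoImplicit false
set_option linter.unusedSectionVars false

noncomputable section

open Polynomial Finset

namespace Crest.Agent.R312

namespace Mdl

variable {k : Type} [Field k] [Fintype k] (M : Mdl k)

theorem adiv1_pigeon {α γ : Type} [Finite γ] (f : α → γ) (h : Nat.card γ < Nat.card α) :
    ∃ x y, f x = f y ∧ x ≠ y := by
  by_contra hn
  push Not at hn
  exact absurd (Nat.card_le_card_of_injective f fun x y hxy => hn x y hxy) (not_le.2 h)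

theorem adiv1_card {I : Ideal M.R} {ψ : k[X]} (hI : I ≠ ⊥) (hψ : M.IsPsi I ψ) (i : ℕ) :
    Fintype.card k ^ ((M.N + 1) * (M.l - 1)) ≤
      Nat.card ↥((M.A I i).restrictScalars k ⊓ M.V (M.W0 + i * ψ.natDegree)) ^ 2 := by
  have h1 := (hψ.A i).card_inf (M.A_ne_bot hI i) (M.W0 + i * ψ.natDegree)
  rw [natDegree_pow] at h1
  have h2 := M.le_dimV (M.W0 + i * ψ.natDegree)
  have hq : 0 < Fintype.card k := Fintype.card_pos
  obtain ⟨n, hn⟩ : ∃ n, M.N = n + 1 := ⟨M.N - 1, by have := M.N_pos; omega⟩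
  obtain ⟨l, hl⟩ : ∃ l, M.l = l + 2 := ⟨M.l - 2, by have := M.hl.two_le; omega⟩
  have hW : M.W0 + 1 = (n + 1) * (l + 1) := by
    unfold W0
    rw [hn, hl, show l + 2 - 1 = l + 1 from rfl]
    have : 0 < (n + 1) * (l + 1) := by positivity
    omega
  have h3 : (M.N + 1) * (M.l - 1) + i * ψ.natDegree * 2 ≤ M.dimV (M.W0 + i * ψ.natDegree) * 2 := by
    generalize M.dimV (M.W0 + i * ψ.natDegree) = D at h2 ⊢
    rw [hn, hl] at h2 ⊢
    rw [show l + 2 - 1 = l + 1 from rfl] at h2 ⊢
    rw [show n + 1 - 1 = n from rfl] at h2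
    nlinarith
  have h4 := (Nat.pow_le_pow_right hq h3).trans
    ((pow_mul _ _ _).le.trans (Nat.pow_le_pow_left h1 2))
  rw [pow_add, mul_pow, ← pow_mul] at h4
  exact Nat.le_of_mul_le_mul_right h4 (by positivity)

/-- Pigeonhole.  The additive map from `∏_{i<l} (A I i ∩ V (W0 + i d))` (`d = deg ψ`) to the
functions on `T × {(t,m) : m + t + 1 < l}` has a domain of size `≥ ∏ q^(dimV (W0 + i d) - i d)`
(`IsPsi.card_inf` for `A I i`, `IsPsi.A`), and `2 (dimV (W0 + i d) - i d) ≥ 2 N (l-1) - (N-1)(l-1)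
= (N+1)(l-1)` by `le_dimV` (`W0 + 1 = N (l-1)`); the codomain has size `q^(N l (l-1)/2)`, and
`l (N+1)(l-1) > N l (l-1)`.  So the map is not injective. -/
theorem exists_rho {I : Ideal M.R} {ψ : k[X]} (hI : I ≠ ⊥) (hψ : M.IsPsi I ψ) (β : k → k) :
    ∃ g : ℕ → M.R, (∀ i < M.l, g i ∈ M.A I i ∧ g i ∈ M.V (M.W0 + i * ψ.natDegree)) ∧
      (∀ i, M.l ≤ i → g i = 0) ∧ M.LocCond β g ∧ ∃ i < M.l, g i ≠ 0 := by
  classical
  let S : Fin M.l → Submodule k M.R := fun i =>
    (M.A I i).restrictScalars k ⊓ M.V (M.W0 + i * ψ.natDegree)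
  have : ∀ i, Finite (S i) := fun i =>
    Finite.of_injective _ (Submodule.inclusion_injective (inf_le_right : S i ≤ _))
  let f : (∀ i, S i) → (∀ t : Fin M.l, M.T × Fin (M.l - 1 - t) → k) := fun x t p =>
    ∑ i : Fin M.l, M.z ^ ((i : ℕ) * t) * β p.1 ^ (i : ℕ) * (M.co p.2 (x i)).eval (p.1 : k)
  have hq : 1 < Fintype.card k := Fintype.one_lt_card
  have hcard : Nat.card (∀ t : Fin M.l, M.T × Fin (M.l - 1 - t) → k) < Nat.card (∀ i, S i) := by
    refine lt_of_pow_lt_pow_left₀ 2 (Nat.zero_le _) ?_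
    have e1 : Nat.card (∀ t : Fin M.l, M.T × Fin (M.l - 1 - t) → k) ^ 2 =
        Fintype.card k ^ (M.N * (M.l * (M.l - 1))) := by
      rw [Nat.card_pi]
      simp only [Nat.card_eq_fintype_card, Fintype.card_fun, Fintype.card_prod, Fintype.card_coe,
        Fintype.card_fin]
      rw [Finset.prod_pow_eq_pow_sum, ← pow_mul, ← Finset.mul_sum,
        Fin.sum_univ_eq_sum_range (fun t => M.l - 1 - t), Finset.sum_range_reflect (fun t => t),
        mul_assoc, Finset.sum_range_id_mul_two]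
      rfl
    have e2 : Fintype.card k ^ ((M.N + 1) * (M.l - 1) * M.l) ≤ Nat.card (∀ i, S i) ^ 2 := by
      rw [Nat.card_pi, ← Finset.prod_pow, pow_mul]
      have := Finset.pow_card_le_prod Finset.univ (fun i : Fin M.l => Nat.card (S i) ^ 2)
        (Fintype.card k ^ ((M.N + 1) * (M.l - 1))) fun i _ => M.adiv1_card hI hψ i
      simpa using this
    refine lt_of_lt_of_le ?_ e2
    rw [e1]
    refine Nat.pow_lt_pow_right hq ?_
    have h2 := M.hl.two_le
    have : 0 < (M.l - 1) * M.l := Nat.mul_pos (by omega) (by omega)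
    nlinarith
  obtain ⟨x, y, hxy, hne⟩ := adiv1_pigeon f hcard
  refine ⟨fun i => if h : i < M.l then ((x ⟨i, h⟩ - y ⟨i, h⟩ : S ⟨i, h⟩) : M.R) else 0,
    fun i hi => ?_, fun i hi => dif_neg (not_lt.2 hi), fun b hb t m htm => ?_, ?_⟩
  · simp only [dif_pos hi]
    exact (x ⟨i, hi⟩ - y ⟨i, hi⟩).2
  · have h := congrFun (congrFun hxy ⟨t, by omega⟩) (⟨b, hb⟩, ⟨m, by simp only; omega⟩)
    simp only [f] at h
    rw [Finset.sum_range]
    simp only [Fin.is_lt, dif_pos, Fin.eta, Submodule.coe_sub, map_sub, eval_sub, mul_sub,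
      Finset.sum_sub_distrib]
    exact sub_eq_zero.2 h
  · obtain ⟨i, hi⟩ := Function.ne_iff.1 hne
    refine ⟨i, i.2, ?_⟩
    simp only [Fin.is_lt, dif_pos, Fin.eta]
    exact fun h0 => hi (sub_eq_zero.1 (Subtype.ext h0))

/-- A subspace of `ι → L` of dimension `≤ r` is detected by `r` coordinates
(induction on `r`, cutting with one coordinate at a time). -/
theorem exists_coords {L ι : Type} [Field L] (r : ℕ) (E : Submodule L (ι → L)) [Module.Finite L E]
    (hE : Module.finrank L E ≤ r) :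
    ∃ J : Finset ι, J.card ≤ r ∧ ∀ v ∈ E, (∀ j ∈ J, v j = 0) → v = 0 := by
  classical
  induction r generalizing E with
  | zero =>
    have h0 : E = ⊥ := Submodule.finrank_eq_zero.1 (Nat.le_zero.1 hE)
    exact ⟨∅, le_rfl, fun v hv _ => by rwa [h0, Submodule.mem_bot] at hv⟩
  | succ r ih =>
    by_cases h0 : ∀ v ∈ E, v = 0
    · exact ⟨∅, Nat.zero_le _, fun v hv _ => h0 v hv⟩
    push Not at h0
    obtain ⟨w, hw, hw0⟩ := h0
    obtain ⟨j, hj⟩ := Function.ne_iff.1 hw0
    let E' : Submodule L (ι → L) := E ⊓ LinearMap.ker (LinearMap.proj j)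
    have : Module.Finite L E' := Submodule.finiteDimensional_of_le (inf_le_left : E' ≤ E)
    have hlt : E' < E := lt_of_le_of_ne inf_le_left fun h => hj (by
      have : w ∈ E' := h ▸ hw
      exact this.2)
    obtain ⟨J, hJ, hJ'⟩ := ih E' (by have := Submodule.finrank_lt_finrank_of_lt hlt; omega)
    refine ⟨insert j J, (Finset.card_insert_le _ _).trans (by omega), fun v hv h => ?_⟩
    exact hJ' v ⟨hv, h j (Finset.mem_insert_self _ _)⟩ fun i hi => h i (Finset.mem_insert_of_mem hi)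

/-- A minimal linear relation can be found in bounded degree.  Over `L = Frac R` the rows
`v 0, …, v r` lie in the span `E` of the first `r` rows (`h r ≠ 0` by independence); take `J` from
`exists_coords` (index type `Fin l`), and apply the pigeonhole principle to
`(V D)^(r+1) → (V (D + W))^J`, `D = relD W`, using `card_V`, `le_dimV'`, `dimV_le`:
`(r+1)(D + 1 - l N) > r (D + W + l)`. -/
theorem exists_rel {v : ℕ → ℕ → M.R} {r W : ℕ} (hr : r < M.l)
    (hv : ∀ i ≤ r, ∀ m < M.l, v i m ∈ M.V W)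
    (hind : ∀ h, M.IsRel v r h → ∀ i < r, h i = 0)
    (hdep : ∃ h, M.IsRel v (r + 1) h ∧ ∃ i ≤ r, h i ≠ 0) :
    ∃ h, (∀ i ≤ r, h i ∈ M.V (M.relD W)) ∧ (∀ i, r < i → h i = 0) ∧ M.IsRel v (r + 1) h ∧
      ∃ i ≤ r, h i ≠ 0 := by
  classical
  let L := FractionRing M.R
  let a : M.R →+* L := algebraMap M.R L
  have ha : Function.Injective a := IsFractionRing.injective M.R L
  let w : ℕ → Fin M.l → L := fun i m => a (v i m)
  let E : Submodule L (Fin M.l → L) := Submodule.span L (Set.range fun i : Fin r => w i)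
  have hE : Module.finrank L E ≤ r :=
    (finrank_range_le_card (R := L) fun i : Fin r => w i).trans (Fintype.card_fin r).le
  have hw : ∀ i ≤ r, w i ∈ E := by
    have hlt : ∀ i < r, w i ∈ E := fun i hi => Submodule.subset_span ⟨⟨i, hi⟩, rfl⟩
    intro i hi
    rcases hi.lt_or_eq with hi | rfl
    · exact hlt i hi
    obtain ⟨h, hh, j, hj, hj0⟩ := hdep
    have hr0 : h i ≠ 0 := by
      intro h0
      have : M.IsRel v i h := fun m hm => by
        have := hh m hm
        rwa [Finset.sum_range_succ, h0, zero_mul, add_zero] at this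
      rcases hj.lt_or_eq with hj | rfl
      · exact hj0 (hind h this j hj)
      · exact hj0 h0
    have hr1 : a (h i) ≠ 0 := fun h0 => hr0 (ha (h0.trans (map_zero a).symm))
    have e : a (h i) • w i = -∑ j ∈ range i, a (h j) • w j := by
      funext m
      have := congrArg a (hh m m.2)
      rw [Finset.sum_range_succ, map_add, map_sum, map_zero] at this
      simp only [map_mul] at this
      simp only [Pi.smul_apply, Pi.neg_apply, Finset.sum_apply, smul_eq_mul, w]
      exact eq_neg_of_add_eq_zero_right this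
    rw [← Submodule.smul_mem_iff E hr1, e]
    exact E.neg_mem (E.sum_mem fun j hj => E.smul_mem _ (hlt j (Finset.mem_range.1 hj)))
  obtain ⟨J, hJ, hJ'⟩ := exists_coords r E hE
  let f : (Fin (r + 1) → M.V (M.relD W)) → (J → M.V (M.relD W + W)) := fun x j =>
    ⟨∑ i : Fin (r + 1), (x i : M.R) * v i (j : Fin M.l), Submodule.sum_mem _ fun i _ =>
      M.mul_mem_V (x i).2 (hv i (Nat.lt_succ_iff.1 i.2) _ j.1.2)⟩
  have hq : 1 < Fintype.card k := Fintype.one_lt_card
  have hcard : Nat.card (J → M.V (M.relD W + W)) < Nat.card (Fin (r + 1) → M.V (M.relD W)) := by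
    rw [Nat.card_fun, Nat.card_fun, card_V, card_V, ← pow_mul, ← pow_mul]
    refine Nat.pow_lt_pow_right hq ?_
    simp only [Nat.card_eq_fintype_card, Fintype.card_coe, Fintype.card_fin]
    have h1 := M.dimV_le (M.relD W + W)
    have h2 := M.le_dimV' (M.relD W)
    have h3 : M.dimV (M.relD W + W) * J.card ≤ (M.relD W + W + M.l) * r := Nat.mul_le_mul h1 hJ
    refine h3.trans_lt ?_
    have h4 : r * (W + M.l + M.l * M.N) ≤ M.l * (W + M.l + M.l * M.N) := Nat.mul_le_mul_right _ hr.le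
    have h5 : (M.relD W + 1) * r ≤ (M.dimV (M.relD W) + M.l * M.N) * r := Nat.mul_le_mul_right _ h2
    have h6 : M.relD W = M.l * (W + M.l + M.l * M.N) + M.l * M.N := rfl
    nlinarith
  obtain ⟨x, y, hxy, hne⟩ := adiv1_pigeon f hcard
  let h : ℕ → M.R := fun i =>
    if hi : i < r + 1 then ((x ⟨i, hi⟩ - y ⟨i, hi⟩ : M.V (M.relD W)) : M.R) else 0
  refine ⟨h, fun i hi => ?_, fun i hi => dif_neg (by omega), ?_, ?_⟩
  · simp only [h, dif_pos (Nat.lt_succ_iff.2 hi)]
    exact Subtype.property _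
  · have hmem : ∑ i ∈ range (r + 1), a (h i) • w i ∈ E :=
      E.sum_mem fun i hi => E.smul_mem _ (hw i (Nat.lt_succ_iff.1 (Finset.mem_range.1 hi)))
    have hco : ∀ m : Fin M.l, (∑ i ∈ range (r + 1), a (h i) • w i) m =
        a (∑ i ∈ range (r + 1), h i * v i m) := by
      intro m
      simp only [Finset.sum_apply, Pi.smul_apply, smul_eq_mul, map_sum, map_mul, w]
    have h0 := hJ' _ hmem fun j hj => by
      rw [hco, Finset.sum_range]
      have h1 := congrArg Subtype.val (congrFun hxy ⟨j, hj⟩)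
      simp only [f] at h1
      simp only [h, Fin.is_lt, dif_pos, Fin.eta, Submodule.coe_sub, sub_mul, Finset.sum_sub_distrib]
      rw [h1, sub_self, map_zero]
    intro m hm
    apply ha
    rw [map_zero, ← hco ⟨m, hm⟩, h0]
    rfl
  · obtain ⟨i, hi⟩ := Function.ne_iff.1 hne
    refine ⟨i, Nat.lt_succ_iff.1 i.2, ?_⟩
    simp only [h, Fin.is_lt, dif_pos, Fin.eta]
    exact fun h0 => hi (sub_eq_zero.1 (Subtype.ext h0))

end Mdl

end Crest.Agent.R312
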