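import Crest.Agent.R312.ADivDefs

/-! # Row 312, part A: division, the reduced norm of `ρ` vanishes -/

set_option autoImplicit false
set_option linter.unusedSectionVars false

noncomputable section

open Polynomial Finset

namespace Crest.Agent.R312

namespace Mdl

variable {k : Type} [Field k] (M : Mdl k)

/-- Entries in `B j * A m` give a determinant in `∏ B * ∏ A` (`Matrix.det_apply`,
`Ideal.prod_mem_prod`). -/
theorem det_mem_prod {S : Type} [CommRing S] {n : ℕ} (Mx : Matrix (Fin n) (Fin n) S)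
    (B A : Fin n → Ideal S) (h : ∀ j m, Mx j m ∈ B j * A m) :
    Mx.det ∈ (∏ j, B j) * ∏ m, A m := by
  rw [Matrix.det_apply']
  refine Ideal.sum_mem _ fun τ _ => Ideal.mul_mem_left _ _ ?_
  rw [← Equiv.prod_comp τ B, ← prod_mul_distrib]
  exact Ideal.prod_mem_prod fun i _ => h _ _

theorem det_mem_V {n : ℕ} (Mx : Matrix (Fin n) (Fin n) M.R) (a b : Fin n → ℕ)
    (h : ∀ j m, Mx j m ∈ M.V (a j + b m)) : Mx.det ∈ M.V (∑ j, a j + ∑ m, b m) := by
  rw [Matrix.det_apply]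
  refine Submodule.sum_mem _ fun τ _ => ?_
  rw [Units.smul_def]
  refine zsmul_mem ?_ _
  rw [← Equiv.sum_comp τ a, ← sum_add_distrib]
  exact M.prod_mem_V _ _ _ fun i _ => h _ _

/-- With `B j = σ^j (A I (l - j))`, `A j B j = (ψ)` (`A_add`): entry `(j, m)` lies in `B j * A m`
(`j ≤ m`: `ψ σ^j g_{m-j} ∈ B j * A j * σ^j A (m-j)`; `m < j`: `σ^j A (l+m-j) = B j * σ^l A m`). -/
theorem psi_pow_dvd_det {I : Ideal M.R} {ψ : k[X]} (hψ : M.IsPsi I ψ) (c : k) {g : ℕ → M.R}
    (hg : ∀ i < M.l, g i ∈ M.A I i) :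
    M.ι (ψ ^ M.l) ∣ (Matrix.of fun j m : Fin M.l => M.vrow ψ c g j m).det := by
  have key : ∀ j : Fin M.l, M.cj j (M.A I (M.l - j)) * M.A I j = Ideal.span {M.ι ψ} := by
    intro j
    rw [mul_comm, ← M.A_add, Nat.add_sub_cancel' j.2.le]
    exact hψ
  have h := det_mem_prod (Matrix.of fun j m : Fin M.l => M.vrow ψ c g j m)
    (fun j => M.cj j (M.A I (M.l - j))) (fun m => M.A I m) ?_
  · rw [← prod_mul_distrib, prod_congr rfl fun j _ => key j, prod_const, card_univ,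
      Fintype.card_fin, Ideal.span_singleton_pow, Ideal.mem_span_singleton] at h
    rwa [map_pow]
  · intro j m
    have hj := j.2
    have hm := m.2
    simp only [Matrix.of_apply, vrow]
    split_ifs with hjm
    · have e : M.A I m = M.A I j * M.cj j (M.A I (m - j)) := by
        rw [← M.A_add, Nat.add_sub_cancel' hjm]
      rw [e, ← mul_assoc, key]
      exact Ideal.mul_mem_mul (Ideal.mem_span_singleton_self _) (M.mem_cj _ (hg _ (by omega)))
    · refine Ideal.mul_mem_left _ _ ?_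
      have := M.mem_cj j (hg (M.l + m - j) (by omega))
      rwa [show M.l + m - j = (M.l - j) + m by omega, M.A_add, M.cj_mul, M.cj_cj,
        Nat.add_sub_cancel' hj.le, M.cj_l, show M.l - j + m = M.l + m - j by omega] at this

/-- Entry `(j, m)` lies in `V (W + (l - j) d + m d)`. -/
theorem det_vrow_mem_V (ψ : k[X]) (c : k) {g : ℕ → M.R} {W : ℕ}
    (hg : ∀ i < M.l, g i ∈ M.V (W + i * ψ.natDegree)) :
    (Matrix.of fun j m : Fin M.l => M.vrow ψ c g j m).det ∈
      M.V (M.l * (W + M.l * ψ.natDegree)) := by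
  have h := M.det_mem_V (Matrix.of fun j m : Fin M.l => M.vrow ψ c g j m)
    (fun j => W + (M.l - j) * ψ.natDegree) (fun m => m * ψ.natDegree) ?_
  · rw [← sum_add_distrib, sum_congr rfl (g := fun _ => W + M.l * ψ.natDegree)] at h
    · simpa using h
    · intro j _
      rw [add_assoc, ← add_mul, Nat.sub_add_cancel j.2.le]
  · intro j m
    have hj := j.2
    have hm := m.2
    simp only [Matrix.of_apply, vrow]
    split_ifs with hjm
    · have := M.mul_mem_V ((M.ι_mem_V_iff ψ _).2 le_rfl)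
        (M.σ_pow_mem_V j (hg (m - j) (by omega)))
      refine M.V_mono (le_of_eq ?_) this
      rw [add_left_comm, add_assoc, ← add_mul, ← add_mul]
      congr 2
      omega
    · have := M.mul_mem_V ((M.ι_mem_V_iff (C c) 0).2 (by simp))
        (M.σ_pow_mem_V j (hg (M.l + m - j) (by omega)))
      refine M.V_mono (le_of_eq ?_) this
      rw [zero_add, add_assoc, ← add_mul]
      congr 2
      omega

/-- One Newton step. -/
theorem exists_newton {ψ : k[X]} {c β b : k} (hc : c ≠ 0) (hβ : β ^ M.l * ψ.eval b = c) :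
    ∃ γ : k[X], γ.eval b = β ∧ (X - C b) ^ 2 ∣ γ ^ M.l * ψ - C c := by
  have h0 : β ^ M.l * ψ.eval b ≠ 0 := hβ ▸ hc
  have h1 : β ≠ 0 := fun h => h0 (by rw [h, zero_pow M.hl.ne_zero, zero_mul])
  have h2 : ψ.eval b ≠ 0 := right_ne_zero_of_mul h0
  have h3 := M.l_ne_zero
  set a : k := -(β ^ M.l * ψ.derivative.eval b) / (M.l * β ^ (M.l - 1) * ψ.eval b) with ha
  refine ⟨C β + C a * (X - C b), by simp, ?_⟩
  obtain ⟨q, hq⟩ : X - C b ∣ (C β + C a * (X - C b)) ^ M.l * ψ - C c := by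
    rw [dvd_iff_isRoot]
    simp [hβ]
  have h4 := congrArg (fun p => (derivative p).eval b) hq
  simp only [derivative_sub, derivative_mul, derivative_pow, derivative_add, derivative_C,
    derivative_X, eval_add, eval_sub, eval_mul, eval_pow, eval_C, eval_X,
    sub_self, mul_zero, add_zero, zero_mul, zero_add, sub_zero, mul_one, one_mul] at h4
  have h5 : X - C b ∣ q := by
    rw [dvd_iff_isRoot, IsRoot.def, ← h4, ha]
    field_simp
    ring
  rw [hq, pow_two]
  exact mul_dvd_mul_left _ h5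

theorem adiv2_cyc {S : Type} [AddCommMonoid S] {l j : ℕ} (hj : j < l) (f : ℕ → S) :
    ∑ i ∈ range l, f i = ∑ m ∈ range l, f (if j ≤ m then m - j else l + m - j) := by
  symm
  refine sum_nbij' (fun m => if j ≤ m then m - j else l + m - j)
    (fun i => if i + j < l then i + j else i + j - l) ?_ ?_ ?_ ?_ (fun _ _ => rfl)
  all_goals
    intro m hm
    simp only [mem_range] at hm ⊢
    split_ifs <;> omega

theorem adiv2_row {ψ γ q : k[X]} {c : k} (hγ : q ∣ γ ^ M.l * ψ - C c) (g : ℕ → M.R) {j : ℕ}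
    (hj : j < M.l) (t : ℕ) :
    M.ι q ∣ M.ι (ψ * (C M.z ^ (j * t) * γ ^ j)) *
        (M.σ ^ j) (∑ i ∈ range M.l, M.ι (C M.z ^ (i * t) * γ ^ i) * g i) -
      ∑ m ∈ range M.l, M.vrow ψ c g j m * M.ι (C M.z ^ (m * t) * γ ^ m) := by
  rw [map_sum, mul_sum, adiv2_cyc hj, ← sum_sub_distrib]
  refine dvd_sum fun m hm => ?_
  rw [map_mul (M.σ ^ j), AlgHom.commutes, vrow]
  split_ifs with h
  · obtain ⟨i, rfl⟩ := Nat.exists_eq_add_of_le h
    rw [Nat.add_sub_cancel_left]
    convert dvd_zero _ using 1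
    simp only [map_mul, map_pow]
    ring
  · obtain ⟨i, hi⟩ : ∃ i, M.l + m - j = i := ⟨_, rfl⟩
    have e : j + i = M.l + m := by omega
    have e1 : (C M.z : k[X]) ^ (j * t) * C M.z ^ (i * t) = C M.z ^ (m * t) := by
      rw [← pow_add, ← add_mul, e, add_mul, pow_add, pow_mul, M.Cz_pow, one_pow, one_mul]
    have e2 : γ ^ j * γ ^ i = γ ^ M.l * γ ^ m := by rw [← pow_add, e, pow_add]
    rw [hi, ← mul_assoc, ← map_mul, mul_right_comm (M.ι (C c)), ← map_mul, ← sub_mul, ← map_sub]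
    refine Dvd.dvd.mul_right (_root_.map_dvd _ ?_) _
    have e3 : ψ * (C M.z ^ (j * t) * γ ^ j) * (C M.z ^ (i * t) * γ ^ i) -
        C c * (C M.z ^ (m * t) * γ ^ m) = (γ ^ M.l * ψ - C c) * (C M.z ^ (m * t) * γ ^ m) := by
      linear_combination ψ * γ ^ j * γ ^ i * e1 + ψ * C M.z ^ (m * t) * e2
    rw [e3]
    exact hγ.mul_right _

theorem adiv2_loc {b : k} (hb : b ∈ M.T) (κ : M.R) {s t : ℕ} (hs : s < M.l) (ht : t < M.l)
    (h : ∀ m, m + t + 1 < M.l → (M.co m κ).eval b = 0) :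
    ∑ j ∈ range M.l, M.ι ((C M.z ^ (M.l + 1 - s + t)) ^ j) * (M.σ ^ j) κ ∈
      M.P b ^ (s + (M.l - 1 - t)) := by
  rw [sum_sig_pow]
  refine Ideal.sum_mem _ fun m hm => ?_
  rw [mem_range] at hm
  have hY : ∀ n, M.Y ^ n ∈ M.P b ^ n := fun n =>
    Ideal.pow_mem_pow (Ideal.subset_span (by simp)) n
  rw [← pow_add]
  by_cases hd : M.l ∣ M.l + 1 - s + t + m
  · obtain ⟨q, hq⟩ := hd
    have q3 : q < 3 := by
      by_contra h3
      have := Nat.mul_le_mul_left M.l (not_lt.1 h3)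
      omega
    have q0 : q ≠ 0 := by
      rintro rfl
      omega
    obtain rfl | rfl : q = 1 ∨ q = 2 := by omega
    · rw [show s + (M.l - 1 - t) = M.l + m by omega, pow_add]
      refine Ideal.mul_mem_mul ?_ (hY m)
      rw [M.P_pow hb, Ideal.mem_span_singleton]
      exact _root_.map_dvd _ (Dvd.dvd.mul_left (dvd_iff_isRoot.2 (h m (by omega))) _)
    · rw [show s + (M.l - 1 - t) = m by omega]
      exact Ideal.mul_mem_left _ _ (hY m)
  · have h1 : (C M.z : k[X]) ^ (M.l + 1 - s + t + m) ≠ 1 := fun e =>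
      hd ((M.Cz_prim.pow_eq_one_iff_dvd _).1 e)
    have h2 := geom_sum_mul ((C M.z : k[X]) ^ (M.l + 1 - s + t + m)) M.l
    rw [← pow_mul, mul_comm _ M.l, pow_mul, M.Cz_pow, one_pow, sub_self] at h2
    rw [(mul_eq_zero.1 h2).resolve_right (sub_ne_zero.2 h1), zero_mul, map_zero, zero_mul]
    exact Ideal.zero_mem _

/-- The local computation at `b`.  Let `γ` be as in `exists_newton`, `P = P b`,
`D_{m,t} = z^(m t) γ^m`, `D'_{s,j} = z^((l+1-s) j) γ^(l-1-j)`, `κ_t = ∑_i z^(i t) γ^i g_i`.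
Modulo `(X-b)^2 ∈ P^(2l)`: `∑_m vrow j m · D_{m,t} ≡ ψ z^(j t) γ^j σ^j κ_t` (reindex
`m = (i + j) mod l`; in the wrapped terms `c ≡ γ^l ψ`), hence by `sum_sig_pow`
`(D' M D)_{s,t} ≡ ψ γ^(l-1) ∑_m (∑_j (z^(l+1-s+t+m))^j) co m κ_t · Y^m`, in which only the `m` with
`m ≡ s + (l-1-t) =: T (mod l)` survives; `T ≤ 2l-2`, so `T = m`, or `T = m + l` and then
`m + t + 1 = s < l`, so `co m κ_t` vanishes at `b` by `LocCond` and `X - b ∈ P^l` (`P_pow`).
So the entry lies in `P^s * P^(l-1-t)`, `det (D' M D) ∈ P^(l(l-1)) = ((X-b)^(l-1))` by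
`det_mem_prod`.  Finally `det D`, `det D'` are polynomials not vanishing at `b` (Vandermonde
determinants times powers of `γ`), so they cancel (`C_dvd_iff`, coordinatewise). -/
theorem root_pow_dvd_det {ψ : k[X]} {c : k} (hc : c ≠ 0) {β : k → k} {g : ℕ → M.R}
    (hloc : M.LocCond β g) {b : k} (hb : b ∈ M.T) (hβ : β b ^ M.l * ψ.eval b = c) :
    M.ι ((X - C b) ^ (M.l - 1)) ∣ (Matrix.of fun j m : Fin M.l => M.vrow ψ c g j m).det := by
  obtain ⟨γ, hγ, hq⟩ := M.exists_newton hc hβ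
  have hβ0 : β b ≠ 0 := fun h => hc (by rw [← hβ, h, zero_pow M.hl.ne_zero, zero_mul])
  have hz0 : M.z ≠ 0 := M.hz.ne_zero M.hl.ne_zero
  set Mx := Matrix.of fun j m : Fin M.l => M.vrow ψ c g j m with hMx
  set D : Matrix (Fin M.l) (Fin M.l) k[X] :=
    Matrix.of fun m t => C M.z ^ ((m : ℕ) * t) * γ ^ (m : ℕ) with hD
  set D' : Matrix (Fin M.l) (Fin M.l) k[X] :=
    Matrix.of fun s j => C M.z ^ ((M.l + 1 - s) * j) * γ ^ (M.l - 1 - j) with hD'
  have hx : M.ι (X - C b) ∈ M.P b ^ M.l := by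
    rw [M.P_pow hb]; exact Ideal.mem_span_singleton_self _
  have h1 : ∀ s t : Fin M.l, (M.ι.mapMatrix D' * (Mx * M.ι.mapMatrix D)) s t ∈
      M.P b ^ (s : ℕ) * M.P b ^ (M.l - 1 - t) := by
    intro s t
    have hs := s.2
    have ht := t.2
    rw [← pow_add]
    set κ : M.R := ∑ i ∈ range M.l, M.ι (C M.z ^ (i * t) * γ ^ i) * g i with hκ
    have a1 := M.adiv2_loc hb κ hs ht (fun m hm => by
      rw [← hloc b hb t m hm, hκ, map_sum, eval_finsetSum]
      refine sum_congr rfl fun i _ => ?_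
      rw [co_C_mul]
      simp [hγ])
    have a2 : M.ι ((X - C b) ^ 2) ∈ M.P b ^ (s + (M.l - 1 - t)) := by
      refine Ideal.pow_le_pow_right (n := M.l + M.l) (by omega) ?_
      rw [pow_two, map_mul, pow_add]
      exact Ideal.mul_mem_mul hx hx
    have a3 : (M.ι.mapMatrix D' * (Mx * M.ι.mapMatrix D)) s t =
        ∑ j ∈ range M.l, M.ι (C M.z ^ ((M.l + 1 - s) * j) * γ ^ (M.l - 1 - j)) *
          ∑ m ∈ range M.l, M.vrow ψ c g j m * M.ι (C M.z ^ (m * t) * γ ^ m) := by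
      simp only [Matrix.mul_apply, RingHom.mapMatrix_apply, Matrix.map_apply, hD, hD', hMx,
        Matrix.of_apply, sum_range]
    have a4 : M.ι ((X - C b) ^ 2) ∣ M.ι (ψ * γ ^ (M.l - 1)) *
        (∑ j ∈ range M.l, M.ι ((C M.z ^ (M.l + 1 - s + t)) ^ j) * (M.σ ^ j) κ) -
          (M.ι.mapMatrix D' * (Mx * M.ι.mapMatrix D)) s t := by
      rw [a3, mul_sum, ← sum_sub_distrib]
      refine dvd_sum fun j hj => ?_
      rw [mem_range] at hj
      have := (M.adiv2_row hq g hj t).mul_left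
        (M.ι (C M.z ^ ((M.l + 1 - s) * j) * γ ^ (M.l - 1 - j)))
      rw [mul_sub, ← hκ, ← mul_assoc, ← map_mul] at this
      rw [← mul_assoc, ← map_mul]
      convert this using 4
      rw [← pow_mul, add_mul, pow_add, mul_comm (t : ℕ) j,
        show γ ^ (M.l - 1) = γ ^ (M.l - 1 - j) * γ ^ j by rw [← pow_add]; congr 1; omega]
      ring
    obtain ⟨w, hw⟩ := a4
    rw [sub_eq_iff_eq_add', ← sub_eq_iff_eq_add] at hw
    rw [← hw]
    exact Ideal.sub_mem _ (Ideal.mul_mem_left _ _ a1) (Ideal.mul_mem_right _ _ a2)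
  have h2 := det_mem_prod _ _ _ h1
  rw [← prod_mul_distrib, prod_congr rfl (g := fun _ => M.P b ^ (M.l - 1))
    (fun j _ => by rw [← pow_add]; congr 1; have := j.2; omega), prod_const, card_univ,
    Fintype.card_fin, ← pow_mul, mul_comm (M.l - 1), pow_mul, M.P_pow hb, Ideal.span_singleton_pow,
    Ideal.mem_span_singleton, Matrix.det_mul, Matrix.det_mul, ← RingHom.map_det,
    ← RingHom.map_det, ← map_pow] at h2
  have cop : ∀ p : k[X], p.eval b ≠ 0 → IsCoprime (M.ι ((X - C b) ^ (M.l - 1))) (M.ι p) :=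
    fun p hp => IsCoprime.map (IsCoprime.pow_left
      ((irreducible_X_sub_C b).coprime_iff_not_dvd.2 fun h => hp (dvd_iff_isRoot.1 h))) _
  have h3 : D.det.eval b ≠ 0 := by
    have : (evalRingHom b).mapMatrix D = Matrix.of fun m t : Fin M.l =>
        β b ^ (m : ℕ) * Matrix.vandermonde (fun m : Fin M.l => M.z ^ (m : ℕ)) m t := by
      ext m t
      simp [hD, hγ, pow_mul, mul_comm]
    rw [← coe_evalRingHom, RingHom.map_det, this, Matrix.det_mul_column]
    refine mul_ne_zero (prod_ne_zero_iff.2 fun _ _ => pow_ne_zero _ hβ0)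
      (Matrix.det_vandermonde_ne_zero_iff.2 fun i j h => Fin.ext (M.hz.pow_inj i.2 j.2 h))
  have h4 : D'.det.eval b ≠ 0 := by
    have : (evalRingHom b).mapMatrix D' = Matrix.of fun s j : Fin M.l =>
        β b ^ (M.l - 1 - j) * Matrix.vandermonde (fun s : Fin M.l => M.z ^ (M.l + 1 - s)) s j := by
      ext s j
      simp [hD', hγ, ← pow_mul, mul_comm]
    rw [← coe_evalRingHom, RingHom.map_det, this, Matrix.det_mul_row]
    refine mul_ne_zero (prod_ne_zero_iff.2 fun _ _ => pow_ne_zero _ hβ0)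
      (Matrix.det_vandermonde_ne_zero_iff.2 fun i j h => ?_)
    have hi := i.2
    have hj := j.2
    simp only [show ∀ s : Fin M.l, M.l + 1 - s = 2 + (M.l - 1 - s) from
      fun s => by have := s.2; omega, pow_add] at h
    have := M.hz.pow_inj (by omega) (by omega) (mul_left_cancel₀ (pow_ne_zero _ hz0) h)
    exact Fin.ext (by omega)
  exact (cop _ h3).dvd_of_dvd_mul_right ((cop _ h4).dvd_of_dvd_mul_left h2)

/-- Every coordinate of the determinant is divisible by `ψ^l ∏ (X-b)^(l-1)` (coprime factors,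
`ψ(b) ≠ 0` as `c ≠ 0`), of degree `l d + N (l-1)`, and has degree `≤ W0 + l d`. -/
theorem det_vrow {I : Ideal M.R} {ψ : k[X]} (hψ : M.IsPsi I ψ) {c : k} (hc : c ≠ 0)
    {β : k → k} (hβ : ∀ b ∈ M.T, β b ^ M.l * ψ.eval b = c) {g : ℕ → M.R}
    (hg : ∀ i < M.l, g i ∈ M.A I i ∧ g i ∈ M.V (M.W0 + i * ψ.natDegree)) (hloc : M.LocCond β g) :
    (Matrix.of fun j m : Fin M.l => M.vrow ψ c g j m).det = 0 := by
  have h1 := (C_dvd_iff _ _).1 (M.psi_pow_dvd_det hψ c fun i hi => (hg i hi).1)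
  have h2 := fun b hb => (C_dvd_iff _ _).1 (M.root_pow_dvd_det hc hloc hb (hβ b hb))
  have h3 := M.natDegree_co_le (M.det_vrow_mem_V ψ c fun i hi => (hg i hi).2)
  have hψb : ∀ b ∈ M.T, ψ.eval b ≠ 0 := fun b hb =>
    right_ne_zero_of_mul (by rw [hβ b hb]; exact hc)
  obtain ⟨b₀, hb₀⟩ := M.T_nonempty
  have hψ0 : ψ ≠ 0 := fun h => hψb b₀ hb₀ (by simp [h])
  refine ext_co fun j hj => ?_
  rw [map_zero]
  by_contra hne
  have h4 : M.Fm ^ (M.l - 1) ∣
      R312.co M.l M.F j (Matrix.of fun j m : Fin M.l => M.vrow ψ c g j m).det := by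
    rw [Fm, ← prod_pow]
    exact Finset.prod_dvd_of_coprime
      (fun a _ b _ hab => (isCoprime_X_sub_C_of_isUnit_sub (sub_ne_zero.2 hab).isUnit).pow)
      fun b hb => h2 b hb j hj
  have h5 : IsCoprime (M.Fm ^ (M.l - 1)) (ψ ^ M.l) := by
    refine IsCoprime.pow (IsCoprime.prod_left fun b hb => ?_)
    exact (irreducible_X_sub_C b).coprime_iff_not_dvd.2 fun h => hψb b hb (dvd_iff_isRoot.1 h)
  have h6 := natDegree_le_of_dvd (h5.mul_dvd h4 (h1 j hj)) hne
  rw [natDegree_mul (pow_ne_zero _ M.Fm_monic.ne_zero) (pow_ne_zero _ hψ0), natDegree_pow,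
    natDegree_pow, M.Fm_natDegree] at h6
  have h7 := h6.trans (Nat.le_of_mul_le_mul_left (h3 j) M.hl.pos)
  have h8 : 0 < M.N * (M.l - 1) := Nat.mul_pos M.N_pos (by have := M.hl.one_lt; omega)
  rw [W0, mul_comm (M.l - 1)] at h7
  omega

end Mdl

end Crest.Agent.R312
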