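import Crest.Agent.R312.ADivDefs

/-! # Row 312, part A: division, from a zero divisor to the norm equation; Hilbert 90 -/

set_option autoImplicit false
set_option linter.unusedSectionVars false

noncomputable section

open Polynomial Finset

namespace Crest.Agent.R312

namespace Mdl

variable {k : Type} [Field k] (M : Mdl k)

theorem d3_σ (j : ℕ) (x : M.R) : M.σ ((M.σ ^ j) x) = (M.σ ^ (j + 1)) x := by
  rw [pow_succ', AlgHom.mul_apply]

theorem d3_mul (g h : M.R) : M.nm (g * h) = M.nm g * M.nm h := nm_mul _ M.Cz_prim g h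
theorem d3_pow (g : M.R) (n : ℕ) : M.nm (g ^ n) = M.nm g ^ n := nm_pow _ M.Cz_prim g n
theorem d3_C (p : k[X]) : M.nm (M.ι p) = p ^ M.l := nm_C _ M.Cz_prim p
theorem d3_nm (g : M.R) : M.ι (M.nm g) = ∏ t ∈ range M.l, (M.σ ^ t) g := C_nm _ M.Cz_prim g

theorem d3_shift {α : Type} [AddCommMonoid α] (T : ℕ → α) {l : ℕ} (hl : 0 < l) (h : T l = T 0) :
    ∑ i ∈ range l, T (i + 1) = ∑ i ∈ range l, T i := by
  obtain ⟨l, rfl⟩ : ∃ l', l = l' + 1 := ⟨l - 1, by omega⟩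
  rw [sum_range_succ, sum_range_succ', h]

theorem d3_rel_l {w : ℕ → ℕ → M.R} {v : Fin M.l → M.R} (hv0 : v ≠ 0)
    (hv : Matrix.vecMul v (Matrix.of fun j m : Fin M.l => w j m) = 0) :
    ∃ h, M.IsRel w M.l h ∧ ∃ i < M.l, h i ≠ 0 := by
  refine ⟨fun i => if hi : i < M.l then v ⟨i, hi⟩ else 0, fun m hm => ?_, ?_⟩
  · have := congrFun hv ⟨m, hm⟩
    rw [← Fin.sum_univ_eq_sum_range (fun i => (if hi : i < M.l then v ⟨i, hi⟩ else 0) * w i m)]
    simpa [Matrix.vecMul, dotProduct] using this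
  · obtain ⟨i, hi⟩ := Function.ne_iff.1 hv0
    exact ⟨i, i.2, by simpa using hi⟩

/-- The semilinear operator. -/
def d3U (ψ : k[X]) (c : k) (v : ℕ → M.R) (m : ℕ) : M.R :=
  (if m = 0 then M.ι (C c) else M.ι ψ) * M.σ (v (if m = 0 then M.l - 1 else m - 1))

theorem d3U_row (ψ : k[X]) (c : k) (g : ℕ → M.R) {j m : ℕ} (hj : j + 1 < M.l) :
    M.d3U ψ c (M.vrow ψ c g j) m = M.ι ψ * M.vrow ψ c g (j + 1) m := by
  rcases Nat.eq_zero_or_pos m with rfl | hm
  · simp only [d3U, vrow, if_true, if_pos (show j ≤ M.l - 1 by omega),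
      if_neg (show ¬ j + 1 ≤ 0 by omega), map_mul, AlgHom.commutes, d3_σ]
    rw [show M.l - 1 - j = M.l + 0 - (j + 1) by omega]
    ring
  · simp only [d3U, vrow, if_neg hm.ne']
    by_cases h : j + 1 ≤ m
    · rw [if_pos h, if_pos (by omega), map_mul, AlgHom.commutes, d3_σ,
        show m - 1 - j = m - (j + 1) by omega]
    · rw [if_neg h, if_neg (by omega), map_mul, AlgHom.commutes, d3_σ,
        show M.l + (m - 1) - j = M.l + m - (j + 1) by omega]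

theorem d3U_iter (ψ : k[X]) (c : k) (v : ℕ → M.R) {n : ℕ} (hn : n ≤ M.l) {m : ℕ} (hm : m < M.l) :
    (M.d3U ψ c)^[n] v m = if n ≤ m then M.ι ψ ^ n * (M.σ ^ n) (v (m - n))
      else M.ι (C c) * M.ι ψ ^ (n - 1) * (M.σ ^ n) (v (M.l + m - n)) := by
  induction n generalizing m with
  | zero => simp
  | succ n ih =>
    rw [Function.iterate_succ_apply', d3U]
    rcases Nat.eq_zero_or_pos m with rfl | hm0
    · rw [if_pos rfl, if_pos rfl, ih (by omega) (by omega), if_pos (by omega), if_neg (by omega),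
        map_mul, map_pow, AlgHom.commutes, d3_σ, show M.l - 1 - n = M.l + 0 - (n + 1) by omega,
        Nat.add_sub_cancel, mul_assoc]
    · rw [if_neg hm0.ne', if_neg hm0.ne', ih (by omega) (by omega)]
      by_cases h : n + 1 ≤ m
      · rw [if_pos h, if_pos (by omega), map_mul, map_pow, AlgHom.commutes, d3_σ,
          show m - 1 - n = m - (n + 1) by omega]
        ring
      · obtain ⟨n, rfl⟩ : ∃ n', n = n' + 1 := ⟨n - 1, by omega⟩
        rw [if_neg h, if_neg (by omega), map_mul, map_mul, map_pow, AlgHom.commutes,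
          AlgHom.commutes, d3_σ, show M.l + (m - 1) - (n + 1) = M.l + m - (n + 1 + 1) by omega,
          Nat.add_sub_cancel, Nat.add_sub_cancel]
        ring

/-- The companion matrix. -/
def d3C (p : M.R) (h : ℕ → M.R) (n : ℕ) : Matrix (Fin (n + 1)) (Fin (n + 1)) M.R :=
  Matrix.of fun i j => if (i : ℕ) = n then -(p * h j) else if (j : ℕ) = i + 1 then h (n + 1) * p else 0

theorem d3C_det (p : M.R) (h : ℕ → M.R) (n : ℕ) :
    (M.d3C p h n).det = (-1) ^ n * -(p * h 0) * (h (n + 1) * p) ^ n := by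
  rw [Matrix.det_succ_column_zero, Fin.sum_univ_castSucc, sum_eq_zero, zero_add]
  · have e : (M.d3C p h n).submatrix (Fin.last n).succAbove Fin.succ =
        Matrix.diagonal fun _ => h (n + 1) * p := by
      ext i j
      have hi := i.2.ne
      simp only [d3C, Matrix.submatrix_apply, Fin.succAbove_last, Matrix.of_apply, Fin.val_castSucc,
        if_neg hi, Fin.val_succ, add_left_inj, Matrix.diagonal_apply, Fin.ext_iff]
      simp only [eq_comm]
    rw [e, Matrix.det_diagonal]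
    simp [d3C]
  · intro i _
    have hi := i.2.ne
    simp [d3C, hi]

theorem d3C_row (ψ : k[X]) (c : k) (g : ℕ → M.R) {n : ℕ} (hr : n + 1 < M.l) {h : ℕ → M.R}
    (hrel : M.IsRel (M.vrow ψ c g) (n + 1 + 1) h) (i : Fin (n + 1)) {m : ℕ} (hm : m < M.l) :
    h (n + 1) * M.d3U ψ c (M.vrow ψ c g i) m =
      ∑ j : Fin (n + 1), M.d3C (M.ι ψ) h n i j * M.vrow ψ c g j m := by
  have hi := i.2
  rw [M.d3U_row ψ c g (by omega)]
  by_cases h1 : (i : ℕ) = n
  · have h2 := hrel m hm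
    rw [sum_range_succ, ← Fin.sum_univ_eq_sum_range (fun j => h j * M.vrow ψ c g j m)] at h2
    simp only [d3C, Matrix.of_apply, if_pos h1, neg_mul, mul_assoc, sum_neg_distrib, ← mul_sum]
    rw [h1]
    linear_combination M.ι ψ * h2
  · rw [sum_eq_single (⟨i + 1, by omega⟩ : Fin (n + 1))]
    · simp [d3C, h1, mul_assoc]
    · intro j _ hj
      have : (j : ℕ) ≠ i + 1 := fun e => hj (Fin.ext e)
      simp [d3C, h1, this]
    · simp

/-- The products `σ^(t-1) C ⋯ σ C · C`. -/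
def d3D {r : ℕ} (B : Matrix (Fin r) (Fin r) M.R) : ℕ → Matrix (Fin r) (Fin r) M.R
  | 0 => 1
  | t + 1 => (d3D B t).map M.σ * B

theorem d3D_det {r : ℕ} (B : Matrix (Fin r) (Fin r) M.R) (t : ℕ) :
    (M.d3D B t).det = ∏ j ∈ range t, (M.σ ^ j) B.det := by
  induction t with
  | zero => simp [d3D]
  | succ t ih =>
    have e : ((M.d3D B t).map M.σ).det = M.σ (M.d3D B t).det := (M.σ.map_det _).symm
    rw [d3D, Matrix.det_mul, e, ih, map_prod, prod_range_succ', pow_zero, AlgHom.one_apply]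
    simp only [d3_σ]

theorem d3D_row (ψ : k[X]) (c : k) {r : ℕ} (B : Matrix (Fin r) (Fin r) M.R) (w : ℕ → ℕ → M.R)
    (a : M.R) (hB : ∀ (i : Fin r), ∀ m < M.l, a * M.d3U ψ c (w i) m = ∑ j : Fin r, B i j * w j m)
    (t : ℕ) (i : Fin r) {m : ℕ} (hm : m < M.l) :
    (∏ j ∈ range t, (M.σ ^ j) a) * (M.d3U ψ c)^[t] (w i) m = ∑ j : Fin r, M.d3D B t i j * w j m := by
  induction t generalizing m with
  | zero => simp [d3D, Matrix.one_apply]
  | succ t ih =>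
    have h1 := congrArg M.σ (ih (m := if m = 0 then M.l - 1 else m - 1) (by split_ifs <;> omega))
    rw [map_mul, map_prod, map_sum] at h1
    simp only [d3_σ, map_mul] at h1
    rw [Function.iterate_succ_apply', d3U, prod_range_succ', pow_zero, AlgHom.one_apply]
    simp only [d3D, Matrix.mul_apply, Matrix.map_apply, sum_mul, mul_assoc]
    rw [sum_comm]
    simp only [← mul_sum, ← hB _ m hm, d3U]
    have e : ∀ x y z : M.R, x * (a * (y * z)) = a * y * (x * z) := fun x y z => by ring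
    simp only [e]
    rw [← mul_sum, h1]

theorem d3_det_eq (ψ : k[X]) (c : k) (g : ℕ → M.R) {n : ℕ} (hr : n + 1 < M.l)
    (hind : ∀ h, M.IsRel (M.vrow ψ c g) (n + 1) h → ∀ i < n + 1, h i = 0) {h : ℕ → M.R}
    (hrel : M.IsRel (M.vrow ψ c g) (n + 1 + 1) h) :
    M.nm (M.d3C (M.ι ψ) h n).det = (M.nm (h (n + 1)) * (C c * ψ ^ (M.l - 1))) ^ (n + 1) := by
  set s := M.nm (h (n + 1)) * (C c * ψ ^ (M.l - 1)) with hs
  have hD : M.d3D (M.d3C (M.ι ψ) h n) M.l = Matrix.diagonal fun _ => M.ι s := by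
    ext i j
    have h1 := hind (fun j => if hj : j < n + 1 then M.d3D (M.d3C (M.ι ψ) h n) M.l i ⟨j, hj⟩ -
      Matrix.diagonal (fun _ => M.ι s) i ⟨j, hj⟩ else 0) (fun m hm => ?_) j j.2
    · simpa only [Fin.is_lt, dif_pos, Fin.eta, sub_eq_zero] using h1
    · have h2 := M.d3D_row ψ c _ _ _ (fun i m hm => M.d3C_row ψ c g hr hrel i hm) M.l i hm
      rw [M.d3U_iter ψ c _ le_rfl hm, if_neg (by omega), sig_pow_l, AlgHom.one_apply,
        Nat.add_sub_cancel_left, ← M.d3_nm] at h2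
      rw [← Fin.sum_univ_eq_sum_range (fun j => (if hj : j < n + 1 then
        M.d3D (M.d3C (M.ι ψ) h n) M.l i ⟨j, hj⟩ -
          Matrix.diagonal (fun _ => M.ι s) i ⟨j, hj⟩ else 0) * M.vrow ψ c g j m)]
      simp only [Fin.is_lt, dif_pos, Fin.eta, sub_mul, sum_sub_distrib, ← h2,
        Matrix.diagonal_apply, ite_mul, zero_mul, sum_ite_eq, mem_univ, if_true, hs, map_mul, map_pow]
      ring
  apply kum_algebraMap_injective (l := M.l) (F := M.F)
  rw [M.d3_nm, ← d3D_det, hD, Matrix.det_diagonal, prod_const, card_univ, Fintype.card_fin,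
    map_pow]

/-- The rank of `ρ` (`Matrix.exists_vecMul_eq_zero_iff`, then `Nat.find`; row `0` is `ψ g ≠ 0`). -/
theorem exists_rank {ψ : k[X]} (hψ : ψ ≠ 0) (c : k) {g : ℕ → M.R} (hg : ∃ i < M.l, g i ≠ 0)
    (hdet : (Matrix.of fun j m : Fin M.l => M.vrow ψ c g j m).det = 0) :
    ∃ r, 1 ≤ r ∧ r < M.l ∧ (∀ h, M.IsRel (M.vrow ψ c g) r h → ∀ i < r, h i = 0) ∧
      ∃ h, M.IsRel (M.vrow ψ c g) (r + 1) h ∧ ∃ i ≤ r, h i ≠ 0 := by
  classical
  obtain ⟨v, hv0, hv⟩ := Matrix.exists_vecMul_eq_zero_iff.2 hdet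
  have hex : ∃ n, ∃ h, M.IsRel (M.vrow ψ c g) n h ∧ ∃ i < n, h i ≠ 0 := ⟨M.l, d3_rel_l M hv0 hv⟩
  have h1 := Nat.find_spec hex
  have h2 : Nat.find hex ≤ M.l := Nat.find_min' hex (d3_rel_l M hv0 hv)
  have h3 : 1 < Nat.find hex := by
    rw [Nat.lt_find_iff]
    rintro n hn ⟨h, hh, i, hi, hi0⟩
    obtain rfl : n = 1 := by omega
    obtain rfl : i = 0 := by omega
    obtain ⟨m, hm, hm0⟩ := hg
    have := hh m hm
    simp only [range_one, sum_singleton, vrow, Nat.zero_le, if_true, pow_zero, AlgHom.one_apply,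
      Nat.sub_zero] at this
    exact mul_ne_zero hi0 (mul_ne_zero (M.ι_ne_zero hψ) hm0) this
  obtain ⟨r, hr⟩ : ∃ r, Nat.find hex = r + 1 := ⟨Nat.find hex - 1, by omega⟩
  refine ⟨r, by omega, by omega, fun h hh i hi => ?_, ?_⟩
  · by_contra h0
    exact Nat.find_min hex (show r < Nat.find hex by omega) ⟨h, hh, i, hi, h0⟩
  · rw [hr] at h1
    obtain ⟨h, hh, i, hi, h0⟩ := h1
    exact ⟨h, hh, i, by omega, h0⟩

/-- **The norm equation.**  Let `U` be the `σ`-semilinear operator on `Fin l → R` (or `ℕ → R`),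
`(U v)_0 = c σ(v_{l-1})`, `(U v)_m = ψ σ(v_{m-1})`; then `U (row j) = ψ · row (j+1)` for
`j + 1 < l` and `U^l = c ψ^(l-1)`.  Put `T = h_r U`; `T (row i) = ∑_j C_{ij} row j` (`i, j < r`) with
`C_{i,i+1} = h_r ψ`, last row `C_{r-1,j} = -ψ h_j`.  Then `T^n (row i) = ∑_j (σ^(n-1) C ⋯ σ C · C)_{ij}
row j` and `T^l = nm(h_r) c ψ^(l-1)`; by independence the matrix product is this scalar, and taking
determinants `nm (det C) = (nm(h_r) c ψ^(l-1))^r` with `det C = ± (h_r ψ)^(r-1) ψ h_0`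
(move the last row to the top: triangular matrix).  Cancel. -/
theorem norm_rel {ψ : k[X]} (hψ : ψ ≠ 0) {c : k} (hc : c ≠ 0) (g : ℕ → M.R) {r : ℕ} (hr1 : 1 ≤ r)
    (hr : r < M.l) (hind : ∀ h, M.IsRel (M.vrow ψ c g) r h → ∀ i < r, h i = 0) {h : ℕ → M.R}
    (hrel : M.IsRel (M.vrow ψ c g) (r + 1) h) (hne : ∃ i ≤ r, h i ≠ 0) :
    h 0 ≠ 0 ∧ h r ≠ 0 ∧ ∃ e : k, e ≠ 0 ∧ ψ ^ r * M.nm (h 0) = C e * M.nm (h r) := by
  have hr0 : h r ≠ 0 := by
    intro h0
    obtain ⟨i, hi, hi0⟩ := hne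
    rcases hi.eq_or_lt with rfl | hi
    · exact hi0 h0
    · refine hi0 (hind h (fun m hm => ?_) i hi)
      have := hrel m hm
      rwa [sum_range_succ, h0, zero_mul, add_zero] at this
  obtain ⟨n, rfl⟩ : ∃ n, r = n + 1 := ⟨r - 1, by omega⟩
  have h1 := d3_det_eq M ψ c g hr hind hrel
  have e1 : ((-1 : M.R) ^ n * -(M.ι ψ * h 0) * (h (n + 1) * M.ι ψ) ^ n) =
      M.ι (C ((-1) ^ (n + 1)) * ψ ^ (n + 1)) * (h 0 * h (n + 1) ^ n) := by
    simp only [map_mul, map_pow, map_neg, map_one]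
    ring
  rw [d3C_det, e1, M.d3_mul, M.d3_mul, M.d3_pow, M.d3_C] at h1
  obtain ⟨l', hl'⟩ : ∃ l', M.l = l' + 1 := ⟨M.l - 1, by omega⟩
  have h2 : ψ ^ (n + 1) * M.nm (h 0) = C (((-1) ^ (n + 1)) ^ M.l * c ^ (n + 1)) * M.nm (h (n + 1)) := by
    refine mul_left_cancel₀ (mul_ne_zero (pow_ne_zero (l' * (n + 1)) hψ)
      (pow_ne_zero n (M.nm_ne_zero hr0))) ?_
    have h3 : (C ((-1 : k) ^ (n + 1)) ^ M.l) * (C ((-1 : k) ^ (n + 1)) ^ M.l) = 1 := by
      rw [← mul_pow, ← map_mul, ← mul_pow]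
      simp
    have h4 : (ψ ^ (n + 1)) ^ M.l = ψ ^ (l' * (n + 1)) * ψ ^ (n + 1) := by
      rw [hl']
      ring
    have h5 : M.l - 1 = l' := by omega
    rw [mul_pow, h4, h5] at h1
    rw [map_mul, map_pow (C : k →+* k[X]) _ M.l, map_pow (C : k →+* k[X]) c]
    linear_combination (C ((-1 : k) ^ (n + 1)) ^ M.l) * h1 -
      ψ ^ (l' * (n + 1)) * ψ ^ (n + 1) * M.nm (h 0) * M.nm (h (n + 1)) ^ n * h3
  have he : ((-1 : k) ^ (n + 1)) ^ M.l * c ^ (n + 1) ≠ 0 := by simp [hc]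
  refine ⟨fun h0 => ?_, hr0, _, he, h2⟩
  have h6 : M.nm (0 : M.R) = 0 := by
    have := M.d3_C 0
    rwa [map_zero, zero_pow (NeZero.ne _)] at this
  rw [h0, h6, mul_zero] at h2
  exact mul_ne_zero (C_ne_zero.2 he) (M.nm_ne_zero hr0) h2.symm

/-- Removing the rank: `r s = 1 + l t`. -/
theorem norm_rel_pow {ψ : k[X]} {h₀ h₁ : M.R} {r s t : ℕ} (hrs : r * s = 1 + M.l * t) {e : k}
    (h : ψ ^ r * M.nm h₀ = C e * M.nm h₁) :
    M.nm (h₀ ^ s * M.ι ψ ^ t) * ψ = C (e ^ s) * M.nm (h₁ ^ s) := by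
  rw [M.d3_mul, M.d3_pow, M.d3_pow, M.d3_pow, M.d3_C, map_pow, ← mul_pow, ← h, mul_pow,
    ← pow_mul, ← pow_mul, hrs]
  ring

/-- **Hilbert 90 for ideals.**  `g₁ I · σ(term i) = g₂ · term (i+1)`, and
`term l = (nm g₁ · ψ) = (nm g₂) = term 0`. -/
theorem hilbert90 {I : Ideal M.R} {ψ : k[X]} (hψ : M.IsPsi I ψ) {g₁ g₂ : M.R}
    (h₂ : g₂ ≠ 0) {e : k} (he : e ≠ 0) (h : M.nm g₁ * ψ = C e * M.nm g₂) :
    M.H90 I g₁ g₂ ≠ ⊥ ∧
      Ideal.span {g₁} * I * M.cj 1 (M.H90 I g₁ g₂) = Ideal.span {g₂} * M.H90 I g₁ g₂ := by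
  set T : ℕ → Ideal M.R := fun i => Ideal.span {(∏ j ∈ range i, (M.σ ^ j) g₁) *
    ∏ j ∈ Ico i M.l, (M.σ ^ j) g₂} * M.A I i with hT
  have hH : M.H90 I g₁ g₂ = ∑ i ∈ range M.l, T i := rfl
  have hT0 : T 0 = Ideal.span {M.ι (M.nm g₂)} := by
    simp only [hT, A, range_zero, prod_empty, one_mul, mul_one, ← range_eq_Ico]
    rw [M.d3_nm]
  have hTl : T M.l = T 0 := by
    rw [hT0]
    simp only [hT, Ico_self, prod_empty, mul_one]
    rw [← M.d3_nm, hψ, Ideal.span_singleton_mul_span_singleton, ← map_mul, h, map_mul]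
    exact Ideal.span_singleton_mul_left_unit (((isUnit_C.2 he.isUnit)).map M.ι) _
  have hstep : ∀ i ∈ range M.l, Ideal.span {g₁} * I * M.cj 1 (T i) = Ideal.span {g₂} * T (i + 1) := by
    intro i hi
    have hi' := mem_range.1 hi
    have hA : M.A I (i + 1) = I * M.cj 1 (M.A I i) := by
      rw [add_comm, M.A_add]
      simp [A, M.cj_zero]
    have e1 : g₁ * (M.σ ^ 1) ((∏ j ∈ range i, (M.σ ^ j) g₁) * ∏ j ∈ Ico i M.l, (M.σ ^ j) g₂) =
        g₂ * ((∏ j ∈ range (i + 1), (M.σ ^ j) g₁) * ∏ j ∈ Ico (i + 1) M.l, (M.σ ^ j) g₂) := by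
      have e2 : ∏ j ∈ Ico i M.l, (M.σ ^ (j + 1)) g₂ = g₂ * ∏ j ∈ Ico (i + 1) M.l, (M.σ ^ j) g₂ := by
        rw [prod_Ico_add' (fun j => (M.σ ^ j) g₂) i M.l 1, prod_Ico_succ_top hi', sig_pow_l,
          AlgHom.one_apply, mul_comm]
      rw [pow_one, map_mul, map_prod, map_prod, prod_range_succ']
      simp only [d3_σ]
      rw [e2, pow_zero, AlgHom.one_apply]
      ring
    simp only [hT]
    rw [M.cj_mul, M.cj_span_singleton, hA, mul_mul_mul_comm, Ideal.span_singleton_mul_span_singleton,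
      e1, ← Ideal.span_singleton_mul_span_singleton, mul_assoc]
  constructor
  · intro h0
    have h1 : T 0 ≤ ∑ i ∈ range M.l, T i :=
      single_le_sum (f := T) (fun _ _ => bot_le) (mem_range.2 M.hl.pos)
    rw [← hH, h0, le_bot_iff, hT0, Ideal.span_singleton_eq_bot] at h1
    exact M.ι_ne_zero (M.nm_ne_zero h₂) h1
  · have hcj : M.cj 1 (∑ i ∈ range M.l, T i) = ∑ i ∈ range M.l, M.cj 1 (T i) :=
      map_sum (Ideal.mapHom (M.σ ^ 1)) _ _
    rw [hH, hcj, mul_sum, sum_congr rfl hstep, ← mul_sum, d3_shift T M.hl.pos hTl]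

/-- The inverse class of `H90` is the divided class. -/
theorem eqv_div {I H J : Ideal M.R} {g₁ g₂ : M.R} (h₁ : g₁ ≠ 0) (h₂ : g₂ ≠ 0)
    (h : Ideal.span {g₁} * I * M.cj 1 H = Ideal.span {g₂} * H) (hHJ : M.Eqv (H * J) ⊤) :
    M.Eqv (I * J) (M.cj 1 J) := by
  have e1 := hHJ.cj 1
  rw [M.cj_mul, M.cj_top] at e1
  have e2 : M.Eqv (I * M.cj 1 H) H := ⟨g₁, g₂, h₁, h₂, by rw [← mul_assoc, h]⟩
  have e3 := (Eqv.refl M (I * J)).mul e1.symm
  have e4 := e2.mul (Eqv.refl M (J * M.cj 1 J))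
  have e5 := hHJ.mul (Eqv.refl M (M.cj 1 J))
  rw [Ideal.mul_top, mul_mul_mul_comm] at e3
  rw [Ideal.top_mul, mul_assoc] at e5
  exact (e3.trans e4).trans e5

end Mdl

end Crest.Agent.R312
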