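import Crest.Agent.R312.ACard

/-! # Row 312, part A: division by `λ = σ - 1`, definitions

We work in the cyclic algebra `⊕_{i<l} L u^i`, `u g = σ(g) u`, `u^l = c / ψ`; an element
`ρ = ∑ g_i u^i` is the family `g`, and `vrow ψ c g j` lists the coordinates of `ψ u^j ρ`. -/

set_option autoImplicit false
set_option linter.unusedSectionVars false

noncomputable section

open Polynomial Finset

namespace Crest.Agent.R312

namespace Mdl

variable {k : Type} [Field k] (M : Mdl k)

/-- The coordinates of `ψ u^j ρ`. -/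
def vrow (ψ : k[X]) (c : k) (g : ℕ → M.R) (j m : ℕ) : M.R :=
  if j ≤ m then M.ι ψ * (M.σ ^ j) (g (m - j)) else M.ι (C c) * (M.σ ^ j) (g (M.l + m - j))

/-- The degree bound. -/
def W0 : ℕ := M.N * (M.l - 1) - 1

/-- The local conditions at the branch points: `ρ ∈ Y^(l-1) Λ_b`, `Λ_b` a maximal order. -/
def LocCond (β : k → k) (g : ℕ → M.R) : Prop :=
  ∀ b ∈ M.T, ∀ t m : ℕ, m + t + 1 < M.l →
    ∑ i ∈ range M.l, M.z ^ (i * t) * β b ^ i * (M.co m (g i)).eval b = 0

/-- The degree bound for linear relations. -/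
def relD (W : ℕ) : ℕ := M.l * (W + M.l + M.l * M.N) + M.l * M.N

/-- `h` is a linear relation between the first `r` rows. -/
def IsRel (v : ℕ → ℕ → M.R) (r : ℕ) (h : ℕ → M.R) : Prop :=
  ∀ m < M.l, ∑ i ∈ range r, h i * v i m = 0

/-- The ideal in Hilbert's theorem 90. -/
def H90 (I : Ideal M.R) (g₁ g₂ : M.R) : Ideal M.R :=
  ∑ i ∈ range M.l, Ideal.span {(∏ j ∈ range i, (M.σ ^ j) g₁) * ∏ j ∈ Ico i M.l, (M.σ ^ j) g₂} *
    M.A I i

end Mdl

end Crest.Agent.R312
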