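import Mathlib

/-! # Row 312, part A: the Kummer ring `O[Y]/(Y^l - F)` -/

set_option autoImplicit false
set_option linter.unusedSectionVars false

noncomputable section

open Polynomial Finset

namespace Crest.Agent.R312

variable {O : Type} [CommRing O]

/-- `O[Y]/(Y^l - F)`. -/
abbrev Kum (l : ℕ) (F : O) : Type := AdjoinRoot (X ^ l - C F : O[X])

/-- The class of `Y`. -/
def kY (l : ℕ) (F : O) : Kum l F := AdjoinRoot.root _

/-- The coordinate of `Y^j` (zero for `j ≥ l`). -/
def co (l : ℕ) [NeZero l] (F : O) (j : ℕ) : Kum l F →ₗ[O] O :=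
  lcoeff O j ∘ₗ AdjoinRoot.modByMonicHom (monic_X_pow_sub_C F (NeZero.ne l))

variable {l : ℕ} [NeZero l] {F : O}

theorem kY_pow : kY l F ^ l = algebraMap O (Kum l F) F := by
  have h := AdjoinRoot.mk_self (f := (X ^ l - C F : O[X]))
  rw [map_sub, map_pow] at h
  exact sub_eq_zero.1 h

theorem ak_mk (c : O) (i : ℕ) : algebraMap O (Kum l F) c * kY l F ^ i =
    AdjoinRoot.mk (X ^ l - C F : O[X]) (C c * X ^ i) := by
  rw [map_mul, map_pow]; rfl

theorem ak_deg [Nontrivial O] (g : Kum l F) :
    (AdjoinRoot.modByMonicHom (monic_X_pow_sub_C F (NeZero.ne l)) g).degree < l := by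
  obtain ⟨p, rfl⟩ := AdjoinRoot.mk_surjective g
  rw [AdjoinRoot.modByMonicHom_mk]
  have := degree_modByMonic_lt p (monic_X_pow_sub_C F (NeZero.ne l))
  rwa [degree_X_pow_sub_C (Nat.pos_of_ne_zero (NeZero.ne l))] at this

theorem ak_co_C_mul_pow (c : O) {i : ℕ} (hi : i < l) (j : ℕ) :
    co l F j (algebraMap O (Kum l F) c * kY l F ^ i) = if j = i then c else 0 := by
  nontriviality O
  rw [ak_mk, co, LinearMap.comp_apply, AdjoinRoot.modByMonicHom_mk,
    (modByMonic_eq_self_iff (monic_X_pow_sub_C F (NeZero.ne l))).2, lcoeff_apply, coeff_C_mul_X_pow]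
  rw [degree_X_pow_sub_C (Nat.pos_of_ne_zero (NeZero.ne l))]
  exact (degree_C_mul_X_pow_le i c).trans_lt (by exact_mod_cast hi)

theorem sum_co (g : Kum l F) :
    ∑ j ∈ range l, algebraMap O (Kum l F) (co l F j g) * kY l F ^ j = g := by
  rcases subsingleton_or_nontrivial O with _ | _
  · have := Module.subsingleton O (Kum l F)
    exact Subsingleton.elim _ _
  have h1 := AdjoinRoot.mk_leftInverse (monic_X_pow_sub_C F (NeZero.ne l)) g
  have h0 : (AdjoinRoot.modByMonicHom (monic_X_pow_sub_C F (NeZero.ne l)) g).natDegree < l := by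
    by_cases e : AdjoinRoot.modByMonicHom (monic_X_pow_sub_C F (NeZero.ne l)) g = 0
    · rw [e, natDegree_zero]; exact Nat.pos_of_ne_zero (NeZero.ne l)
    · exact (natDegree_lt_iff_degree_lt e).2 (ak_deg g)
  have h2 := as_sum_range_C_mul_X_pow' _ h0
  rw [h2, map_sum] at h1
  rw [← h1]
  refine sum_congr rfl fun j _ => ?_
  rw [h1, ak_mk]
  rfl

theorem co_sum (c : ℕ → O) {j : ℕ} (hj : j < l) :
    co l F j (∑ i ∈ range l, algebraMap O (Kum l F) (c i) * kY l F ^ i) = c j := by
  rw [map_sum, sum_congr rfl fun i hi => ak_co_C_mul_pow (c i) (mem_range.1 hi) j, sum_ite_eq,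
    if_pos (mem_range.2 hj)]

theorem co_of_le {j : ℕ} (hj : l ≤ j) (g : Kum l F) : co l F j g = 0 := by
  nontriviality O
  exact coeff_eq_zero_of_degree_lt ((ak_deg g).trans_le (by exact_mod_cast hj))

theorem ext_co {g h : Kum l F} (e : ∀ j < l, co l F j g = co l F j h) : g = h := by
  rw [← sum_co g, ← sum_co h]
  exact sum_congr rfl fun j hj => by rw [e j (mem_range.1 hj)]

theorem co_C_mul (c : O) (j : ℕ) (g : Kum l F) :
    co l F j (algebraMap O (Kum l F) c * g) = c * co l F j g := by
  rw [← Algebra.smul_def, map_smul, smul_eq_mul]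

theorem co_C_mul_pow (c : O) {i : ℕ} (hi : i < l) (j : ℕ) :
    co l F j (algebraMap O (Kum l F) c * kY l F ^ i) = if j = i then c else 0 := by
  exact ak_co_C_mul_pow c hi j

theorem co_C (c : O) (j : ℕ) : co l F j (algebraMap O (Kum l F) c) = if j = 0 then c else 0 := by
  simpa using co_C_mul_pow (F := F) c (Nat.pos_of_ne_zero (NeZero.ne l)) j

theorem kum_algebraMap_injective : Function.Injective (algebraMap O (Kum l F)) := by
  intro a b h
  have := congrArg (co l F 0) h
  rwa [co_C, co_C, if_pos rfl, if_pos rfl] at this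

theorem ak_co_pow_mul (h : Kum l F) {i m : ℕ} (hi : i < l) (hm : m < l) :
    co l F m (kY l F ^ i * h) = if i ≤ m then co l F (m - i) h else F * co l F (l + m - i) h := by
  have key : ∀ j < l, co l F m (kY l F ^ i * (algebraMap O (Kum l F) (co l F j h) * kY l F ^ j)) =
      if i + j < l then (if m = i + j then co l F j h else 0)
      else (if m = i + j - l then F * co l F j h else 0) := by
    intro j hj
    rw [mul_left_comm, ← pow_add]
    by_cases hij : i + j < l
    · rw [if_pos hij, co_C_mul_pow _ hij]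
    · rw [if_neg hij, ← co_C_mul_pow (F := F) (F * co l F j h) (by omega : i + j - l < l) m]
      congr 1
      conv_lhs => rw [show i + j = l + (i + j - l) by omega, pow_add, kY_pow]
      rw [map_mul]
      ring
  conv_lhs => rw [← sum_co h, mul_sum, map_sum, sum_congr rfl fun j hj => key j (mem_range.1 hj)]
  by_cases him : i ≤ m
  · rw [if_pos him, sum_eq_single (m - i), if_pos (by omega), if_pos (by omega)]
    · intro j hj hne
      have := mem_range.1 hj
      split_ifs <;> first | rfl | omega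
    · intro hn
      exact absurd (mem_range.2 (by omega)) hn
  · rw [if_neg him, sum_eq_single (l + m - i), if_neg (by omega), if_pos (by omega)]
    · intro j hj hne
      have := mem_range.1 hj
      split_ifs <;> first | rfl | omega
    · intro hn
      exact absurd (mem_range.2 (by omega)) hn

/-- Twisted cyclic convolution. -/
theorem co_mul (g h : Kum l F) {m : ℕ} (hm : m < l) :
    co l F m (g * h) = ∑ i ∈ range l,
      if i ≤ m then co l F i g * co l F (m - i) h else F * (co l F i g * co l F (l + m - i) h) := by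
  conv_lhs => rw [← sum_co g, sum_mul, map_sum]
  refine sum_congr rfl fun i hi => ?_
  rw [mul_assoc, co_C_mul, ak_co_pow_mul h (mem_range.1 hi) hm]
  split_ifs <;> ring

/-- Divisibility by an element of the base ring is coordinatewise. -/
theorem C_dvd_iff (c : O) (g : Kum l F) :
    algebraMap O (Kum l F) c ∣ g ↔ ∀ j < l, c ∣ co l F j g := by
  constructor
  · rintro ⟨k, rfl⟩ j _
    rw [co_C_mul]
    exact dvd_mul_right _ _
  · intro h
    rw [← sum_co g]
    exact dvd_sum fun j hj => (_root_.map_dvd _ (h j (mem_range.1 hj))).mul_right _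

theorem C_dvd_C_iff (c d : O) :
    algebraMap O (Kum l F) c ∣ algebraMap O (Kum l F) d ↔ c ∣ d := by
  refine ⟨fun h => ?_, fun h => _root_.map_dvd _ h⟩
  have := (C_dvd_iff c _).1 h 0 (Nat.pos_of_ne_zero (NeZero.ne l))
  rwa [co_C, if_pos rfl] at this

/-- `Y ↦ z Y` for an `l`-th root of unity `z`. -/
def sig (F : O) (z : O) (hz : z ^ l = 1) : Kum l F →ₐ[O] Kum l F :=
  AdjoinRoot.liftAlgHom _ (Algebra.ofId O (Kum l F)) (algebraMap O (Kum l F) z * kY l F) (by
    have h := kY_pow (l := l) (F := F)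
    simp only [eval₂_sub, eval₂_pow, eval₂_X, eval₂_C, mul_pow, ← map_pow, hz, map_one, one_mul, h]
    exact sub_self _)

variable {z : O} (hz : z ^ l = 1)

theorem sig_Y : sig F z hz (kY l F) = algebraMap O (Kum l F) z * kY l F := by
  exact AdjoinRoot.liftAlgHom_root _ _ _ _

theorem sig_pow_Y (t : ℕ) :
    (sig F z hz ^ t) (kY l F) = algebraMap O (Kum l F) (z ^ t) * kY l F := by
  induction t with
  | zero => simp
  | succ t ih =>
    rw [pow_succ', AlgHom.mul_apply, ih, map_mul, AlgHom.commutes, sig_Y, pow_succ, map_mul, mul_assoc]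

theorem ak_sig_pow (t : ℕ) (g : Kum l F) : (sig F z hz ^ t) g =
    ∑ i ∈ range l, algebraMap O (Kum l F) (z ^ (t * i) * co l F i g) * kY l F ^ i := by
  conv_lhs => rw [← sum_co g, map_sum]
  refine sum_congr rfl fun i _ => ?_
  rw [map_mul, map_pow, AlgHom.commutes, sig_pow_Y, mul_pow, ← map_pow, ← pow_mul, map_mul]
  ring

theorem co_sig_pow (t j : ℕ) (g : Kum l F) :
    co l F j ((sig F z hz ^ t) g) = z ^ (t * j) * co l F j g := by
  rcases lt_or_ge j l with hj | hj
  · rw [ak_sig_pow, co_sum (fun i => z ^ (t * i) * co l F i g) hj]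
  · rw [co_of_le hj, co_of_le hj, mul_zero]

theorem sig_pow_l : sig F z hz ^ l = 1 := by
  refine AlgHom.ext fun g => ext_co fun j _ => ?_
  rw [co_sig_pow, pow_mul, hz, one_pow, one_mul, AlgHom.one_apply]

theorem sig_pow_bijective (t : ℕ) : Function.Bijective (sig F z hz ^ t) := by
  have e : t + (l - 1) * t = l * t := by
    rw [add_comm, ← Nat.succ_mul, Nat.succ_eq_add_one, Nat.sub_add_cancel (Nat.pos_of_ne_zero (NeZero.ne l))]
  refine Function.bijective_iff_has_inverse.2 ⟨(sig F z hz ^ ((l - 1) * t) :), fun g => ?_, fun g => ?_⟩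
  · rw [← AlgHom.mul_apply, ← pow_add, add_comm, e, pow_mul, sig_pow_l, one_pow, AlgHom.one_apply]
  · rw [← AlgHom.mul_apply, ← pow_add, e, pow_mul, sig_pow_l, one_pow, AlgHom.one_apply]

/-- `σ g ≡ g mod Y`. -/
theorem kY_dvd_sig_pow_sub (t : ℕ) (g : Kum l F) : kY l F ∣ (sig F z hz ^ t) g - g := by
  rw [ak_sig_pow]
  conv_rhs => enter [2]; rw [← sum_co g]
  rw [← sum_sub_distrib]
  refine dvd_sum fun i _ => ?_
  rcases Nat.eq_zero_or_pos i with rfl | hi
  · simp
  · rw [← sub_mul]
    exact (dvd_pow_self _ hi.ne').mul_left _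

/-- Twisted averages of the conjugates. -/
theorem sum_sig_pow (w : O) (g : Kum l F) :
    ∑ j ∈ range l, algebraMap O (Kum l F) (w ^ j) * (sig F z hz ^ j) g =
      ∑ m ∈ range l, algebraMap O (Kum l F) ((∑ j ∈ range l, (w * z ^ m) ^ j) * co l F m g) *
        kY l F ^ m := by
  refine ext_co fun m hm => ?_
  rw [co_sum (fun m => (∑ j ∈ range l, (w * z ^ m) ^ j) * co l F m g) hm, map_sum, sum_mul]
  refine sum_congr rfl fun j _ => ?_
  rw [co_C_mul, co_sig_pow]
  ring

/-- The norm. -/
def nm (F : O) (z : O) (hz : z ^ l = 1) (g : Kum l F) : O :=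
  co l F 0 (∏ t ∈ range l, (sig F z hz ^ t) g)

theorem ak_shift (g : Kum l F) :
    ∏ t ∈ range l, (sig F z hz ^ (t + 1)) g = ∏ t ∈ range l, (sig F z hz ^ t) g := by
  have key : ∀ (f : ℕ → Kum l F) (n : ℕ), n ≠ 0 → f n = f 0 →
      ∏ t ∈ range n, f (t + 1) = ∏ t ∈ range n, f t := by
    intro f n hn e
    obtain ⟨k, rfl⟩ := Nat.exists_eq_succ_of_ne_zero hn
    rw [prod_range_succ, prod_range_succ' f, e]
  exact key (fun t => (sig F z hz ^ t) g) l (NeZero.ne l) (by simp only [sig_pow_l, pow_zero])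

section Prim

variable [IsDomain O] (hp : IsPrimitiveRoot z l)
include hp

/-- A `σ`-invariant element lies in the base ring. -/
theorem eq_C_of_sig {g : Kum l F} (h : sig F z hz g = g) :
    g = algebraMap O (Kum l F) (co l F 0 g) := by
  refine ext_co fun j hj => ?_
  rw [co_C]
  split_ifs with h0
  · rw [h0]
  · have e := co_sig_pow hz 1 j g
    rw [pow_one, h, one_mul] at e
    by_contra hne
    exact hp.pow_ne_one_of_pos_of_lt h0 hj (mul_right_cancel₀ hne (e.symm.trans (one_mul _).symm))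

/-- An eigenvector of `σ` is a multiple of a power of `Y`. -/
theorem eq_C_mul_pow_of_sig {g : Kum l F} {c : O} (hg : g ≠ 0)
    (h : sig F z hz g = algebraMap O (Kum l F) c * g) :
    ∃ j < l, g = algebraMap O (Kum l F) (co l F j g) * kY l F ^ j := by
  have e : ∀ i, c * co l F i g = z ^ i * co l F i g := by
    intro i
    have e := co_sig_pow hz 1 i g
    rwa [pow_one, h, one_mul, co_C_mul] at e
  obtain ⟨j, hj, hne⟩ : ∃ j < l, co l F j g ≠ 0 := by
    by_contra hc
    push Not at hc
    exact hg (ext_co fun j hj => by rw [hc j hj, map_zero])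
  refine ⟨j, hj, ext_co fun i hi => ?_⟩
  rw [co_C_mul_pow _ hj]
  split_ifs with h0
  · rw [h0]
  · by_contra hne'
    exact h0 (hp.pow_inj hi hj ((mul_right_cancel₀ hne' (e i)).symm.trans (mul_right_cancel₀ hne (e j))))

theorem C_nm (g : Kum l F) :
    algebraMap O (Kum l F) (nm F z hz g) = ∏ t ∈ range l, (sig F z hz ^ t) g := by
  refine (eq_C_of_sig hz hp ?_).symm
  rw [map_prod, ← ak_shift hz g]
  exact prod_congr rfl fun t _ => by rw [pow_succ', AlgHom.mul_apply]

theorem nm_mul (g h : Kum l F) : nm F z hz (g * h) = nm F z hz g * nm F z hz h := by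
  refine kum_algebraMap_injective (l := l) (F := F) ?_
  rw [map_mul, C_nm hz hp, C_nm hz hp, C_nm hz hp, ← prod_mul_distrib]
  exact prod_congr rfl fun t _ => map_mul _ _ _

theorem nm_C (c : O) : nm F z hz (algebraMap O (Kum l F) c) = c ^ l := by
  refine kum_algebraMap_injective (l := l) (F := F) ?_
  rw [C_nm hz hp, prod_congr rfl fun t _ => AlgHom.commutes _ c, prod_const, card_range, map_pow]

theorem nm_one : nm F z hz 1 = 1 := by
  simpa using nm_C (F := F) hz hp 1

theorem nm_pow (g : Kum l F) (n : ℕ) : nm F z hz (g ^ n) = nm F z hz g ^ n := by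
  induction n with
  | zero => rw [pow_zero, pow_zero, nm_one hz hp]
  | succ n ih => rw [pow_succ, pow_succ, nm_mul hz hp, ih]

theorem nm_Y : nm F z hz (kY l F) = z ^ (∑ t ∈ range l, t) * F := by
  refine kum_algebraMap_injective (l := l) (F := F) ?_
  rw [C_nm hz hp, prod_congr rfl fun t _ => sig_pow_Y hz t, prod_mul_distrib, prod_const, card_range,
    kY_pow, ← map_prod, prod_pow_eq_pow_sum, map_mul]

theorem nm_sig (g : Kum l F) : nm F z hz (sig F z hz g) = nm F z hz g := by
  rw [nm, nm, ← ak_shift hz g]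
  rfl

theorem dvd_C_nm (g : Kum l F) : g ∣ algebraMap O (Kum l F) (nm F z hz g) := by
  rw [C_nm hz hp]
  exact dvd_prod_of_mem (fun t => (sig F z hz ^ t) g) (mem_range.2 (Nat.pos_of_ne_zero (NeZero.ne l)))

/-- The isotypic projections: `l • g_m Y^m` is a combination of the conjugates of `g`.
(Use `sum_sig_pow` with `w = z^(l-m)`.) -/
theorem proj_eq (g : Kum l F) {m : ℕ} (hm : m < l) :
    algebraMap O (Kum l F) ((l : O) * co l F m g) * kY l F ^ m =
      ∑ j ∈ range l, algebraMap O (Kum l F) ((z ^ (l - m)) ^ j) * (sig F z hz ^ j) g := by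
  refine ext_co fun i hi => ?_
  rw [sum_sig_pow, co_sum (fun i => (∑ j ∈ range l, (z ^ (l - m) * z ^ i) ^ j) * co l F i g) hi,
    co_C_mul_pow _ hm]
  split_ifs with h0
  · rw [h0, ← pow_add, Nat.sub_add_cancel hm.le, hz]
    simp
  · have h1 : z ^ (l - m) * z ^ i ≠ 1 := by
      intro e
      refine h0 (hp.pow_inj hi hm ?_)
      have e2 : z ^ m * (z ^ (l - m) * z ^ i) = z ^ i := by
        rw [← mul_assoc, ← pow_add, Nat.add_sub_cancel' hm.le, hz, one_mul]
      rw [← e2, e, mul_one]
    have h2 := mul_neg_geom_sum (z ^ (l - m) * z ^ i) l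
    rw [← pow_add, ← pow_mul, mul_comm (l - m + i) l, pow_mul, hz, one_pow, sub_self, pow_add] at h2
    rw [(mul_eq_zero.1 h2).resolve_left (sub_ne_zero.2 h1.symm), zero_mul]

end Prim

end Crest.Agent.R312
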