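import Mathlib

/-! # Row 312, part A: the `l`-th power of a Gauss sum is not an `l`-th power -/

set_option autoImplicit false
set_option linter.unusedSectionVars false

noncomputable section

open Polynomial Finset

namespace Crest.Agent.R312

variable {p : ℕ} [Fact p.Prime]

theorem atops4a_frob {R R' : Type} [CommRing R] [Fintype R] [CommRing R'] [CharP R' p]
    (χ : MulChar R R') (ψ : AddChar R R') (d : ℕ) :
    gaussSum χ ψ ^ p ^ d = gaussSum (χ ^ p ^ d) (ψ ^ p ^ d) := by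
  induction d with
  | zero => simp
  | succ d ih => rw [pow_succ, pow_mul, ih, gaussSum_frob p, ← pow_mul, ← pow_mul]

/-- If `χ` has order `l`, values in `k`, `#k = p^d` and `χ(p)^d ≠ 1`, then
`η = χ(-1) r ∏ J(χ, χ^i) = g(χ)^l` (`gaussSum_pow_eq_prod_jacobiSum` in an extension of `k` containing
a primitive `r`-th root of unity, `AddChar.FiniteField.primitiveChar` / `primitiveZModChar`) is
nonzero (`gaussSum_mul_gaussSum_eq_card`), and `g(χ)^q = χ(q)⁻¹ g(χ)` (`gaussSum_frob` iterated or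
`sum_pow_char_pow`, `gaussSum_mulShift`), so `η^((q-1)/l) = χ(q)⁻¹ ≠ 1`. -/
theorem nonres_of_char {k : Type} [Field k] [Fintype k] [CharP k p] {l r d : ℕ} [Fact r.Prime]
    (hl : l.Prime) (hr : r ≠ p) (hcard : Fintype.card k = p ^ d) (hdvd : l ∣ p ^ d - 1)
    (χ : MulChar (ZMod r) k) (hχ : orderOf χ = l) (hp : χ (p : ZMod r) ^ d ≠ 1) :
    χ (-1) * (r : k) * ∏ i ∈ Ico 1 (l - 1), jacobiSum χ (χ ^ i) ≠ 0 ∧
      (χ (-1) * (r : k) * ∏ i ∈ Ico 1 (l - 1), jacobiSum χ (χ ^ i)) ^ ((p ^ d - 1) / l) ≠ 1 := by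
  have hpp : p.Prime := Fact.out
  have hrp : r.Prime := Fact.out
  have hch : ringChar k ≠ ringChar (ZMod r) := by
    rw [ringChar.eq k p, ZMod.ringChar_zmod_n]
    exact hr.symm
  let ψ := AddChar.FiniteField.primitiveChar (ZMod r) k hch
  let f := algebraMap k (CyclotomicField ψ.n k)
  have hf : Function.Injective f := f.injective
  have : CharP (CyclotomicField ψ.n k) p := (Algebra.charP_iff k _ p).1 inferInstance
  set χ' := χ.ringHomComp f with hχ'
  have ho : orderOf χ' = l := by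
    rw [← hχ]
    exact orderOf_injective (MulChar.ringHomCompHom f) (MulChar.injective_ringHomComp hf) χ
  have h1 : χ' ≠ 1 := fun h => by
    rw [h, orderOf_one] at ho
    exact hl.one_lt.ne ho
  have h2 := gaussSum_pow_eq_prod_jacobiSum (χ := χ') (ψ := ψ.char) (ho ▸ hl.two_le) ψ.prim
  have h3 : f (χ (-1) * (r : k) * ∏ i ∈ Ico 1 (l - 1), jacobiSum χ (χ ^ i)) =
      gaussSum χ' ψ.char ^ l := by
    rw [ho, ZMod.card] at h2
    rw [h2, map_mul, map_mul, map_natCast, map_prod]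
    congr 1
    refine Finset.prod_congr rfl fun i _ => ?_
    rw [hχ', MulChar.ringHomComp_pow, jacobiSum_ringHomComp]
  have hr0 : ((Fintype.card (ZMod r) : ℕ) : CyclotomicField ψ.n k) ≠ 0 := by
    rw [ZMod.card, Ne, CharP.cast_eq_zero_iff _ p, Nat.prime_dvd_prime_iff_eq hpp hrp]
    exact hr.symm
  have h4 : gaussSum χ' ψ.char ≠ 0 := gaussSum_ne_zero_of_nontrivial hr0 h1 ψ.prim
  refine ⟨fun h => ?_, fun h => ?_⟩
  · rw [h, map_zero] at h3
    exact pow_ne_zero l h4 h3.symm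
  have hq : 1 ≤ p ^ d := Nat.one_le_pow _ _ hpp.pos
  have h5 : gaussSum χ' ψ.char ^ p ^ d = gaussSum χ' ψ.char := by
    have := congrArg f h
    rw [map_pow, h3, ← pow_mul, Nat.mul_div_cancel' hdvd, map_one] at this
    rw [← Nat.sub_add_cancel hq, pow_succ, this, one_mul]
  have h6 : χ' ^ p ^ d = χ' := by
    obtain ⟨c, hc⟩ := hdvd
    rw [← Nat.sub_add_cancel hq, pow_succ, hc, pow_mul, ← ho, pow_orderOf_eq_one, one_pow, one_mul]
  have hu : IsUnit ((p ^ d : ℕ) : ZMod r) := by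
    rw [Nat.cast_pow]
    refine IsUnit.pow _ (Ne.isUnit ?_)
    rw [Ne, ZMod.natCast_eq_zero_iff, Nat.prime_dvd_prime_iff_eq hrp hpp]
    exact hr
  have h7 := gaussSum_mulShift χ' ψ.char hu.unit
  rw [IsUnit.unit_spec, ← AddChar.pow_mulShift, ← h6, ← atops4a_frob, h6, h5] at h7
  have h8 : χ' ((p ^ d : ℕ) : ZMod r) = 1 := mul_right_cancel₀ h4 (h7.trans (one_mul _).symm)
  rw [Nat.cast_pow, map_pow, hχ', MulChar.ringHomComp_apply, ← map_pow, ← map_one f] at h8
  exact hp (hf h8)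

end Crest.Agent.R312
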