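import Crest.Agent.R312.ATopS2
import Crest.Agent.R312.ATopS4a

/-! # Row 312, part A: the nonresidue from Gauss sums -/

set_option autoImplicit false
set_option linter.unusedSectionVars false

noncomputable section

open Polynomial Finset

namespace Crest.Agent.R312

variable {p : ℕ} [Fact p.Prime]

theorem atops4_pow_eq {A B : Type} [CommMonoid A] [CommMonoid B] {ω : A} {z : B} {l : ℕ}
    (hl : 0 < l) (hω : IsPrimitiveRoot ω l) (hz : IsPrimitiveRoot z l) {i j : ℕ}
    (h : ω ^ i = ω ^ j) : z ^ i = z ^ j := by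
  rw [pow_eq_pow_mod i hω.pow_eq_one, pow_eq_pow_mod j hω.pow_eq_one] at h
  rw [pow_eq_pow_mod i hz.pow_eq_one, pow_eq_pow_mod j hz.pow_eq_one,
    hω.pow_inj (Nat.mod_lt _ hl) (Nat.mod_lt _ hl) h]

theorem atops4_pow_of_one {r l e : ℕ} [Fact r.Prime] (he : l * e = r - 1) {a : ZMod r}
    (ha : a ≠ 0) (h : a ^ e = 1) : ∃ x : ZMod r, x ^ l = a := by
  obtain ⟨g, hg⟩ := IsCyclic.exists_monoid_generator (α := (ZMod r)ˣ)
  obtain ⟨n, hn⟩ := hg (Units.mk0 a ha)
  have ho : orderOf g = r - 1 := by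
    rw [orderOf_eq_card_of_forall_mem_powers hg, Nat.card_eq_fintype_card, ZMod.card_units]
  have hn' : g ^ n = Units.mk0 a ha := hn
  have h1 : g ^ (n * e) = 1 := by
    rw [pow_mul, hn']
    ext
    simpa using h
  have h2 := orderOf_dvd_of_pow_eq_one h1
  have he0 : 0 < e := by
    have := (Fact.out : r.Prime).two_le
    rcases Nat.eq_zero_or_pos e with rfl | h0
    · omega
    · exact h0
  rw [ho, ← he] at h2
  obtain ⟨m, rfl⟩ := Nat.dvd_of_mul_dvd_mul_right he0 h2
  refine ⟨((g ^ m : (ZMod r)ˣ) : ZMod r), ?_⟩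
  rw [← Units.val_pow_eq_pow_val, ← pow_mul, mul_comm, hn']
  rfl

theorem atops4_khom {k : Type} [Field k] [CharP k p] {f : List ℕ} {z : k}
    (hz : (monicP (fun n : ℕ => (n : k)) f).eval z = 0) :
    (kops p f).Hom (fun l => (toP (fun n : ℕ => (n : k)) l).eval z) :=
  (zops_hom p (Fact.out : p.Prime).pos (CharP.cast_eq_zero k p)).quot_eval f hz

/-- The character computed by `chi`: `ω = p^((r-1)/l)` has order `l` in `(ZMod r)ˣ` because `p` is
not an `l`-th power (cyclic group), every `t^((r-1)/l)` is a power `ω^j`, and `χ t = z^j`. -/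
theorem exists_char {k : Type} [Field k] [CharP k p] {l r : ℕ} [Fact r.Prime] (hl : l.Prime)
    (hr1 : r % l = 1) (hr : r ≠ p) (hnr : ¬ ∃ x : ZMod r, x ^ l = (p : ZMod r)) {f : List ℕ} {z : k}
    (hz : (monicP (fun n : ℕ => (n : k)) f).eval z = 0) (hprim : IsPrimitiveRoot z l) :
    ∃ χ : MulChar (ZMod r) k, orderOf χ = l ∧ χ (p : ZMod r) = z ∧
      ∀ t : ℕ, (toP (fun n : ℕ => (n : k)) (chi p l f r t)).eval z = χ (t : ZMod r) := by
  classical
  have hrp : r.Prime := Fact.out
  have : Fact l.Prime := ⟨hl⟩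
  have : NeZero l := ⟨hl.ne_zero⟩
  have hdvd : l ∣ r - 1 := by
    have := Nat.div_add_mod r l
    exact ⟨r / l, by omega⟩
  obtain ⟨e, he⟩ : ∃ e, e = (r - 1) / l := ⟨_, rfl⟩
  have hle : l * e = r - 1 := he ▸ Nat.mul_div_cancel' hdvd
  have hp0 : (p : ZMod r) ≠ 0 := by
    rw [Ne, ZMod.natCast_eq_zero_iff, Nat.prime_dvd_prime_iff_eq hrp Fact.out]
    exact hr
  have hone : ∀ t : ZMod r, t ≠ 0 → (t ^ e) ^ l = 1 := fun t ht => by
    rw [← pow_mul, mul_comm, hle, ZMod.pow_card_sub_one_eq_one ht]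
  have hω : IsPrimitiveRoot ((p : ZMod r) ^ e) l := by
    have h1 : (p : ZMod r) ^ e ≠ 1 := fun h => hnr (atops4_pow_of_one hle hp0 h)
    have h2 := orderOf_eq_prime (hone _ hp0) h1
    exact h2 ▸ IsPrimitiveRoot.orderOf _
  have hJ : ∀ t : ZMod r, ∃ j, t ≠ 0 → j < l ∧ ((p : ZMod r) ^ e) ^ j = t ^ e := fun t => by
    by_cases ht : t = 0
    · exact ⟨0, fun h => absurd ht h⟩
    · obtain ⟨j, hj⟩ := hω.eq_pow_of_pow_eq_one (hone t ht)
      exact ⟨j, fun _ => hj⟩
  choose J hJ using hJ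
  have key : ∀ t : ZMod r, t ≠ 0 → ∀ j, ((p : ZMod r) ^ e) ^ j = t ^ e → z ^ J t = z ^ j :=
    fun t ht j hj => atops4_pow_eq hl.pos hω hprim ((hJ t ht).2.trans hj.symm)
  let χ : MulChar (ZMod r) k :=
    { toFun := fun t => if t = 0 then 0 else z ^ J t
      map_one' := by
        rw [if_neg one_ne_zero, key 1 one_ne_zero 0 (by simp), pow_zero]
      map_mul' := fun s t => by
        by_cases hs : s = 0
        · simp [hs]
        by_cases ht : t = 0
        · simp [ht]
        rw [if_neg (mul_ne_zero hs ht), if_neg hs, if_neg ht, ← pow_add]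
        refine key _ (mul_ne_zero hs ht) _ ?_
        rw [pow_add, (hJ s hs).2, (hJ t ht).2, mul_pow]
      map_nonunit' := fun t ht => by
        rw [if_pos (by simpa using ht)] }
  have hχ : ∀ t : ZMod r, t ≠ 0 → ∀ j, ((p : ZMod r) ^ e) ^ j = t ^ e → χ t = z ^ j :=
    fun t ht j hj => (if_neg ht).trans (key t ht j hj)
  have hχp : χ (p : ZMod r) = z := by rw [hχ _ hp0 1 (pow_one _), pow_one]
  refine ⟨χ, orderOf_eq_prime ?_ fun h => ?_, hχp, fun t => ?_⟩
  · ext u
    rw [MulChar.pow_apply_coe, MulChar.one_apply_coe, hχ _ u.ne_zero _ (hJ _ u.ne_zero).2,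
      ← pow_mul, mul_comm, pow_mul, hprim.pow_eq_one, one_pow]
  · rw [h, MulChar.one_apply (Ne.isUnit hp0)] at hχp
    exact hprim.ne_one hl.one_lt hχp.symm
  · have H := atops4_khom (p := p) hz
    unfold chi
    split_ifs with ht
    · rw [(ZMod.natCast_eq_zero_iff t r).2 (Nat.dvd_of_mod_eq_zero ht), MulChar.map_zero]
      exact H.zero
    · have ht0 : (t : ZMod r) ≠ 0 := fun h =>
        ht (Nat.mod_eq_zero_of_dvd ((ZMod.natCast_eq_zero_iff t r).1 h))
      have hiff : ∀ j, t ^ e % r = ((p % r) ^ e) ^ j % r ↔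
          ((p : ZMod r) ^ e) ^ j = (t : ZMod r) ^ e := fun j => by
        rw [← ZMod.natCast_eq_natCast_iff']
        push_cast
        rw [ZMod.natCast_mod]
        exact eq_comm
      rw [← he, H.pow]
      have hX : (toP (fun n : ℕ => (n : k)) [0, 1]).eval z = z := by simp [toP]
      rw [hX]
      rcases hf : (List.range l).find? fun j => decide (t ^ e % r = ((p % r) ^ e) ^ j % r) with
        _ | j
      · have := List.find?_eq_none.1 hf (J t) (List.mem_range.2 (hJ _ ht0).1)
        exact absurd (decide_eq_true ((hiff _).2 (hJ _ ht0).2)) this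
      · have := List.find?_some hf
        exact (hχ _ ht0 j ((hiff j).1 (of_decide_eq_true this))).symm

theorem atops4_geom {B : Type} [CommRing B] (n : ℕ) :
    toP (fun n : ℕ => (n : B)) (List.replicate n 1) = ∑ i ∈ range n, X ^ i := by
  induction n with
  | zero => rfl
  | succ n ih => rw [List.replicate_succ, toP, ih, geom_sum_succ, Nat.cast_one, C_1, add_comm]

theorem atops4_sum {r : ℕ} [Fact r.Prime] {M : Type} [AddCommMonoid M] (g : ZMod r → M) :
    ((List.range r).map fun t : ℕ => g t).sum = ∑ x, g x := by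
  rw [← List.sum_toFinset _ List.nodup_range, List.toFinset_range]
  exact Finset.sum_nbij' (fun t : ℕ => (t : ZMod r)) (fun x => x.val) (fun _ _ => mem_univ _)
    (fun x _ => mem_range.2 (ZMod.val_lt x)) (fun t ht => ZMod.val_cast_of_lt (mem_range.1 ht))
    (fun x _ => ZMod.natCast_zmod_val x) fun _ _ => rfl

theorem atops4_eta {k : Type} [Field k] [CharP k p] {l r : ℕ} [Fact r.Prime] (hl : 2 ≤ l)
    {f : List ℕ} {z : k} (hz : (monicP (fun n : ℕ => (n : k)) f).eval z = 0)
    {χ : MulChar (ZMod r) k}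
    (hχ : ∀ t : ℕ, (toP (fun n : ℕ => (n : k)) (chi p l f r t)).eval z = χ (t : ZMod r)) :
    (toP (fun n : ℕ => (n : k)) (etaOf p l f r)).eval z =
      χ (-1) * (r : k) * ∏ i ∈ Ico 1 (l - 1), jacobiSum χ (χ ^ i) := by
  have H := atops4_khom (p := p) hz
  have hr := (Fact.out : r.Prime).one_le
  rw [etaOf, H.mul, H.mul, H.prod, hχ, toP_singleton, eval_C, Nat.cast_sub hr, ZMod.natCast_self,
    Nat.cast_one, zero_sub, List.map_map]
  congr 1
  have e : Ico 1 (l - 1) = (List.range' 1 (l - 2)).toFinset := by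
    ext i
    simp only [mem_Ico, List.mem_toFinset, List.mem_range'_1]
    omega
  rw [e, List.prod_toFinset _ List.nodup_range']
  refine congrArg List.prod (List.map_congr_left fun i hi => ?_)
  have hi0 : i ≠ 0 := by
    have := List.mem_range'_1.1 hi
    omega
  rw [Function.comp_apply, H.sum, List.map_map, jacobiSum, ← atops4_sum]
  refine congrArg List.sum (List.map_congr_left fun t ht => ?_)
  have ht' : t ≤ r + 1 := by
    have := List.mem_range.1 ht
    omega
  rw [Function.comp_apply, H.mul, H.pow, hχ, hχ, MulChar.pow_apply' _ hi0, Nat.cast_sub ht',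
    Nat.cast_add, ZMod.natCast_self, zero_add, Nat.cast_one]

/-- An irreducible factor `φ` of `1 + X + ⋯ + X^(l-1)`: in `k = AdjoinRoot φ` the root `z` is a primitive
`l`-th root of unity (`l ≠ p`), `l ∣ #k - 1`, and `1 ≤ deg φ ≤ l - 1`, so `z^(deg φ) ≠ 1`. -/
theorem entOK_findEta {l r R : ℕ} (hl : l.Prime) (hlp : l < p) (hr : r.Prime) (hrR : r ≤ R)
    (hr1 : r % l = 1) (hrp : r ≠ p) (hnr : ¬ ∃ x : ZMod r, x ^ l = (p : ZMod r)) {f : List ℕ}
    (hirr : Irreducible (mp p f)) (hdvd : mp p f ∣ mp p (List.replicate (l - 1) 1)) :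
    EntOK p l (f, findEta p l f R) := by
  classical
  have hp : p.Prime := Fact.out
  have : Fact r.Prime := ⟨hr⟩
  have : Fact (Irreducible (mp p f)) := ⟨hirr⟩
  let k := AdjoinRoot (mp p f)
  let z : k := AdjoinRoot.root (mp p f)
  have : CharP k p := charP_of_injective_algebraMap (algebraMap (ZMod p) k).injective p
  let pb := AdjoinRoot.powerBasis hirr.ne_zero
  have : Module.Finite (ZMod p) k := pb.finite
  have : Finite k := Module.finite_of_finite (ZMod p)
  let _ : Fintype k := Fintype.ofFinite k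
  have hdeg : (mp p f).natDegree = f.length := monicP_natDegree f
  have hcard : Fintype.card k = p ^ f.length := by
    rw [Module.card_eq_pow_finrank (K := ZMod p), ZMod.card, pb.finrank,
      AdjoinRoot.powerBasis_dim, hdeg]
  have hmk : ∀ g : (ZMod p)[X], (g.map (algebraMap (ZMod p) k)).eval z = AdjoinRoot.mk _ g :=
    fun g => by rw [eval_map_algebraMap, AdjoinRoot.aeval_eq]
  have hev : ∀ κ : List ℕ, (toP (fun n : ℕ => (n : k)) κ).eval z = AdjoinRoot.mk _ (tp p κ) :=
    fun κ => by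
      rw [← hmk, map_toP]
      simp only [map_natCast]
  have hev' : ∀ κ : List ℕ,
      (monicP (fun n : ℕ => (n : k)) κ).eval z = AdjoinRoot.mk _ (mp p κ) := fun κ => by
    rw [← hmk, map_monicP]
    simp only [map_natCast]
  have hz : (monicP (fun n : ℕ => (n : k)) f).eval z = 0 := by rw [hev', AdjoinRoot.mk_self]
  have hl2 := hl.two_le
  have hgeom : ∑ i ∈ range l, z ^ i = 0 := by
    have h1 := (hev' (List.replicate (l - 1) 1)).trans (AdjoinRoot.mk_eq_zero.2 hdvd)
    rw [monicP, atops4_geom, List.length_replicate, ← Finset.sum_range_succ_comm,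
      Nat.sub_add_cancel hl.one_le, eval_finsetSum] at h1
    simpa using h1
  have hprim : IsPrimitiveRoot z l := by
    have : Fact l.Prime := ⟨hl⟩
    have h1 : z ^ l = 1 := by
      have := geom_sum_mul z l
      rw [hgeom, zero_mul] at this
      exact (sub_eq_zero.1 this.symm)
    have h2 : z ≠ 1 := fun h => by
      rw [h] at hgeom
      simp only [one_pow, sum_const, card_range, nsmul_eq_mul, mul_one] at hgeom
      exact absurd (Nat.le_of_dvd hl.pos ((CharP.cast_eq_zero_iff k p l).1 hgeom)) (not_le.2 hlp)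
    exact orderOf_eq_prime h1 h2 ▸ IsPrimitiveRoot.orderOf _
  have hld : l ∣ p ^ f.length - 1 := by
    rw [← hcard]
    exact hprim.dvd_of_pow_eq_one _
      (FiniteField.pow_card_sub_one_eq_one z (hprim.ne_zero hl.ne_zero))
  have hd0 : f.length ≠ 0 := hdeg ▸ hirr.natDegree_pos.ne'
  have hd1 : f.length < l := by
    have := natDegree_le_of_dvd hdvd (monicP_monic _).ne_zero
    rw [hdeg, monicP_natDegree, List.length_replicate] at this
    omega
  obtain ⟨χ, hχ1, hχ2, hχ3⟩ := exists_char hl hr1 hrp hnr hz hprim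
  have hnon := nonres_of_char hl hrp hcard hld χ hχ1
    (by rw [hχ2]; exact hprim.pow_ne_one_of_pos_of_lt hd0 hd1)
  rw [← atops4_eta hl2 hz hχ3] at hnon
  have H := atops4_khom (p := p) hz
  have hZ : ∀ κ : List ℕ, kisZ p f κ = true ↔ (toP (fun n : ℕ => (n : k)) κ).eval z = 0 :=
    fun κ => by
      rw [hev, AdjoinRoot.mk_eq_zero]
      exact isZq_iff zhom isZ0_iff f κ
  have hiff : ∀ η : List ℕ, (!kisZ p f η && !kisZ p f ((kops p f).sub
      ((kops p f).pow η ((p ^ f.length - 1) / l)) (kops p f).one)) = true ↔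
      (toP (fun n : ℕ => (n : k)) η).eval z ≠ 0 ∧
        (toP (fun n : ℕ => (n : k)) η).eval z ^ ((p ^ f.length - 1) / l) ≠ 1 := fun η => by
    rw [Bool.and_eq_true, Bool.not_eq_true', Bool.not_eq_true', ← Bool.not_eq_true,
      ← Bool.not_eq_true, hZ, hZ, H.sub, H.pow, H.one, sub_eq_zero]
  have hgood : (toP (fun n : ℕ => (n : k)) (findEta p l f R)).eval z ≠ 0 ∧
      (toP (fun n : ℕ => (n : k)) (findEta p l f R)).eval z ^ ((p ^ f.length - 1) / l) ≠ 1 := by
    unfold findEta
    rcases hf : ((List.range (R + 1)).map (etaOf p l f)).find? fun η => !kisZ p f η &&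
      !kisZ p f ((kops p f).sub ((kops p f).pow η ((p ^ f.length - 1) / l)) (kops p f).one) with
      _ | η
    · have := List.find?_eq_none.1 hf (etaOf p l f r)
        (List.mem_map.2 ⟨r, List.mem_range.2 (by omega), rfl⟩)
      exact absurd ((hiff _).2 hnon) this
    · have := List.find?_some hf
      exact (hiff η).1 this
  rw [hev] at hgood
  refine ⟨hirr, hld, fun h => hgood.1 (AdjoinRoot.mk_eq_zero.2 h), fun h => hgood.2 ?_⟩
  have := AdjoinRoot.mk_eq_zero.2 h
  rwa [map_sub, map_pow, map_one, sub_eq_zero] at this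

end Crest.Agent.R312
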