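import Crest.Agent.R312.ATopS3
import Crest.Agent.R312.ATopS4

/-! # Row 312, part A: correctness of the algorithm -/

set_option autoImplicit false
set_option linter.unusedSectionVars false

noncomputable section

open Polynomial Finset

namespace Crest.Agent.R312

variable {p : ℕ} [Fact p.Prime]

/-- Induction on the number of entries already computed: the entry for the prime `l` only uses the
entries for primes `≤ l - 1`. -/
theorem table_spec {C : ℕ} (hC : ∀ l : ℕ, l.Prime → l < p →
      ∃ r : ℕ, r.Prime ∧ r ≤ C * (l + Nat.size p) ^ C ∧ r % l = 1 ∧ r ≠ p ∧
        ¬ ∃ x : ZMod r, x ^ l = (p : ZMod r)) (K : ℕ) :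
    TblOK p (List.range K) (table C p (List.range K)) (K - 1) := by
  have hks : List.range K = List.range (List.range K).length := by simp
  refine ⟨hks, ?_⟩
  by_cases hpK : p ≤ K
  · left; simpa using hpK
  right
  have key : ∀ j, j ≤ K →
      ((List.range j).foldl (fun tbl l => tbl ++
        [entry C p (List.range K) tbl (min l (List.range K).length)]) []).length = j ∧
      ∀ l, l.Prime → l < j → EntOK p l (((List.range j).foldl (fun tbl l => tbl ++
        [entry C p (List.range K) tbl (min l (List.range K).length)]) []).getD l ([], [])) := by
    intro j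
    induction j with
    | zero => intro _; exact ⟨rfl, fun l _ h => absurd h (Nat.not_lt_zero _)⟩
    | succ j ih =>
      intro hj
      obtain ⟨h1, h2⟩ := ih (by omega)
      rw [List.range_succ, List.foldl_append, List.foldl_cons, List.foldl_nil]
      generalize (List.range j).foldl (fun tbl l => tbl ++
        [entry C p (List.range K) tbl (min l (List.range K).length)]) [] = T at h1 h2 ⊢
      refine ⟨by simp [h1], fun l hl hlj => ?_⟩
      rcases Nat.lt_succ_iff_lt_or_eq.mp hlj with h | h
      · rw [List.getD_append _ _ _ _ (by omega)]
        exact h2 l hl h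
      · subst h
        rw [List.getD_append_right _ _ _ _ (by omega), h1, Nat.sub_self, List.getD_cons_zero,
          List.length_range, min_eq_left (by omega)]
        have hl2 := hl.two_le
        obtain ⟨r, hr, hrR, hr1, hrp, hnr⟩ := hC l hl (by omega)
        have hlen : (List.replicate (l - 1) 1).length = l - 1 := List.length_replicate
        obtain ⟨e1, e2⟩ := factorWith_spec (p := p) (ks := List.range K) (tbl := T)
          (g := List.replicate (l - 1) 1)
          ⟨hks, Or.inr fun l' hl' h' => h2 l' hl' (by omega)⟩ (by omega)
        unfold entry
        generalize factorWith p (List.range K) T (List.replicate (l - 1) 1) = L at e1 e2 ⊢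
        cases L with
        | nil =>
          have := congrArg natDegree e1
          rw [monicP_natDegree, hlen] at this
          simp at this
          omega
        | cons a L =>
          rw [List.headD_cons]
          refine entOK_findEta hl (by omega) hr hrR hr1 hrp hnr (e2 a List.mem_cons_self) ?_
          rw [← e1, List.map_cons, List.prod_cons]
          exact Dvd.intro _ rfl
  intro l hl hlK
  have := hl.two_le
  exact (key K le_rfl).2 l hl (by omega)

theorem atops5_ofDigits (k : ℕ) : PolyFactor.ofDigits k.bits = k := by
  induction k using Nat.binaryRec' with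
  | zero => simp [PolyFactor.ofDigits]
  | bit b n h ih =>
    rw [Nat.bits_append_bit n b h, PolyFactor.ofDigits, ih, Nat.bit_val]
    ring

theorem atops5_dec_bits (bs s ds : List Bool) (cur : List ℕ) (done : List (List ℕ)) :
    PolyFactor.decodeAux ((bs.flatMap fun d => [true, d]) ++ s) ds cur done =
      PolyFactor.decodeAux s (ds ++ bs) cur done := by
  induction bs generalizing ds with
  | nil => simp
  | cons b bs ih =>
    rw [List.flatMap_cons, List.append_assoc]
    simp only [List.cons_append, List.nil_append, PolyFactor.decodeAux]
    rw [ih]
    simp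

theorem atops5_dec_nats (l : List ℕ) (s : List Bool) (cur : List ℕ) (done : List (List ℕ)) :
    PolyFactor.decodeAux (l.flatMap PolyFactor.encNat ++ s) [] cur done =
      PolyFactor.decodeAux s [] (cur ++ l) done := by
  induction l generalizing cur with
  | nil => simp
  | cons k l ih =>
    rw [List.flatMap_cons, PolyFactor.encNat, List.append_assoc, List.append_assoc,
      atops5_dec_bits]
    simp only [List.cons_append, List.nil_append, PolyFactor.decodeAux]
    rw [atops5_ofDigits, ih]
    simp

theorem atops5_dec_lists (L done : List (List ℕ)) :
    PolyFactor.decodeAux (L.flatMap PolyFactor.encNatList) [] [] done = done ++ L := by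
  induction L generalizing done with
  | nil => simp [PolyFactor.decodeAux]
  | cons l L ih =>
    rw [List.flatMap_cons, PolyFactor.encNatList, List.append_assoc, atops5_dec_nats]
    simp only [List.cons_append, List.nil_append, PolyFactor.decodeAux]
    rw [ih]
    simp

theorem decodeLists_flatMap (L : List (List ℕ)) :
    PolyFactor.decodeLists (L.flatMap PolyFactor.encNatList) = L := by
  rw [PolyFactor.decodeLists, atops5_dec_lists, List.nil_append]

theorem ofCoeffList_eq (cs : List ℕ) : PolyFactor.ofCoeffList p cs = tp p cs := by
  ext i
  rw [zhom.coeff_toP, PolyFactor.ofCoeffList, finsetSum_coeff]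
  simp only [coeff_monomial]
  rw [Finset.sum_ite_eq' (Finset.range cs.length) i]
  split_ifs with h
  · rfl
  · rw [List.getD_eq_default _ _ (by simpa using h)]
    exact zhom.zero.symm

theorem mainF_spec {C : ℕ} (hC : ∀ l : ℕ, l.Prime → l < p →
      ∃ r : ℕ, r.Prime ∧ r ≤ C * (l + Nat.size p) ^ C ∧ r % l = 1 ∧ r ≠ p ∧
        ¬ ∃ x : ZMod r, x ^ l = (p : ZMod r)) (f : (ZMod p)[X]) (hf : f ≠ 0) :
    (∀ g ∈ PolyFactor.factorOutput p (mainF C (PolyFactor.encodeInst p f)),
        g.Monic ∧ Irreducible g) ∧
      Polynomial.C f.leadingCoeff *
        (PolyFactor.factorOutput p (mainF C (PolyFactor.encodeInst p f))).prod = f := by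
  set cs : List ℕ := (List.range (f.natDegree + 1)).map fun i => (f.coeff i).val with hcs
  have hdec : PolyFactor.decodeLists (PolyFactor.encodeInst p f) = [p :: cs] := by
    have := decodeLists_flatMap [p :: cs]
    rwa [List.flatMap_singleton] at this
  have hlen : cs.length = f.natDegree + 1 := by simp [hcs]
  have htp : tp p cs = f := by
    ext i
    rw [zhom.coeff_toP]
    by_cases hi : i < f.natDegree + 1
    · rw [List.getD_eq_getElem _ _ (by omega)]
      simp [hcs]
    · rw [List.getD_eq_default _ _ (by omega), coeff_eq_zero_of_natDegree_lt (by omega)]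
      exact zhom.zero
  have hout : PolyFactor.factorOutput p (mainF C (PolyFactor.encodeInst p f)) =
      (factorAll C p cs).map (tp p) := by
    rw [PolyFactor.factorOutput, mainF, hdec, decodeLists_flatMap]
    simp only [List.headD_cons, List.tail_cons]
    exact List.map_congr_left fun l _ => ofCoeffList_eq l
  have hm := mon_spec (p := p) (v := cs) (by rwa [htp])
  have hl := length_mon (p := p) cs
  rw [htp] at hm hl
  rw [hout, factorAll]
  split_ifs with h0
  · refine ⟨by simp, ?_⟩
    rw [List.length_eq_zero_iff.mp h0] at hm
    simpa [monicP, toP] using hm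
  · have ht := table_spec hC cs.length
    rw [show cs.length - 1 = (mon p cs).length by omega] at ht
    obtain ⟨e1, e2⟩ := factorWith_spec ht (Nat.pos_of_ne_zero h0)
    have e3 : ((factorWith p (List.range cs.length) (table C p (List.range cs.length))
        (mon p cs)).map fun h => h ++ [1]).map (tp p) =
        (factorWith p (List.range cs.length) (table C p (List.range cs.length))
        (mon p cs)).map (mp p) := by
      rw [List.map_map]
      exact List.map_congr_left fun l _ => tp_append_one l
    rw [e3, e1]
    refine ⟨fun g hg => ?_, hm⟩
    obtain ⟨h, hh, rfl⟩ := List.mem_map.mp hg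
    exact ⟨monicP_monic h, e2 h hh⟩

end Crest.Agent.R312
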