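import Crest.Agent.R312.APT4
import Crest.Agent.R312.ATopS5

/-! # Row 312, part A: the theorem, given the analytic input `NR` -/

set_option autoImplicit false
set_option linter.unusedSectionVars false

namespace Crest.Agent.R312

open Crest.Agent.Lib.PT PolyFactor

variable {ι : Type} [Enc ι]

theorem ofDigits_eq (l : List Bool) : ofDigits l = ofBits l := by
  induction l with
  | nil => rfl
  | cons d l ih => rw [ofDigits, ofBits_cons, ih, Nat.bit_val, add_comm]

/-- One step of the decoder. -/
def decStep (st : List Bool × List Bool × List ℕ × List (List ℕ)) :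
    List Bool × List Bool × List ℕ × List (List ℕ) :=
  if st.1.length < 2 then st
  else if st.1.headD false = true then
    (st.1.tail.tail, st.2.1 ++ [st.1.tail.headD false], st.2.2)
  else if st.1.tail.headD false = true then (st.1.tail.tail, [], [], st.2.2.2 ++ [st.2.2.1])
  else (st.1.tail.tail, [], st.2.2.1 ++ [ofBits st.2.1], st.2.2.2)

theorem decodeAux_eq (n : ℕ) (s ds : List Bool) (cur : List ℕ) (done : List (List ℕ))
    (h : s.length ≤ n) : decodeAux s ds cur done = (decStep^[n] (s, ds, cur, done)).2.2.2 := by
  induction n generalizing s ds cur done with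
  | zero =>
    obtain rfl : s = [] := by simpa using h
    simp [decodeAux]
  | succ n ih =>
    match s, h with
    | [], _ => rw [Function.iterate_fixed (by simp [decStep])]; simp [decodeAux]
    | [b], _ => rw [Function.iterate_fixed (by simp [decStep])]; cases b <;> simp [decodeAux]
    | true :: d :: s, h =>
      rw [decodeAux, ih _ _ _ _ (by simp at h; omega), Function.iterate_succ_apply]
      simp [decStep]
    | false :: false :: s, h =>
      rw [decodeAux, ih _ _ _ _ (by simp at h; omega), Function.iterate_succ_apply]
      simp [decStep, ofDigits_eq]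
    | false :: true :: s, h =>
      rw [decodeAux, ih _ _ _ _ (by simp at h; omega), Function.iterate_succ_apply]
      simp [decStep]

@[fun_prop] theorem pt_decodeLists {s : ι → List Bool} (hs : PT s) :
    PT fun i => decodeLists (s i) := by
  have h1 : PT fun x : ι × List Bool × List Bool × List ℕ × List (List ℕ) => decStep x.2 := by
    unfold decStep
    fun_prop
  refine (PT.iterate_add (f := fun _ => decStep) (n := fun i => (s i).length)
    (ini := fun i => (s i, [], [], [])) (fun _ => 20) h1 (by fun_prop) (by fun_prop) (by fun_prop)
    (by fun_prop) fun _ st => ?_).snd.snd.snd.congr fun i => decodeAux_eq _ _ _ _ _ le_rfl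
  obtain ⟨s, ds, cur, done⟩ := st
  have h2 := (sz_tail_le s.tail).trans (sz_tail_le s)
  have h3 := sz_nat_le_of_lt_two_pow (ofBits_lt ds)
  have h4 := sz_boolList ds
  have h5 := sz_append ds [s.tail.headD false]
  have h6 := sz_append done [cur]
  have h7 := sz_append cur [ofBits ds]
  unfold decStep
  simp only [sz_cons, sz_nil, sz_bool] at h5 h6 h7
  split_ifs <;> simp only [sz_pair, sz_nil] <;> omega

@[fun_prop] theorem pt_encNatList {l : ι → List ℕ} (hl : PT l) :
    PT fun i => encNatList (l i) := by
  unfold encNatList encNat
  fun_prop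

theorem pt_mainF (C : ℕ) : PT (mainF C) := by
  unfold mainF
  fun_prop

theorem main (h : NR) : ∃ F : List Bool → List Bool, Crest.Complexity.PolyTime F ∧
    ∀ (p : ℕ) [Fact p.Prime] (f : Polynomial (ZMod p)), f ≠ 0 →
      (∀ g ∈ factorOutput p (F (encodeInst p f)), g.Monic ∧ Irreducible g) ∧
        Polynomial.C f.leadingCoeff * (factorOutput p (F (encodeInst p f))).prod = f := by
  obtain ⟨C, hC⟩ := h
  exact ⟨mainF C, (pt_mainF C).polyTime, fun p _ f hf =>
    mainF_spec (fun l hl hlp => hC p l Fact.out hl hlp) f hf⟩

end Crest.Agent.R312
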