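import Crest.Agent.R312.AKum

/-! # Row 312, part A: the affine curve `Y^l = F(X)`, `deg F` prime to `l`; weighted degrees -/

set_option autoImplicit false
set_option linter.unusedSectionVars false

noncomputable section

open Polynomial Finset

namespace Crest.Agent.R312

/-- The data of the curve `Y^l = lc ∏_{b ∈ T} (X - b)` over a field containing a primitive
`l`-th root of unity `z`. -/
structure Mdl (k : Type) [Field k] where
  l : ℕ
  hl : l.Prime
  z : k
  hz : IsPrimitiveRoot z l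
  T : Finset k
  lc : k
  hlc : lc ≠ 0
  cop : T.card.Coprime l

namespace Mdl

variable {k : Type} [Field k] (M : Mdl k)

instance : NeZero M.l := ⟨M.hl.ne_zero⟩

/-- The number of finite branch points. -/
def N : ℕ := M.T.card
/-- The monic polynomial with roots `T`. -/
def Fm : k[X] := ∏ b ∈ M.T, (X - C b)
/-- The right hand side of the equation. -/
def F : k[X] := C M.lc * M.Fm
/-- The coordinate ring. -/
abbrev R : Type := Kum M.l M.F
/-- The coordinate `Y`. -/
abbrev Y : M.R := kY M.l M.F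
/-- Polynomials in `X` as elements of the coordinate ring. -/
abbrev ι : k[X] →+* M.R := algebraMap k[X] M.R
/-- Coordinates. -/
abbrev co (j : ℕ) : M.R →ₗ[k[X]] k[X] := R312.co M.l M.F j

theorem Cz_pow : (C M.z : k[X]) ^ M.l = 1 := by rw [← map_pow, M.hz.pow_eq_one, map_one]
theorem Cz_prim : IsPrimitiveRoot (C M.z : k[X]) M.l := M.hz.map_of_injective C_injective

/-- The deck transformation. -/
abbrev σ : M.R →ₐ[k[X]] M.R := sig M.F (C M.z) M.Cz_pow
/-- The norm. -/
abbrev nm (g : M.R) : k[X] := R312.nm M.F (C M.z) M.Cz_pow g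

/-- Elements of weighted degree `≤ W` (`X` has weight `l`, `Y` has weight `N`). -/
def V (W : ℕ) : Submodule k M.R where
  carrier := {g | ∀ j i : ℕ, W < M.l * i + j * M.N → (M.co j g).coeff i = 0}
  add_mem' := by
    intro a b ha hb j i h
    rw [map_add, coeff_add, ha j i h, hb j i h, add_zero]
  zero_mem' := by intro j i _; simp
  smul_mem' := by
    intro c a ha j i h
    rw [LinearMap.map_smul_of_tower, coeff_smul, ha j i h, smul_zero]

theorem mem_V {W : ℕ} {g : M.R} :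
    g ∈ M.V W ↔ ∀ j i : ℕ, W < M.l * i + j * M.N → (M.co j g).coeff i = 0 := Iff.rfl

theorem N_pos : 0 < M.N := by
  refine Nat.pos_of_ne_zero fun h => ?_
  have := M.cop
  rw [show M.T.card = 0 from h, Nat.coprime_zero_left] at this
  exact M.hl.one_lt.ne' this
theorem T_nonempty : M.T.Nonempty := by
  exact Finset.card_pos.1 M.N_pos
theorem l_ne_zero : (M.l : k) ≠ 0 := by
  exact M.hz.neZero'.ne
theorem Fm_monic : M.Fm.Monic := by
  exact monic_prod_of_monic _ _ fun b _ => monic_X_sub_C b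
theorem Fm_natDegree : M.Fm.natDegree = M.N := by
  rw [Fm, natDegree_prod_of_monic _ _ fun b _ => monic_X_sub_C b]
  simp [N]
theorem F_natDegree : M.F.natDegree = M.N := by
  rw [F, natDegree_C_mul M.hlc, Fm_natDegree]
theorem F_ne_zero : M.F ≠ 0 := by
  exact mul_ne_zero (C_ne_zero.2 M.hlc) M.Fm_monic.ne_zero
theorem F_squarefree : Squarefree M.F := by
  have h : Squarefree M.Fm :=
    (separable_prod_X_sub_C_iff'.2 fun _ _ _ _ h => h).squarefree
  exact (associated_isUnit_mul_left_iff (isUnit_C.2 M.hlc.isUnit)).2 (Associated.refl _)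
    |>.squarefree_iff.2 h
theorem F_eval {b : k} (hb : b ∈ M.T) : M.F.eval b = 0 := by
  rw [F, Fm, eval_mul, eval_prod, Finset.prod_eq_zero hb (by simp), mul_zero]
theorem Fm_dvd_iff (p : k[X]) : M.Fm ∣ p ↔ ∀ b ∈ M.T, p.eval b = 0 := by
  constructor
  · intro h b hb
    exact dvd_iff_isRoot.1 ((Finset.dvd_prod_of_mem (fun b => (X - C b : k[X])) hb).trans h)
  · intro h
    exact Finset.prod_dvd_of_coprime
      (fun a _ b _ hab => pairwise_coprime_X_sub_C Function.injective_id hab)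
      fun b hb => dvd_iff_isRoot.2 (h b hb)
theorem smul_eq (c : k) (g : M.R) : c • g = M.ι (C c) * g := by
  rw [← Algebra.smul_def, ← algebraMap_smul k[X] c g]; rfl

theorem amdl_of_natDegree {g : M.R} {D : ℕ} (h : ∀ j < M.l, (M.co j g).natDegree ≤ D) :
    g ∈ M.V (M.l * (D + M.N)) := by
  intro j i hw
  rcases lt_or_ge j M.l with hj | hj
  · refine coeff_eq_zero_of_natDegree_lt (lt_of_le_of_lt (h j hj) ?_)
    have h1 : j * M.N ≤ M.l * M.N := Nat.mul_le_mul_right _ hj.le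
    rw [mul_add] at hw
    exact Nat.lt_of_mul_lt_mul_left (a := M.l) (by omega)
  · rw [co_of_le hj, coeff_zero]

theorem amdl_mem {p : k[X]} {j W : ℕ} (hj : j < M.l) (h : M.l * p.natDegree + j * M.N ≤ W) :
    M.ι p * M.Y ^ j ∈ M.V W := by
  intro j' i hw
  rw [co_C_mul_pow _ hj]
  split_ifs with e
  · subst e
    exact coeff_eq_zero_of_natDegree_lt (Nat.lt_of_mul_lt_mul_left (a := M.l) (by omega))
  · exact coeff_zero _

theorem amdl_mon_mul (i i' : ℕ) {j j' : ℕ} (hj : j < M.l) (hj' : j' < M.l) :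
    ∃ (p : k[X]) (J : ℕ), J < M.l ∧ p ≠ 0 ∧
      M.ι (X ^ i) * M.Y ^ j * (M.ι (X ^ i') * M.Y ^ j') = M.ι p * M.Y ^ J ∧
      M.l * p.natDegree + J * M.N = M.l * i + j * M.N + (M.l * i' + j' * M.N) := by
  rcases lt_or_ge (j + j') M.l with h | h
  · refine ⟨X ^ (i + i'), j + j', h, pow_ne_zero _ X_ne_zero, ?_, ?_⟩
    · rw [pow_add, pow_add, map_mul]; ring
    · rw [natDegree_X_pow]; ring
  · obtain ⟨J, hJ⟩ := Nat.exists_eq_add_of_le h
    refine ⟨X ^ (i + i') * M.F, J, by omega, mul_ne_zero (pow_ne_zero _ X_ne_zero) M.F_ne_zero,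
      ?_, ?_⟩
    · have e : M.Y ^ j * M.Y ^ j' = M.ι M.F * M.Y ^ J := by
        rw [← pow_add, hJ, pow_add, kY_pow]
      rw [mul_mul_mul_comm, e, map_mul, pow_add, map_mul]; ring
    · rw [natDegree_mul (pow_ne_zero _ X_ne_zero) M.F_ne_zero, natDegree_X_pow, F_natDegree]
      have : j * M.N + j' * M.N = M.l * M.N + J * M.N := by rw [← add_mul, hJ, add_mul]
      rw [mul_add, mul_add]
      omega

theorem V_mono {W W' : ℕ} (h : W ≤ W') : M.V W ≤ M.V W' := by
  exact fun _ hg j i hw => hg j i (lt_of_le_of_lt h hw)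
theorem exists_mem_V (g : M.R) : ∃ W, g ∈ M.V W := by
  exact ⟨_, M.amdl_of_natDegree (D := (range M.l).sup fun j => (M.co j g).natDegree) fun j hj =>
    Finset.le_sup (f := fun j => (M.co j g).natDegree) (mem_range.2 hj)⟩
theorem mon_mem_V {i j W : ℕ} (hj : j < M.l) (h : M.l * i + j * M.N ≤ W) :
    M.ι (X ^ i) * M.Y ^ j ∈ M.V W := by
  exact M.amdl_mem hj (by rwa [natDegree_X_pow])
theorem V_eq_span (W : ℕ) : M.V W = Submodule.span k
    {g | ∃ i j, j < M.l ∧ M.l * i + j * M.N ≤ W ∧ g = M.ι (X ^ i) * M.Y ^ j} := by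
  refine le_antisymm (fun g hg => ?_) (Submodule.span_le.2 ?_)
  · rw [← sum_co g]
    refine Submodule.sum_mem _ fun j hj => ?_
    rw [(R312.co M.l M.F j g).as_sum_support_C_mul_X_pow, map_sum, Finset.sum_mul]
    refine Submodule.sum_mem _ fun i hi => ?_
    rw [map_mul, mul_assoc, ← M.smul_eq]
    refine Submodule.smul_mem _ _ (Submodule.subset_span ⟨i, j, mem_range.1 hj, ?_, rfl⟩)
    exact not_lt.1 fun h => mem_support_iff.1 hi (hg j i h)
  · rintro _ ⟨i, j, hj, h, rfl⟩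
    exact M.mon_mem_V hj h
theorem one_mem_V (W : ℕ) : (1 : M.R) ∈ M.V W := by
  simpa using M.mon_mem_V (i := 0) (j := 0) (W := W) M.hl.pos (by simp)
theorem ι_mem_V_iff (p : k[X]) (W : ℕ) : M.ι p ∈ M.V W ↔ M.l * p.natDegree ≤ W := by
  constructor
  · intro h
    rcases eq_or_ne p 0 with rfl | hp
    · simp
    · refine not_lt.1 fun hw => leadingCoeff_ne_zero.2 hp ?_
      have := h 0 p.natDegree (by simpa using hw)
      rwa [co_C, if_pos rfl] at this
  · intro h
    simpa using M.amdl_mem (p := p) (j := 0) (W := W) M.hl.pos (by simpa using h)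
theorem mem_V_of_natDegree {g : M.R} {D : ℕ} (h : ∀ j < M.l, (M.co j g).natDegree ≤ D) :
    g ∈ M.V (M.l * (D + M.N)) := by
  exact M.amdl_of_natDegree h
theorem natDegree_co_le {g : M.R} {W : ℕ} (h : g ∈ M.V W) (j : ℕ) :
    M.l * (M.co j g).natDegree ≤ W := by
  rcases eq_or_ne (M.co j g) 0 with h0 | h0
  · simp [h0]
  · exact not_lt.1 fun hw => leadingCoeff_ne_zero.2 h0 (h j _ (by omega))
theorem mul_mem_V {g h : M.R} {W W' : ℕ} (hg : g ∈ M.V W) (hh : h ∈ M.V W') :
    g * h ∈ M.V (W + W') := by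
  rw [V_eq_span] at hg hh
  have := Submodule.mul_mem_mul hg hh
  rw [Submodule.span_mul_span] at this
  refine Submodule.span_le.2 ?_ this
  rintro _ ⟨_, ⟨i, j, hj, h1, rfl⟩, _, ⟨i', j', hj', h2, rfl⟩, rfl⟩
  obtain ⟨p, J, hJ, -, e, hw⟩ := M.amdl_mon_mul i i' hj hj'
  change _ * _ ∈ M.V _
  rw [e]
  exact M.amdl_mem hJ (by omega)
theorem prod_mem_V {β : Type} (s : Finset β) (g : β → M.R) (W : β → ℕ)
    (h : ∀ i ∈ s, g i ∈ M.V (W i)) : ∏ i ∈ s, g i ∈ M.V (∑ i ∈ s, W i) := by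
  classical
  induction s using Finset.induction_on with
  | empty => simpa using M.one_mem_V 0
  | insert a s ha ih =>
    rw [Finset.prod_insert ha, Finset.sum_insert ha]
    exact M.mul_mem_V (h a (mem_insert_self _ _)) (ih fun i hi => h i (mem_insert_of_mem hi))
theorem σ_pow_mem_V {g : M.R} {W : ℕ} (t : ℕ) (hg : g ∈ M.V W) : (M.σ ^ t) g ∈ M.V W := by
  intro j i h
  rw [co_sig_pow, ← map_pow, coeff_C_mul, hg j i h, mul_zero]
theorem natDegree_nm_le {g : M.R} {W : ℕ} (hg : g ∈ M.V W) : (M.nm g).natDegree ≤ W := by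
  have := M.prod_mem_V (range M.l) (fun t => (M.σ ^ t) g) (fun _ => W) fun t _ => M.σ_pow_mem_V t hg
  rw [← C_nm M.Cz_pow M.Cz_prim, Finset.sum_const, card_range, smul_eq_mul] at this
  exact Nat.le_of_mul_le_mul_left ((M.ι_mem_V_iff _ _).1 this) M.hl.pos
theorem eq_C_of_mem_V_zero {g : M.R} (hg : g ∈ M.V 0) : ∃ c : k, g = M.ι (C c) := by
  refine ⟨(M.co 0 g).coeff 0, ext_co fun j _ => ?_⟩
  rw [co_C]
  ext i
  split_ifs with h
  · subst h
    rcases Nat.eq_zero_or_pos i with rfl | hi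
    · simp
    · rw [hg 0 i (by have := Nat.mul_pos M.hl.pos hi; omega), coeff_C_of_ne_zero hi.ne']
  · exact hg j i (by have := Nat.mul_pos (Nat.pos_of_ne_zero h) M.N_pos; omega)

theorem amdl_wt_inj {i j i' j' : ℕ} (hj : j < M.l) (hj' : j' < M.l)
    (h : M.l * i + j * M.N = M.l * i' + j' * M.N) : i = i' ∧ j = j' := by
  have h1 : j * M.N ≡ j' * M.N [MOD M.l] := by
    have := congrArg (· % M.l) h
    simpa [Nat.ModEq, Nat.mul_add_mod] using this
  have h2 : j = j' := Nat.ModEq.eq_of_lt_of_lt (h1.cancel_right_of_coprime M.cop.symm) hj hj'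
  subst h2
  exact ⟨Nat.eq_of_mul_eq_mul_left M.hl.pos (by omega), rfl⟩

theorem amdl_lead {g : M.R} {W : ℕ} (hg0 : g ≠ 0) (hg : g ∈ M.V W) (hg' : ∀ U, g ∈ M.V U → W ≤ U) :
    ∃ i j, j < M.l ∧ M.l * i + j * M.N = W ∧ (M.co j g).coeff i ≠ 0 := by
  by_contra hc
  push Not at hc
  have h1 : ∀ j i, W ≤ M.l * i + j * M.N → (M.co j g).coeff i = 0 := by
    intro j i hw
    rcases lt_or_ge j M.l with hj | hj
    · rcases hw.lt_or_eq with hw | hw
      exacts [hg j i hw, hc i j hj hw.symm]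
    · rw [co_of_le hj, coeff_zero]
  rcases W with _ | W
  · exact hg0 (ext_co fun j _ => by ext i; rw [h1 j i (Nat.zero_le _)]; simp)
  · have := hg' W fun j i hw => h1 j i hw
    omega

theorem amdl_low {g : M.R} {W i j : ℕ} (hg : g ∈ M.V W) (hj : j < M.l) (hw : M.l * i + j * M.N = W)
    (j' i' : ℕ) (h : W ≤ M.l * i' + j' * M.N) :
    (M.co j' (g - (M.co j g).coeff i • (M.ι (X ^ i) * M.Y ^ j))).coeff i' = 0 := by
  rcases lt_or_ge j' M.l with hj' | hj'
  · rcases h.lt_or_eq with h | h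
    · exact Submodule.sub_mem _ hg (Submodule.smul_mem _ _ (M.mon_mem_V hj hw.le)) j' i' h
    · obtain ⟨rfl, rfl⟩ := M.amdl_wt_inj hj hj' (hw.trans h)
      rw [map_sub, LinearMap.map_smul_of_tower, co_C_mul_pow _ hj, if_pos rfl]
      simp
  · rw [co_of_le hj', coeff_zero]

theorem amdl_low_mul {g h : M.R} {W W' : ℕ}
    (hg : ∀ j i, W ≤ M.l * i + j * M.N → (M.co j g).coeff i = 0) (hh : h ∈ M.V W')
    (j i : ℕ) (hw : W + W' ≤ M.l * i + j * M.N) : (M.co j (g * h)).coeff i = 0 := by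
  rcases W with _ | W
  · have : g = 0 := ext_co fun j _ => by ext i; rw [hg j i (Nat.zero_le _)]; simp
    rw [this]; simp
  · exact M.mul_mem_V (W := W) (fun j i hw => hg j i hw) hh j i (by omega)

/-- **The weighted degree is additive.** If `W`, `W'` are the exact weighted degrees of `g`, `h`
then `g h` has exact degree `W + W'`.  Proof: the weights `l i + j N` (`j < l`) of the monomials are
pairwise distinct (as `N` is prime to `l`), so `g = α X^i Y^j + lower`, `h = β X^i' Y^j' + lower`,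
and the product of the leading monomials is `X^(i+i') Y^(j+j')` or `F X^(i+i') Y^(j+j'-l)`,
whose coefficient of weight `W + W'` is `1` or `lc`; `lower * V ⊆ V (W + W' - 1)`.
(Treat `W = 0`, where `g` is a constant, separately or use `co_mul` directly.) -/
theorem mul_exact {g h : M.R} {W W' : ℕ} (hg0 : g ≠ 0) (hh0 : h ≠ 0)
    (hg : g ∈ M.V W) (hg' : ∀ U, g ∈ M.V U → W ≤ U)
    (hh : h ∈ M.V W') (hh' : ∀ U, h ∈ M.V U → W' ≤ U) :
    g * h ≠ 0 ∧ ∀ U, g * h ∈ M.V U → W + W' ≤ U := by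
  obtain ⟨i, j, hj, hw, hl⟩ := M.amdl_lead hg0 hg hg'
  obtain ⟨i', j', hj', hw', hl'⟩ := M.amdl_lead hh0 hh hh'
  obtain ⟨p, J, hJ, hp, e, hwt⟩ := M.amdl_mon_mul i i' hj hj'
  have hlow := M.amdl_low hg hj hw
  have hlow' := M.amdl_low hh hj' hw'
  set α := (M.co j g).coeff i
  set β := (M.co j' h).coeff i'
  set m := M.ι (X ^ i) * M.Y ^ j
  set m' := M.ι (X ^ i') * M.Y ^ j'
  have hm : α • m ∈ M.V W := Submodule.smul_mem _ _ (M.mon_mem_V hj hw.le)
  have e1 : g * h = (α * β) • (m * m') + ((g - α • m) * h + (h - β • m') * (α • m)) := by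
    simp only [M.smul_eq, map_mul]; ring
  have key : (M.co J (g * h)).coeff p.natDegree ≠ 0 := by
    rw [e1, map_add, map_add, coeff_add, coeff_add, M.amdl_low_mul hlow hh J _ (by omega),
      M.amdl_low_mul hlow' hm J _ (by omega), LinearMap.map_smul_of_tower, coeff_smul, e,
      co_C_mul_pow _ hJ, if_pos rfl, add_zero, add_zero]
    exact mul_ne_zero (mul_ne_zero hl hl') (leadingCoeff_ne_zero.2 hp)
  refine ⟨fun h0 => key (by rw [h0]; simp), fun U hU => not_lt.1 fun hlt => key (hU J _ (by omega))⟩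

instance : Nontrivial M.R := (kum_algebraMap_injective (l := M.l) (F := M.F)).nontrivial

/-- From `mul_exact` with `Nat.find (exists_mem_V _)`. -/
theorem mul_ne_zero' {g h : M.R} (hg0 : g ≠ 0) (hh0 : h ≠ 0) : g * h ≠ 0 := by
  classical
  exact (M.mul_exact hg0 hh0 (Nat.find_spec (M.exists_mem_V g)) (fun _ hU => Nat.find_min' _ hU)
    (Nat.find_spec (M.exists_mem_V h)) fun _ hU => Nat.find_min' _ hU).1

instance : NoZeroDivisors M.R :=
  ⟨fun {a b} h => by
    by_contra hn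
    push_neg at hn
    exact M.mul_ne_zero' hn.1 hn.2 h⟩

instance : IsDomain M.R := NoZeroDivisors.to_isDomain _

theorem mem_V_of_mul_mem {s t : M.R} {W : ℕ} (hs : s ≠ 0) (h : s * t ∈ M.V W) : t ∈ M.V W := by
  classical
  rcases eq_or_ne t 0 with rfl | ht
  · exact Submodule.zero_mem _
  · have := (M.mul_exact hs ht (Nat.find_spec (M.exists_mem_V s)) (fun _ hU => Nat.find_min' _ hU)
      (Nat.find_spec (M.exists_mem_V t)) fun _ hU => Nat.find_min' _ hU).2 W h
    exact M.V_mono (le_trans (Nat.le_add_left _ _) this) (Nat.find_spec (M.exists_mem_V t))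
theorem eq_C_of_isUnit {u : M.R} (hu : IsUnit u) : ∃ c : k, c ≠ 0 ∧ u = M.ι (C c) := by
  obtain ⟨v, hv⟩ := hu.exists_left_inv
  have hv0 : v ≠ 0 := left_ne_zero_of_mul_eq_one hv
  obtain ⟨c, hc⟩ := M.eq_C_of_mem_V_zero (M.mem_V_of_mul_mem hv0 (hv ▸ M.one_mem_V 0))
  exact ⟨c, fun h => hu.ne_zero (by rw [hc, h]; simp), hc⟩
theorem nm_ne_zero {g : M.R} (hg : g ≠ 0) : M.nm g ≠ 0 := by
  intro h
  have := C_nm M.Cz_pow M.Cz_prim g
  rw [show R312.nm M.F (C M.z) M.Cz_pow g = 0 from h, map_zero, eq_comm,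
    Finset.prod_eq_zero_iff] at this
  obtain ⟨t, -, ht⟩ := this
  exact hg ((sig_pow_bijective M.Cz_pow t).1 (by rw [ht, map_zero]))
theorem Y_ne_zero : M.Y ≠ 0 := by
  intro h
  have := kY_pow (l := M.l) (F := M.F)
  rw [show kY M.l M.F = 0 from h, zero_pow M.hl.ne_zero, eq_comm,
    map_eq_zero_iff _ kum_algebraMap_injective] at this
  exact M.F_ne_zero this
theorem ι_ne_zero {p : k[X]} (hp : p ≠ 0) : M.ι p ≠ 0 := by
  exact (map_ne_zero_iff _ kum_algebraMap_injective).2 hp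

end Mdl

end Crest.Agent.R312
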