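import Mathlib

/-! # Row 312, part A: branch-free algebra on representations

`Ops α` is a set of ring operations on a type of representations, `O.Hom φ` says that `φ` interprets
them in a commutative ring.  All the routines below are straight-line (no zero tests), hence they are
correct simultaneously for all interpretations `φ` in a field with `q` elements. -/

set_option autoImplicit false
set_option linter.unusedSectionVars false

open Polynomial

namespace Crest.Agent.R312

/-- Ring operations on representations. -/
structure Ops (α : Type) where
  zero : α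
  one : α
  add : α → α → α
  mul : α → α → α
  neg : α → α

/-- Module operations on representations. -/
structure MOps (α β : Type) where
  zero : β
  add : β → β → β
  smul : α → β → β

variable {α β γ ι : Type}

/-- `φ` interprets the operations. -/
structure Ops.Hom (O : Ops α) {B : Type} [CommRing B] (φ : α → B) : Prop where
  zero : φ O.zero = 0
  one : φ O.one = 1
  add : ∀ x y, φ (O.add x y) = φ x + φ y
  mul : ∀ x y, φ (O.mul x y) = φ x * φ y
  neg : ∀ x, φ (O.neg x) = -φ x

/-- `ψ` interprets the module operations. -/
structure MOps.Hom (V : MOps α β) {B M : Type} [CommRing B] [AddCommGroup M] [Module B M]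
    (φ : α → B) (ψ : β → M) : Prop where
  zero : ψ V.zero = 0
  add : ∀ x y, ψ (V.add x y) = ψ x + ψ y
  smul : ∀ c x, ψ (V.smul c x) = φ c • ψ x

namespace Ops

variable (O : Ops α)

/-- The operations of a ring. -/
def ofRing (B : Type) [CommRing B] : Ops B := ⟨0, 1, (· + ·), (· * ·), Neg.neg⟩
def sub (x y : α) : α := O.add x (O.neg y)
/-- Binary powering. -/
def pow (x : α) (n : ℕ) : α :=
  n.bits.foldr (fun b acc => bif b then O.mul (O.mul acc acc) x else O.mul acc acc) O.one
def sum (l : List α) : α := l.foldr O.add O.zero
def prod (l : List α) : α := l.foldr O.mul O.one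
/-- The indicator of `x ≠ 0`. -/
def ind (q : ℕ) (x : α) : α := O.pow x (q - 1)
/-- The inverse (`0 ↦ 0`). -/
def pinv (q : ℕ) (x : α) : α := O.pow x (2 * q - 3)
/-- The indicator of "some member of the list is nonzero". -/
def anyNZ (q : ℕ) (l : List α) : α :=
  O.sub O.one (O.prod (l.map fun x => O.sub O.one (O.ind q x)))
/-- Evaluation of a polynomial. -/
def horner (l : List α) (x : α) : α := l.foldr (fun c acc => O.add c (O.mul x acc)) O.zero
/-- The ring as a module. -/
def self : MOps α α := ⟨O.zero, O.add, O.mul⟩

end Ops

namespace MOps

variable (V : MOps α β) (W : MOps α γ)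

/-- Addition of lists, padded by zero. -/
def ladd (l m : List β) : List β :=
  (List.range (max l.length m.length)).map fun i => V.add (l.getD i V.zero) (m.getD i V.zero)
/-- Lists of vectors. -/
def list : MOps α (List β) := ⟨[], V.ladd, fun c l => l.map (V.smul c)⟩
/-- Pairs of vectors. -/
def prod : MOps α (β × γ) :=
  ⟨(V.zero, W.zero), fun x y => (V.add x.1 y.1, W.add x.2 y.2),
    fun c x => (V.smul c x.1, W.smul c x.2)⟩
def sum (l : List β) : β := l.foldr V.add V.zero

end MOps

/-- The polynomial with the given coefficient list. -/
noncomputable def toP {B : Type} [CommRing B] (φ : α → B) : List α → B[X]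
  | [] => 0
  | a :: l => C (φ a) + X * toP φ l

/-- The monic polynomial with the given list of lower coefficients. -/
noncomputable def monicP {B : Type} [CommRing B] (φ : α → B) (f : List α) : B[X] :=
  X ^ f.length + toP φ f

/-- A list of vectors as a function on `ℕ`. -/
def lfun {M : Type} (V : MOps α β) (ψ : β → M) (l : List β) : ℕ → M := fun i => ψ (l.getD i V.zero)

namespace Ops

variable (O : Ops α)

def padd (l m : List α) : List α := O.self.ladd l m
def pmul (l m : List α) : List α :=
  l.foldr (fun a acc => O.padd (m.map (O.mul a)) (O.zero :: acc)) []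
/-- Polynomials. -/
def poly : Ops (List α) := ⟨[], [O.one], O.padd, O.pmul, List.map O.neg⟩
/-- Remainder modulo the monic polynomial with lower coefficients `f`. -/
def prem (f l : List α) : List α :=
  l.foldr (fun c acc => (List.range f.length).map fun i =>
    O.sub ((c :: acc).getD i O.zero)
      (O.mul ((c :: acc).getD f.length O.zero) (f.getD i O.zero))) []
/-- Polynomials modulo the monic polynomial with lower coefficients `f`. -/
def quot (f : List α) : Ops (List α) :=
  ⟨[], O.prem f [O.one], fun x y => O.prem f (O.padd x y), fun x y => O.prem f (O.pmul x y),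
    fun x => O.prem f (x.map O.neg)⟩

/-- The first row on which `f` does not vanish, normalised to `f = 1` (zero if there is none). -/
def pick (V : MOps α β) (q : ℕ) (f : β → α) (rows : List β) : β :=
  rows.foldl (fun p r => V.add p (V.smul (O.mul (O.sub O.one (f p)) (O.pinv q (f r))) r)) V.zero
/-- One step of Gaussian elimination. -/
def cut (V : MOps α β) (q : ℕ) (f : β → α) (rows : List β) : List β :=
  rows.map fun r => V.add r (V.smul (O.neg (f r)) (O.pick V q f rows))
/-- Gaussian elimination: the pivots and the remaining rows. -/
def elim (V : MOps α β) (q : ℕ) (fn : ι → β → α) (idx : List ι) (rows : List β) :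
    List β × List β :=
  idx.foldl (fun st i => (O.pick V q (fn i) st.2 :: st.1, O.cut V q (fn i) st.2)) ([], rows)
/-- Kernel: the first components of the combinations of the rows whose second component is killed
by all the functionals. -/
def kerP (V : MOps α β) (W : MOps α γ) (q : ℕ) (fn : ι → γ → α) (idx : List ι)
    (rows : List (β × γ)) : List β :=
  (O.elim (V.prod W) q (fun i r => fn i r.2) idx rows).2.map Prod.fst
/-- The first nonzero member of the list; `nz` is the indicator of the nonzero vectors. -/
def firstNZ (V : MOps α β) (nz : β → α) (l : List β) : β :=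
  l.foldl (fun p r => V.add p (V.smul (O.sub O.one (nz p)) r)) V.zero

/-- One correction step of the root extraction. -/
def rootStep (q l : ℕ) (η x z : α) (i : ℕ) : α :=
  if l ^ (i + 1) ∣ q - 1 then
    O.firstNZ O.self (O.ind q) ((List.range l).map fun j =>
      O.mul (O.mul z (O.pow η (j * l ^ (i - 1))))
        (O.sub O.one (O.ind q (O.sub (O.pow (O.mul x (O.pow (O.mul z (O.pow η (j * l ^ (i - 1)))) l))
          ((q - 1) / l ^ (i + 1))) O.one))))
  else z
/-- The prime-to-`l` part of `q - 1`. -/
def coPart (q l : ℕ) : ℕ :=
  (List.range (Nat.size q)).foldl (fun t _ => if l ∣ t then t / l else t) (q - 1)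
/-- An inverse of `l` modulo `t`. -/
def invExp (l t : ℕ) : ℕ :=
  (1 + t * ((List.range l).find? fun c => decide (l ∣ 1 + t * c)).getD 0) / l
/-- An `l`-th root of the nonzero `l`-th power `x`, given a non-`l`-th power `η`. -/
def root (q l : ℕ) (η x : α) : α :=
  let z := (List.range' 1 (Nat.size q)).foldl (O.rootStep q l η x) O.one
  O.mul (O.pow (O.mul x (O.pow z l)) (invExp l (coPart q l))) (O.pinv q z)

end Ops

/-- Integers modulo `p`. -/
def zops (p : ℕ) : Ops ℕ :=
  ⟨0, 1 % max p 1, fun x y => (x + y) % max p 1, fun x y => (x * y) % max p 1,
    fun x => (max p 1 - x % max p 1) % max p 1⟩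

/-- The maximal length of the members of a list. -/
def mlen (l : List (List β)) : ℕ := (l.map List.length).foldr max 0

/-- The span of the interpretations of the members of a list. -/
def lspan (B : Type) [CommRing B] {M : Type} [AddCommGroup M] [Module B M] (ψ : β → M)
    (l : List β) : Submodule B M := Submodule.span B {x | ∃ r ∈ l, ψ r = x}

end Crest.Agent.R312
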