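import Crest.Agent.R312.AOps

/-! # Row 312, part A: correctness of the ring level routines -/

set_option autoImplicit false
set_option linter.unusedSectionVars false

open Polynomial

namespace Crest.Agent.R312

variable {α β γ ι : Type} {B : Type} [CommRing B] {O : Ops α} {φ : α → B}

theorem Ops.ofRing_hom : (Ops.ofRing B).Hom (fun x : B => x) := ⟨rfl, rfl, fun _ _ => rfl,
  fun _ _ => rfl, fun _ => rfl⟩

theorem Ops.Hom.comp (h : O.Hom φ) {B' : Type} [CommRing B'] (χ : B →+* B') :
    O.Hom (fun x => χ (φ x)) := by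
  exact ⟨by simp [h.zero], by simp [h.one], fun x y => by simp [h.add], fun x y => by simp [h.mul],
    fun x => by simp [h.neg]⟩

theorem zops_hom (p : ℕ) (hp : 0 < p) (hB : (p : B) = 0) :
    (zops p).Hom (fun n : ℕ => (n : B)) := by
  have hm : max p 1 = p := max_eq_left hp
  have key : ∀ n : ℕ, ((n % p : ℕ) : B) = n := fun n => by
    conv_rhs => rw [← Nat.mod_add_div n p]
    push_cast
    rw [hB, zero_mul, add_zero]
  refine ⟨Nat.cast_zero, ?_, fun x y => ?_, fun x y => ?_, fun x => ?_⟩ <;>
    simp only [zops, hm, key]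
  · exact Nat.cast_one
  · exact Nat.cast_add _ _
  · exact Nat.cast_mul _ _
  · rw [Nat.cast_sub (Nat.mod_lt _ hp).le, hB, key, zero_sub]

namespace Ops.Hom

theorem sub (h : O.Hom φ) (x y : α) : φ (O.sub x y) = φ x - φ y := by
  rw [Ops.sub, h.add, h.neg, sub_eq_add_neg]
theorem pow (h : O.Hom φ) (x : α) (n : ℕ) : φ (O.pow x n) = φ x ^ n := by
  induction n using Nat.binaryRec' with
  | zero => simpa [Ops.pow] using h.one
  | bit b n hn ih =>
    rw [Ops.pow, Nat.bits_append_bit _ _ hn, List.foldr_cons]
    rw [Ops.pow] at ih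
    cases b
    · simp only [cond_false, h.mul, ih, Nat.bit_false, two_mul, pow_add]
    · simp only [cond_true, h.mul, ih, Nat.bit_true, two_mul, pow_add, pow_one]
theorem sum (h : O.Hom φ) (l : List α) : φ (O.sum l) = (l.map φ).sum := by
  induction l with
  | nil => exact h.zero
  | cons a l ih => rw [List.map_cons, List.sum_cons, ← ih]; exact h.add _ _
theorem prod (h : O.Hom φ) (l : List α) : φ (O.prod l) = (l.map φ).prod := by
  induction l with
  | nil => exact h.one
  | cons a l ih => rw [List.map_cons, List.prod_cons, ← ih]; exact h.mul _ _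
theorem horner (h : O.Hom φ) (l : List α) (x : α) :
    φ (O.horner l x) = (toP φ l).eval (φ x) := by
  induction l with
  | nil => simpa [toP, Ops.horner] using h.zero
  | cons a l ih =>
    rw [toP, eval_add, eval_C, eval_mul, eval_X, ← ih, ← h.mul]
    exact h.add _ _
theorem self (h : O.Hom φ) : O.self.Hom φ φ := by
  exact ⟨h.zero, h.add, h.mul⟩

end Ops.Hom

section Mod

variable {M M' : Type} [AddCommGroup M] [Module B M] [AddCommGroup M'] [Module B M']
  {V : MOps α β} {W : MOps α γ} {ψ : β → M} {ψ' : γ → M'}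

theorem aopss_getD_map (f : β → γ) (l : List β) (i : ℕ) (d : β) :
    (l.map f).getD i (f d) = f (l.getD i d) := by
  simp only [List.getD_eq_getElem?_getD, List.getElem?_map]
  cases l[i]? <;> rfl

theorem aopss_getD_range (f : ℕ → β) (n i : ℕ) (d : β) :
    ((List.range n).map f).getD i d = if i < n then f i else d := by
  split_ifs with h
  · simp [List.getD_eq_getElem?_getD, h]
  · rw [List.getD_eq_default _ _ (by simpa using h)]

theorem MOps.Hom.list (h : V.Hom φ ψ) : V.list.Hom φ (lfun V ψ) := by
  refine ⟨funext fun i => by simpa [lfun, MOps.list] using h.zero, fun x y => funext fun i => ?_,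
    fun c x => funext fun i => ?_⟩
  · simp only [lfun, MOps.list, MOps.ladd, aopss_getD_range, Pi.add_apply]
    split_ifs with hi
    · exact h.add _ _
    · rw [List.getD_eq_default _ _ ((le_max_left _ _).trans (not_lt.1 hi)),
        List.getD_eq_default _ _ ((le_max_right _ _).trans (not_lt.1 hi)), h.zero, add_zero]
  · simp only [lfun, MOps.list, Pi.smul_apply]
    rcases lt_or_ge i x.length with hi | hi
    · rw [← h.smul, List.getD_eq_getElem _ _ (by simpa using hi), List.getD_eq_getElem _ _ hi,
        List.getElem_map]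
    · rw [List.getD_eq_default _ _ (by simpa using hi), List.getD_eq_default _ _ hi, h.zero,
        smul_zero]
theorem MOps.Hom.prod (h : V.Hom φ ψ) (h' : W.Hom φ ψ') :
    (V.prod W).Hom φ (fun x => (ψ x.1, ψ' x.2)) := by
  exact ⟨Prod.ext h.zero h'.zero, fun x y => Prod.ext (h.add _ _) (h'.add _ _),
    fun c x => Prod.ext (h.smul _ _) (h'.smul _ _)⟩
theorem MOps.Hom.sum (h : V.Hom φ ψ) (l : List β) : ψ (V.sum l) = (l.map ψ).sum := by
  induction l with
  | nil => exact h.zero
  | cons a l ih => rw [List.map_cons, List.sum_cons, ← ih]; exact h.add _ _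
theorem MOps.Hom.comp (h : V.Hom φ ψ) (T : M →ₗ[B] M') : V.Hom φ (fun x => T (ψ x)) := by
  exact ⟨by simp [h.zero], fun x y => by simp [h.add], fun c x => by simp [h.smul]⟩
theorem lfun_of_le (h : V.Hom φ ψ) {l : List β} {i : ℕ} (hi : l.length ≤ i) : lfun V ψ l i = 0 := by
  rw [lfun, List.getD_eq_default _ _ hi, h.zero]
theorem mem_lspan {l : List β} {r : β} (hr : r ∈ l) : ψ r ∈ lspan B ψ l := by
  exact Submodule.subset_span ⟨r, hr, rfl⟩
theorem lspan_le {l : List β} {S : Submodule B M} : lspan B ψ l ≤ S ↔ ∀ r ∈ l, ψ r ∈ S := by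
  refine ⟨fun h r hr => h (mem_lspan hr), fun h => Submodule.span_le.2 ?_⟩
  rintro _ ⟨r, hr, rfl⟩
  exact h r hr
theorem lspan_map (T : M →ₗ[B] M') (l : List β) (f : β → γ) (h : ∀ r ∈ l, ψ' (f r) = T (ψ r)) :
    lspan B ψ' (l.map f) = (lspan B ψ l).map T := by
  rw [lspan, lspan, Submodule.map_span]
  congr 1
  ext x
  constructor
  · rintro ⟨_, hr, rfl⟩
    obtain ⟨r, hr', rfl⟩ := List.mem_map.1 hr
    exact ⟨_, ⟨r, hr', rfl⟩, (h r hr').symm⟩
  · rintro ⟨_, ⟨r, hr, rfl⟩, rfl⟩
    exact ⟨_, List.mem_map_of_mem hr, h r hr⟩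
theorem lspan_eq_bot {l : List β} : lspan B ψ l = ⊥ ↔ ∀ r ∈ l, ψ r = 0 := by
  rw [← le_bot_iff, lspan_le]
  rfl

end Mod

theorem length_le_mlen {l : List (List β)} {x : List β} (hx : x ∈ l) : x.length ≤ mlen l := by
  induction l with
  | nil => simp at hx
  | cons a l ih =>
    rcases List.mem_cons.1 hx with rfl | hx
    · exact le_max_left _ _
    · exact (ih hx).trans (le_max_right _ _)

/-! ### polynomials -/

theorem coeff_toP (l : List α) (i : ℕ) : (toP φ l).coeff i = (l.map φ).getD i 0 := by
  induction l generalizing i with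
  | nil => simp [toP]
  | cons a l ih =>
    cases i with
    | zero => simp [toP]
    | succ i => simp [toP, coeff_X_mul, ih]
theorem Ops.Hom.coeff_toP (h : O.Hom φ) (l : List α) (i : ℕ) :
    (toP φ l).coeff i = φ (l.getD i O.zero) := by
  rw [R312.coeff_toP, ← h.zero, aopss_getD_map]
theorem degree_toP_lt (l : List α) : (toP φ l).degree < l.length := by
  exact (degree_lt_iff_coeff_zero _ _).2 fun i hi => by
    rw [coeff_toP, List.getD_eq_default _ _ (by simpa using hi)]
theorem natDegree_toP_le (l : List α) : (toP φ l).natDegree ≤ l.length := by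
  exact natDegree_le_iff_degree_le.2 (degree_toP_lt l).le
theorem toP_eq_zero_iff (l : List α) : toP φ l = 0 ↔ ∀ x ∈ l, φ x = 0 := by
  induction l with
  | nil => simp [toP]
  | cons a l ih =>
    rw [List.forall_mem_cons, ← ih, toP]
    refine ⟨fun h => ⟨by simpa using congrArg (coeff · 0) h, ext fun i => ?_⟩, fun h => by
      simp [h.1, h.2]⟩
    simpa [coeff_X_mul] using congrArg (coeff · (i + 1)) h
theorem toP_append (l m : List α) : toP φ (l ++ m) = toP φ l + X ^ l.length * toP φ m := by
  induction l with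
  | nil => simp [toP]
  | cons a l ih => rw [List.cons_append, toP, toP, ih, List.length_cons]; ring
theorem toP_singleton (a : α) : toP φ [a] = C (φ a) := by
  simp [toP]
theorem toP_map {α' : Type} (f : α' → α) (l : List α') :
    toP φ (l.map f) = toP (fun x => φ (f x)) l := by
  induction l with
  | nil => rfl
  | cons a l ih => rw [List.map_cons, toP, toP, ih]
theorem map_toP {B' : Type} [CommRing B'] (χ : B →+* B') (l : List α) :
    (toP φ l).map χ = toP (fun x => χ (φ x)) l := by
  induction l with
  | nil => simp [toP]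
  | cons a l ih => simp [toP, ih]
theorem map_monicP {B' : Type} [CommRing B'] (χ : B →+* B') (l : List α) :
    (monicP φ l).map χ = monicP (fun x => χ (φ x)) l := by
  simp [monicP, map_toP]
theorem Ops.Hom.toP_monomial (h : O.Hom φ) (i : ℕ) :
    toP φ (List.replicate i O.zero ++ [O.one]) = X ^ i := by
  rw [toP_append, toP_singleton, h.one, (toP_eq_zero_iff _).2 fun x hx => by
    rw [List.eq_of_mem_replicate hx, h.zero]]
  simp
theorem Ops.Hom.toP_append_one (h : O.Hom φ) (l : List α) : toP φ (l ++ [O.one]) = monicP φ l := by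
  rw [toP_append, toP_singleton, h.one, monicP, C_1, mul_one, add_comm]
theorem monicP_monic (f : List α) : (monicP φ f).Monic := by
  exact monic_X_pow_add (degree_toP_lt f)
theorem monicP_natDegree [Nontrivial B] (f : List α) : (monicP φ f).natDegree = f.length := by
  rw [monicP, natDegree_add_eq_left_of_degree_lt (by rw [degree_X_pow]; exact degree_toP_lt f),
    natDegree_X_pow]
theorem aopss_mod {m r a : B[X]} (hm : m.Monic) (hd : r.degree < m.degree) (h : m ∣ r - a) :
    r = a %ₘ m := by
  obtain ⟨q, hq⟩ := h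
  exact (div_modByMonic_unique (-q) r hm ⟨by linear_combination hq, hd⟩).2.symm

theorem aopss_dvd (m a : B[X]) : m ∣ a %ₘ m - a := by
  rw [modByMonic_eq_sub_mul_div]
  exact ⟨-(a /ₘ m), by ring⟩

theorem aopss_deg [Nontrivial B] {f l : List α} (h : l.length ≤ f.length) :
    (toP φ l).degree < (monicP φ f).degree := by
  rw [degree_eq_natDegree (monicP_monic f).ne_zero, monicP_natDegree]
  exact (degree_toP_lt l).trans_le (by exact_mod_cast h)

theorem Ops.Hom.polyM (h : O.Hom φ) : O.self.list.Hom φ (toP φ) := by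
  refine ⟨rfl, fun x y => ext fun i => ?_, fun c x => ext fun i => ?_⟩
  · rw [coeff_add, h.coeff_toP, h.coeff_toP, h.coeff_toP]
    exact congrFun (h.self.list.add x y) i
  · rw [coeff_smul, h.coeff_toP, h.coeff_toP]
    exact congrFun (h.self.list.smul c x) i
theorem Ops.Hom.poly (h : O.Hom φ) : O.poly.Hom (toP φ) := by
  refine ⟨rfl, by simp [Ops.poly, toP, h.one], h.polyM.add, fun x y => ?_, fun x => ?_⟩
  · induction x with
    | nil => simp [Ops.poly, Ops.pmul, toP]
    | cons a x ih =>
      have h1 := h.polyM.add (y.map (O.mul a)) (O.zero :: O.pmul x y)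
      have h2 : toP φ (y.map (O.mul a)) = φ a • toP φ y := h.polyM.smul a y
      have h3 : toP φ (O.pmul x y) = toP φ x * toP φ y := ih
      refine h1.trans ?_
      rw [h2, toP, toP, h3, h.zero, C_0, smul_eq_C_mul]
      ring
  · induction x with
    | nil => simp [Ops.poly, toP]
    | cons a x ih =>
      have h3 : toP φ (x.map O.neg) = -toP φ x := ih
      change toP φ (O.neg a :: x.map O.neg) = _
      rw [toP, toP, h3, h.neg, C_neg]
      ring
theorem Ops.Hom.toP_map_mul (h : O.Hom φ) (c : α) (l : List α) :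
    toP φ (l.map (O.mul c)) = C (φ c) * toP φ l := by
  rw [← smul_eq_C_mul]
  exact h.polyM.smul c l
theorem Ops.length_prem_le (O : Ops α) (f l : List α) : (O.prem f l).length ≤ f.length := by
  cases l with
  | nil => exact Nat.zero_le _
  | cons a l => simp [Ops.prem]
theorem Ops.Hom.prem (h : O.Hom φ) (f l : List α) :
    toP φ (O.prem f l) = toP φ l %ₘ monicP φ f := by
  rcases subsingleton_or_nontrivial B with hB | hB
  · exact Subsingleton.elim _ _
  refine aopss_mod (monicP_monic f) (aopss_deg (O.length_prem_le f l)) ?_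
  induction l with
  | nil => simp [Ops.prem]
  | cons c l ih =>
    have hl := O.length_prem_le f l
    have key : toP φ (O.prem f (c :: l)) = toP φ (c :: O.prem f l) -
        C (φ ((c :: O.prem f l).getD f.length O.zero)) * monicP φ f := by
      ext i
      rw [coeff_sub, coeff_C_mul, monicP, coeff_add, coeff_X_pow, h.coeff_toP, h.coeff_toP,
        h.coeff_toP]
      change φ (((List.range f.length).map fun i => O.sub ((c :: O.prem f l).getD i O.zero)
        (O.mul ((c :: O.prem f l).getD f.length O.zero) (f.getD i O.zero))).getD i O.zero) = _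
      rw [aopss_getD_range]
      rcases lt_trichotomy i f.length with hi | rfl | hi
      · rw [if_pos hi, if_neg hi.ne, h.sub, h.mul, zero_add]
      · rw [if_neg (lt_irrefl _), if_pos rfl, List.getD_eq_default f _ le_rfl, h.zero]
        ring
      · rw [if_neg hi.not_gt, if_neg hi.ne', List.getD_eq_default f _ hi.le,
          List.getD_eq_default (c :: O.prem f l) (n := i) _ (by simp; omega), h.zero]
        ring
    obtain ⟨q, hq⟩ := ih
    rw [key, toP, toP]
    exact ⟨X * q - C (φ ((c :: O.prem f l).getD f.length O.zero)), by linear_combination X * hq⟩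
theorem Ops.Hom.quot (h : O.Hom φ) (f : List α) {B' : Type} [CommRing B'] (χ : B[X] →+* B')
    (hχ : χ (monicP φ f) = 0) : (O.quot f).Hom (fun l => χ (toP φ l)) := by
  have key : ∀ l, χ (toP φ (O.prem f l)) = χ (toP φ l) := fun l => by
    rw [h.prem, modByMonic_eq_sub_mul_div, map_sub, map_mul, hχ, zero_mul, sub_zero]
  have hp := h.poly.comp χ
  exact ⟨hp.zero, (key _).trans hp.one, fun x y => (key _).trans (hp.add x y),
    fun x y => (key _).trans (hp.mul x y), fun x => (key _).trans (hp.neg x)⟩
theorem Ops.Hom.quot_eval (h : O.Hom φ) (f : List α) {b : B} (hb : (monicP φ f).eval b = 0) :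
    (O.quot f).Hom (fun l => (toP φ l).eval b) :=
  h.quot f (evalRingHom b) hb
theorem Ops.length_quot_pow_le (O : Ops α) (f x : List α) (n : ℕ) :
    ((O.quot f).pow x n).length ≤ f.length := by
  unfold Ops.pow
  cases n.bits with
  | nil => exact O.length_prem_le _ _
  | cons b l => cases b <;> exact O.length_prem_le _ _
theorem Ops.Hom.toP_quot_mul (h : O.Hom φ) (f x y : List α) :
    toP φ ((O.quot f).mul x y) = (toP φ x * toP φ y) %ₘ monicP φ f := by
  exact (h.prem f _).trans (congrArg (· %ₘ monicP φ f) (h.poly.mul x y))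
theorem Ops.Hom.toP_quot_pow (h : O.Hom φ) (f x : List α) (n : ℕ) :
    toP φ ((O.quot f).pow x n) = (toP φ x ^ n) %ₘ monicP φ f := by
  rcases subsingleton_or_nontrivial B with hB | hB
  · exact Subsingleton.elim _ _
  refine aopss_mod (monicP_monic f) (aopss_deg (O.length_quot_pow_le f x n)) ?_
  have := (h.quot f (AdjoinRoot.mk (monicP φ f)) AdjoinRoot.mk_self).pow x n
  rwa [← map_pow, AdjoinRoot.mk_eq_mk] at this

end Crest.Agent.R312
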