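import Crest.Agent.R312.APPAux1

/-! # Row 312, part A: the global group `Pic / ⟨fibre⟩`, comparing the affine models -/

set_option autoImplicit false
set_option linter.unusedSectionVars false

noncomputable section

open Polynomial Finset

namespace Crest.Agent.R312

/-- A class map on the nonzero ideals of a model, with values in a group with an action of `σ`. -/
structure Sem {k : Type} [Field k] (M : Mdl k) {P : Type} [AddCommGroup P] (s : AddMonoid.End P)
    (cl : Ideal M.R → P) : Prop where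
  mul : ∀ I J, I ≠ ⊥ → J ≠ ⊥ → cl (I * J) = cl I + cl J
  eqv : ∀ I J, I ≠ ⊥ → M.Eqv I J → cl I = cl J
  cj : ∀ I, I ≠ ⊥ → cl (M.cj 1 I) = s (cl I)
  tors : ∀ w : k → ZMod M.l, ∑ b ∈ M.T, (w b).val • cl (M.P b) = 0 →
    ∀ b ∈ M.T, ∀ b' ∈ M.T, w b = w b'

/-- The curve `y^l = ∏_{b ∈ S} (x - b)` with `l ∣ #S`. -/
structure Glb (k : Type) [Field k] where
  l : ℕ
  hl : l.Prime
  z : k
  hz : IsPrimitiveRoot z l
  S : Finset k
  hdvd : l ∣ S.card
  hne : S.Nonempty

namespace Glb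

variable {k : Type} [Field k] (G : Glb k)

open Classical in
theorem card_image (a : k) (ha : a ∈ G.S) :
    ((G.S.erase a).image fun b => (b - a)⁻¹).card = G.S.card - 1 := by
  rw [card_image_of_injective _ fun b b' h => sub_left_injective (inv_injective h),
    card_erase_of_mem ha]

open Classical in
/-- The model with the branch point `a` at infinity: `X = 1/(x-a)`, `Y = y/(x-a)^(n/l)`,
`Y^l = ∏_{b ≠ a} (1 + (a-b) X)`. -/
def mdl (a : k) (ha : a ∈ G.S) : Mdl k where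
  l := G.l
  hl := G.hl
  z := G.z
  hz := G.hz
  T := (G.S.erase a).image fun b => (b - a)⁻¹
  lc := ∏ b ∈ G.S.erase a, (a - b)
  hlc := prod_ne_zero_iff.2 fun b hb => sub_ne_zero.2 (ne_of_mem_erase hb).symm
  cop := by
    rw [G.card_image a ha]
    obtain ⟨m, hm⟩ := G.hdvd
    have h1 : 0 < G.S.card := G.hne.card_pos
    refine ((Nat.Prime.coprime_iff_not_dvd G.hl).2 fun h => ?_).symm
    have h2 : G.l ∣ G.S.card - (G.S.card - 1) := Nat.dvd_sub G.hdvd h
    rw [show G.S.card - (G.S.card - 1) = 1 by omega] at h2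
    exact G.hl.one_lt.ne' (Nat.dvd_one.1 h2)

open Classical in
theorem mdl_F (a : k) (ha : a ∈ G.S) :
    (G.mdl a ha).F = ∏ b ∈ G.S.erase a, (1 + C (a - b) * X) := by
  change C (∏ b ∈ G.S.erase a, (a - b)) *
    ∏ c ∈ (G.S.erase a).image fun b => (b - a)⁻¹, (X - C c) = _
  rw [prod_image fun b _ b' _ h => sub_left_injective (inv_injective h), map_prod,
    ← prod_mul_distrib]
  refine prod_congr rfl fun b hb => ?_
  have : (a - b) * (b - a)⁻¹ = -1 := by
    rw [← neg_sub, neg_mul, mul_inv_cancel₀ (sub_ne_zero.2 (ne_of_mem_erase hb))]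
  rw [mul_sub, ← C_mul, this, C_neg, C_1]
  ring

theorem mdl_F_eval_zero (a : k) (ha : a ∈ G.S) : (G.mdl a ha).F.eval 0 = 1 := by
  simp [mdl_F, eval_prod]

theorem mdl_N (a : k) (ha : a ∈ G.S) : (G.mdl a ha).N = G.S.card - 1 := G.card_image a ha

instance app_neZero : NeZero G.l := ⟨G.hl.ne_zero⟩

/-- `x - b`. -/
def appD (b : k) : RatFunc k := algebraMap k[X] (RatFunc k) (X - C b)
/-- The right hand side of the equation of the curve. -/
def appF : RatFunc k := ∏ b ∈ G.S, appD b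
/-- The function field. -/
abbrev appL : Type := Kum G.l G.appF
theorem app_zprim : IsPrimitiveRoot (algebraMap k (RatFunc k) G.z) G.l :=
  G.hz.map_of_injective (algebraMap k (RatFunc k)).injective
/-- The deck transformation of the function field. -/
abbrev appσ : G.appL →ₐ[RatFunc k] G.appL := sig G.appF _ G.app_zprim.pow_eq_one
/-- The norm. -/
abbrev appN (g : G.appL) : RatFunc k := nm G.appF _ G.app_zprim.pow_eq_one g
/-- Rational functions in the function field. -/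
abbrev appI : RatFunc k →+* G.appL := algebraMap (RatFunc k) G.appL
/-- `y / (x - a) ^ (n / l)`. -/
def appY (a : k) : G.appL := G.appI ((appD a)⁻¹ ^ (G.S.card / G.l)) * kY G.l G.appF

theorem appD_ne (b : k) : appD b ≠ 0 :=
  (map_ne_zero_iff _ (IsFractionRing.injective k[X] (RatFunc k))).2 (X_sub_C_ne_zero b)

theorem appD_eq (a b : k) : appD b = appD a + algebraMap k (RatFunc k) (a - b) := by
  rw [appD, appD, IsScalarTower.algebraMap_apply k k[X], ← map_add, Polynomial.algebraMap_apply]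
  congr 1
  simp

theorem app_u (a b : k) :
    aeval (appD a)⁻¹ (1 + C (a - b) * X : k[X]) = (appD a)⁻¹ * appD b := by
  rw [appD_eq a b, mul_add, inv_mul_cancel₀ (appD_ne a)]
  simp [mul_comm]

theorem app_transc (a : k) : Transcendental k (appD a)⁻¹ := by
  intro h
  have h1 := (IsAlgebraic.inv_iff.1 h).isIntegral.add (isIntegral_algebraMap (x := a - 0))
  rw [← appD_eq a 0, appD, C_0, sub_zero] at h1
  exact RatFunc.transcendental_X h1.isAlgebraic

theorem app_eq (a : k) (ha : a ∈ G.S) :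
    ((appD a)⁻¹ ^ (G.S.card / G.l)) ^ (G.mdl a ha).l * G.appF =
      aeval (appD a)⁻¹ (G.mdl a ha).F := by
  classical
  change _ ^ G.l * _ = _
  rw [mdl_F, map_prod, prod_congr rfl fun b _ => app_u a b, ← pow_mul,
    Nat.div_mul_cancel G.hdvd, appF, ← prod_const, ← prod_mul_distrib, ← mul_prod_erase _ _ ha,
    inv_mul_cancel₀ (appD_ne a), one_mul]

/-- The embedding of the model `a`. -/
def appJa (a : k) (ha : a ∈ G.S) : (G.mdl a ha).R →+* G.appL := appJ (G.mdl a ha) (G.app_eq a ha)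

section
variable {G} {a : k} (ha : a ∈ G.S)

theorem appJa_ι (p : k[X]) :
    G.appJa a ha ((G.mdl a ha).ι p) = G.appI (aeval (appD a)⁻¹ p) := appJ_ι _ _ p
theorem appJa_Y : G.appJa a ha (G.mdl a ha).Y = G.appY a := appJ_Y _ _
theorem appJa_σ (g : (G.mdl a ha).R) :
    G.appJa a ha ((G.mdl a ha).σ g) = G.appσ (G.appJa a ha g) := appJ_σ _ _ g
theorem appJa_nm (g : (G.mdl a ha).R) :
    G.appN (G.appJa a ha g) = aeval (appD a)⁻¹ ((G.mdl a ha).nm g) := appJ_nm _ _ g
theorem appJa_isUnit {g : (G.mdl a ha).R} (hg : g ≠ 0) : IsUnit (G.appJa a ha g) :=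
  appJ_isUnit _ _ (app_transc a) hg
theorem appJa_injective : Function.Injective (G.appJa a ha) :=
  appJ_injective _ _ (app_transc a)

theorem appY_eq (a b : k) :
    G.appY b = G.appY a * G.appI ((appD b)⁻¹ * appD a) ^ (G.S.card / G.l) := by
  rw [appY, appY, mul_right_comm, ← map_pow, ← map_mul, ← mul_pow, mul_left_comm,
    inv_mul_cancel₀ (appD_ne a), mul_one]

include ha in
theorem appY_pow : G.appY a ^ G.l = G.appI (aeval (appD a)⁻¹ (G.mdl a ha).F) := by
  rw [← appJa_Y ha, ← map_pow, ← appJa_ι ha]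
  exact congrArg _ (kY_pow (l := (G.mdl a ha).l))

theorem appσ_Y (a : k) :
    G.appσ (G.appY a) = G.appI (algebraMap k (RatFunc k) G.z) * G.appY a := by
  rw [appY, map_mul, AlgHom.commutes, sig_Y]
  ring

/-- The functions regular away from the branch points. -/
def appE : Subring G.appL where
  carrier := {e | ∃ (j : ℕ) (g : (G.mdl a ha).R), e * G.appY a ^ j = G.appJa a ha g}
  one_mem' := ⟨0, 1, by simp⟩
  zero_mem' := ⟨0, 0, by simp⟩
  mul_mem' := by
    rintro e e' ⟨j, g, h⟩ ⟨j', g', h'⟩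
    exact ⟨j + j', g * g', by rw [map_mul, ← h, ← h']; ring⟩
  add_mem' := by
    rintro e e' ⟨j, g, h⟩ ⟨j', g', h'⟩
    exact ⟨j + j', g * (G.mdl a ha).Y ^ j' + g' * (G.mdl a ha).Y ^ j, by
      simp only [map_add, map_mul, map_pow, appJa_Y, ← h, ← h']; ring⟩
  neg_mem' := by
    rintro e ⟨j, g, h⟩
    exact ⟨j, -g, by rw [map_neg, ← h]; ring⟩

theorem appE_J (g : (G.mdl a ha).R) : G.appJa a ha g ∈ appE ha := ⟨0, g, by simp⟩

theorem appE_poly (p : k[X]) : G.appI (aeval (appD a)⁻¹ p) ∈ appE ha :=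
  appJa_ι ha p ▸ appE_J ha _

theorem appE_σ (e : G.appL) (he : e ∈ appE ha) : G.appσ.toRingHom e ∈ appE ha := by
  obtain ⟨j, g, h⟩ := he
  have hz : algebraMap k (RatFunc k) G.z ≠ 0 := G.app_zprim.ne_zero G.hl.ne_zero
  refine ⟨j, (G.mdl a ha).ι (C G.z⁻¹) ^ j * (G.mdl a ha).σ g, ?_⟩
  rw [map_mul, map_pow, appJa_ι, appJa_σ, ← h, map_mul, map_pow, appσ_Y, mul_left_comm, ← mul_pow,
    ← mul_assoc, ← map_mul, aeval_C, map_inv₀, inv_mul_cancel₀ hz, map_one, one_mul]
  rfl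

theorem appE_u {b : k} (hb : b ∈ G.S) : G.appI ((appD b)⁻¹ * appD a) ∈ appE ha := by
  classical
  by_cases hba : b = a
  · rw [hba, inv_mul_cancel₀ (appD_ne a), map_one]
    exact one_mem _
  refine ⟨G.l, (G.mdl a ha).ι (∏ c ∈ (G.S.erase a).erase b, (1 + C (a - c) * X)), ?_⟩
  rw [appY_pow ha, appJa_ι, ← map_mul, mdl_F, ← mul_prod_erase _ _ (mem_erase.2 ⟨hba, hb⟩),
    map_mul (aeval _), app_u, ← mul_assoc]
  congr 1
  have := appD_ne a
  have := appD_ne b
  field_simp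

theorem appE_x {b : k} (hb : b ∈ G.S) : G.appI (appD b)⁻¹ ∈ appE ha := by
  have := mul_mem (appE_u ha hb) (appE_poly ha X)
  rwa [← map_mul, aeval_X, mul_inv_cancel_right₀ (appD_ne a)] at this

theorem appE_poly' {b : k} (hb : b ∈ G.S) (p : k[X]) : G.appI (aeval (appD b)⁻¹ p) ∈ appE ha := by
  induction p using Polynomial.induction_on' with
  | add p q hp hq => rw [map_add, map_add]; exact add_mem hp hq
  | monomial n c =>
    rw [aeval_monomial, map_mul, map_pow]
    exact mul_mem (by simpa using appE_poly ha (C c)) (pow_mem (appE_x ha hb) _)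

theorem appE_Y {b : k} (hb : b ∈ G.S) : G.appY b ∈ appE ha := by
  rw [appY_eq a b]
  exact mul_mem (appJa_Y ha ▸ appE_J ha _) (pow_mem (appE_u ha hb) _)

theorem appE_J' {b : k} (hb : b ∈ G.S) (g : (G.mdl b hb).R) : G.appJa b hb g ∈ appE ha := by
  rw [← sum_co g, map_sum]
  refine sum_mem fun j _ => ?_
  rw [map_mul, map_pow, appJa_ι, appJa_Y]
  exact mul_mem (appE_poly' ha hb _) (pow_mem (appE_Y ha hb) _)

/-- The embedding of the model `b` into `E`. -/
def appJE {b : k} (hb : b ∈ G.S) : (G.mdl b hb).R →+* appE ha :=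
  (G.appJa b hb).codRestrict _ (appE_J' ha hb)

theorem appJE_isUnit_Y {b : k} (hb : b ∈ G.S) : IsUnit (appJE ha hb (G.mdl b hb).Y) := by
  obtain ⟨v, hv⟩ := (appJa_isUnit ha (G.mdl a ha).Y_ne_zero).exists_left_inv
  rw [appJa_Y] at hv
  have hvE : v ∈ appE ha := ⟨1, 1, by simpa using hv⟩
  refine IsUnit.of_mul_eq_one (⟨v, hvE⟩ * ⟨_, appE_poly ha (1 + C (a - b) * X)⟩ ^ (G.S.card / G.l))
    (Subtype.ext ?_)
  change G.appJa b hb _ * (v * G.appI _ ^ _) = 1
  rw [appJa_Y, app_u, mul_left_comm, ← appY_eq, hv]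

theorem appJE_U {b : k} (hb : b ∈ G.S) {I : Ideal (G.mdl b hb).R} (hI : I ≠ ⊥) :
    AppU (appE ha) (I.map (appJE ha hb)) := by
  obtain ⟨s, hs, hs0⟩ := I.ne_bot_iff.1 hI
  obtain ⟨J, hJ⟩ := (G.mdl b hb).exists_mul_eq_span hs
  exact ⟨J.map (appJE ha hb), appJE ha hb s, appJa_isUnit hb hs0, by
    rw [← Ideal.map_mul, hJ, Ideal.map_span, Set.image_singleton]⟩

theorem appJE_Q_le {b c : k} (hb : b ∈ G.S) (hc : c ∈ G.S) :
    (G.mdl c hc).Q.map (appJE ha hc) ≤ (G.mdl b hb).Q.map (appJE ha hb) := by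
  set I := (G.mdl b hb).Q.map (appJE ha hb)
  have h1 : appJE ha hb ((G.mdl b hb).ι X) ∈ I :=
    Ideal.mem_map_of_mem _ (Ideal.subset_span (by simp))
  have h2 : appJE ha hb ((G.mdl b hb).Y - 1) ∈ I :=
    Ideal.mem_map_of_mem _ (Ideal.subset_span (by simp))
  set u := appJE ha hc ((G.mdl c hc).ι (1 + C (c - b) * X)) with hu
  have hu' : (u : G.appL) = G.appI ((appD c)⁻¹ * appD b) := by rw [← app_u]; exact appJa_ι hc _
  have h3 : appJE ha hc ((G.mdl c hc).ι X) ∈ I := by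
    convert I.mul_mem_left u h1 using 1
    refine Subtype.ext ?_
    change G.appJa c hc _ = u * G.appJa b hb _
    rw [hu', appJa_ι, appJa_ι, aeval_X, aeval_X, ← map_mul, mul_inv_cancel_right₀ (appD_ne b)]
  have h4 : u - 1 ∈ I := by
    rw [hu, map_add, map_add, map_one, map_one, add_sub_cancel_left, map_mul, map_mul]
    exact I.mul_mem_left _ h3
  have h5 : appJE ha hc (G.mdl c hc).Y = appJE ha hb (G.mdl b hb).Y * u ^ (G.S.card / G.l) := by
    refine Subtype.ext ?_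
    change G.appJa c hc _ = G.appJa b hb _ * (u : G.appL) ^ _
    rw [hu', appJa_Y, appJa_Y, ← appY_eq]
  rw [Mdl.Q, Ideal.map_span, Ideal.span_le]
  rintro _ ⟨_, rfl | rfl, rfl⟩
  · exact h3
  · have h6 := Ideal.mem_of_dvd I (sub_one_dvd_pow_sub_one u (G.S.card / G.l)) h4
    rw [map_sub, map_one] at h2 ⊢
    rw [h5, SetLike.mem_coe]
    convert I.add_mem (I.mul_mem_right (u ^ (G.S.card / G.l)) h2) h6 using 1
    ring

theorem appJE_cj {b : k} (hb : b ∈ G.S) (I : Ideal (G.mdl b hb).R) :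
    ((G.mdl b hb).cj 1 I).map (appJE ha hb) =
      (I.map (appJE ha hb)).map (appS (appE ha) G.appσ.toRingHom (appE_σ ha)) := by
  have e : (appJE ha hb).comp (G.mdl b hb).σ.toRingHom =
      (appS (appE ha) G.appσ.toRingHom (appE_σ ha)).comp (appJE ha hb) :=
    RingHom.ext fun g => Subtype.ext (appJa_σ hb g)
  rw [Ideal.map_map, ← e, ← Ideal.map_map, Mdl.cj, pow_one]
  rfl

end

open Classical in
/-- The orders of vanishing at the branch points, modulo `l`. -/
def appO (r : RatFunc k) : k → ZMod G.l := fun b => if b ∈ G.S then (appOrd b r : ZMod G.l) else 0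

theorem appO_mul {r s : RatFunc k} (hr : r ≠ 0) (hs : s ≠ 0) :
    G.appO (r * s) = G.appO r + G.appO s := by
  funext b
  simp only [appO, Pi.add_apply, appOrd_mul b hr hs]
  split_ifs <;> simp

theorem appO_C (c : k) : G.appO (algebraMap k (RatFunc k) c) = 0 := by
  funext b
  simp [appO, appOrd_C, -RatFunc.algebraMap_eq_C]

theorem appO_pow {r : RatFunc k} (hr : r ≠ 0) (n : ℕ) : G.appO (r ^ n) = n • G.appO r := by
  funext b
  simp only [appO, Pi.smul_apply, appOrd_pow b hr]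
  split_ifs <;> simp

theorem appO_pow_l {r : RatFunc k} (hr : r ≠ 0) : G.appO (r ^ G.l) = 0 := by
  rw [G.appO_pow hr]
  funext b
  simp

open Classical in
theorem appO_D {b : k} (hb : b ∈ G.S) : G.appO (appD b) = Pi.single b 1 := by
  funext c
  simp only [appO, appD, appOrd_poly, rootMultiplicity_X_sub_C, Pi.single_apply]
  split_ifs with h1 h2 h3
  · simp
  · simp
  · exact absurd (h3 ▸ hb) h1
  · rfl

open Classical in
theorem appO_D_inv {b : k} (hb : b ∈ G.S) : G.appO (appD b)⁻¹ = -Pi.single b 1 := by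
  have := G.appO_mul (appD_ne b) (inv_ne_zero (appD_ne b))
  rw [mul_inv_cancel₀ (appD_ne b), ← map_one (algebraMap k (RatFunc k)), appO_C, G.appO_D hb] at this
  exact eq_neg_of_add_eq_zero_right this.symm

theorem appF_ne : G.appF ≠ 0 := prod_ne_zero_iff.2 fun b _ => appD_ne b

theorem appO_F {b : k} (hb : b ∈ G.S) : G.appO G.appF b = 1 := by
  classical
  have : ∀ s ⊆ G.S, G.appO (∏ c ∈ s, appD c) = ∑ c ∈ s, Pi.single c 1 := by
    intro s hs
    induction s using Finset.induction_on with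
    | empty => simpa using G.appO_C 1
    | insert c s hc ih =>
      rw [prod_insert hc, sum_insert hc,
        G.appO_mul (appD_ne c) (prod_ne_zero_iff.2 fun b _ => appD_ne b),
        ih ((subset_insert _ _).trans hs), G.appO_D (hs (mem_insert_self _ _))]
  rw [appF, this _ Subset.rfl]
  simp [Finset.sum_apply, Pi.single_apply, hb]

theorem appN_ne {h : G.appL} (hh : IsUnit h) : G.appN h ≠ 0 := by
  obtain ⟨h', e⟩ := hh.exists_right_inv
  have := nm_mul G.app_zprim.pow_eq_one G.app_zprim h h'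
  rw [e, nm_one _ G.app_zprim] at this
  exact left_ne_zero_of_mul_eq_one this.symm

theorem appON_mul {h h' : G.appL} (hh : IsUnit h) (hh' : IsUnit h') :
    G.appO (G.appN (h * h')) = G.appO (G.appN h) + G.appO (G.appN h') := by
  rw [← G.appO_mul (G.appN_ne hh) (G.appN_ne hh')]
  exact congrArg _ (nm_mul _ G.app_zprim h h')

theorem appON_Y (a : k) (j : ℕ) {b : k} (hb : b ∈ G.S) :
    G.appO (G.appN (G.appY a ^ j)) b = j := by
  have h1 : (appD a)⁻¹ ^ (G.S.card / G.l) ≠ 0 := pow_ne_zero _ (inv_ne_zero (appD_ne a))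
  have hz : G.z ≠ 0 := G.hz.ne_zero G.hl.ne_zero
  have h2 : algebraMap k (RatFunc k) (G.z ^ ∑ t ∈ range G.l, t) ≠ 0 :=
    (_root_.map_ne_zero _).2 (pow_ne_zero _ hz)
  rw [appN, nm_pow _ G.app_zprim, appY, nm_mul _ G.app_zprim, nm_C _ G.app_zprim,
    nm_Y _ G.app_zprim, ← map_pow,
    G.appO_pow (mul_ne_zero (pow_ne_zero _ h1) (mul_ne_zero h2 G.appF_ne)),
    G.appO_mul (pow_ne_zero _ h1) (mul_ne_zero h2 G.appF_ne), G.appO_pow_l h1,
    G.appO_mul h2 G.appF_ne, appO_C]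
  simp [G.appO_F hb]

/-- The units of `E` have the same order at all branch points. -/
theorem app_unit {a : k} (ha : a ∈ G.S) (h : G.appLˣ) (h1 : (h : G.appL) ∈ appE ha)
    (h2 : ((h⁻¹ : G.appLˣ) : G.appL) ∈ appE ha) :
    ∃ c : ZMod G.l, ∀ b ∈ G.S, G.appO (G.appN h) b = c := by
  let M := G.mdl a ha
  obtain ⟨j, g, e⟩ : ∃ (j : ℕ) (g : M.R), h * G.appY a ^ j = G.appJa a ha g := h1
  obtain ⟨j', g', e'⟩ : ∃ (j : ℕ) (g : M.R), (h⁻¹ : G.appLˣ) * G.appY a ^ j = G.appJa a ha g := h2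
  have hY : IsUnit (G.appY a) := appJa_Y ha ▸ appJa_isUnit ha M.Y_ne_zero
  have e2 : g * g' = M.Y ^ (j + j') := appJa_injective ha (by
    rw [map_mul, ← e, ← e', map_pow, appJa_Y, mul_mul_mul_comm, Units.mul_inv, one_mul, pow_add])
  have hg : g ≠ 0 := left_ne_zero_of_mul (e2 ▸ pow_ne_zero _ M.Y_ne_zero)
  have e3 := M.cj_of_Y_pow_mem 1 (Ideal.mem_span_singleton.2 ⟨g', e2.symm⟩)
  rw [M.cj_span_singleton, pow_one, Ideal.span_singleton_eq_span_singleton] at e3
  obtain ⟨u, hu⟩ := e3.symm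
  obtain ⟨c, -, hc⟩ := M.eq_C_of_isUnit u.isUnit
  obtain ⟨m, -, hm⟩ := eq_C_mul_pow_of_sig M.Cz_pow M.Cz_prim hg (c := C c)
    (by rw [← hc, mul_comm]; exact hu.symm)
  set p := co M.l M.F m g
  have hp : p ≠ 0 := fun h0 => hg (by rw [hm, h0, map_zero, zero_mul])
  have hp' : aeval (appD a)⁻¹ p ≠ 0 := fun h0 => hp (transcendental_iff.1 (app_transc a) _ h0)
  rw [hm, map_mul, map_pow, appJa_ι, appJa_Y] at e
  refine ⟨m - j, fun b hb => ?_⟩
  have e4 := congrFun (congrArg (fun x => G.appO (G.appN x)) e) b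
  simp only [G.appON_mul h.isUnit (hY.pow _), G.appON_mul (hp'.isUnit.map _) (hY.pow _),
    Pi.add_apply, G.appON_Y a _ hb] at e4
  rw [show G.appN (G.appI _) = _ from nm_C _ G.app_zprim _, G.appO_pow_l hp', Pi.zero_apply,
    zero_add] at e4
  exact eq_sub_of_add_eq e4

open Classical in
/-- **The global group.**  Construction: `K = RatFunc k`, `f = ∏_{b ∈ S} (x - b)`, `L = Kum l f`
over `K`, `σ_L = sig`, `x_b = (x - b)⁻¹`, `y_b = y · x_b^(n/l)`;
`j_a : R_a → L` the `k`-algebra map `X ↦ x_a`, `Y ↦ y_a` (`AdjoinRoot.lift`; it commutes with `σ`,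
`j_a (ι (nm g)) = ∏ σ^t (j_a g)`, `aeval x_a` is injective on `k[X]`, so `j_a g` is a unit of `L` for
`g ≠ 0`).  `E` = the `k`-subalgebra of `L` generated by all `x_b`, `y_b`, `y_b⁻¹` (`σ`-stable), as an
idempotent element of the commutative semiring `Submodule k L`.
`o : Lˣ →* Multiplicative (k → ZMod l)`, `o h b = ord_b (nm h)` where `ord_b` is the order of
vanishing at `b` of a nonzero rational function (`RatFunc.liftMonoidWithZeroHom` applied to
`rootMultiplicity b`), set to `0` for `b ∉ S`.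
On the commutative monoid `Submodule k L × Multiplicative (k → ZMod l)` take the congruence
`(I, w) ~ (J, w') ↔ ∃ h : Lˣ, E * I = E * span {h} * J ∧ w = o h * w'`; `P` = `Additive` of the
units of the quotient monoid; `σ` acts by `(Submodule.map σ, id)` (`o (σ h) = o h`).
`cl a I` = class of `(map j_a I, ord (ψ_I (x_a)))` (`ψ_I` chosen by `exists_isPsi`, unique up to
constants; it is a unit with inverse the product of the conjugates), `τ w` = class of
`(1, w restricted to S)`, `Qt` = class of `(map j_a Q_a, 1)` which does not depend on `a`: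
`x_a = x_a' (1 + (a'-a) x_a')⁻¹`-type identities show `E (x_a, y_a - 1) = E (x_a', y_a' - 1)`.
`τ w = 0`: `E = E h`, so `h, h⁻¹ ∈ E`; every element of `E` is `j_a g · y_a^(-j)`, so
`h = j_a g · y_a^(-j)` with `g ∣ Y^(j')`; `(g)` is `σ`-stable (`cj_of_Y_pow_mem`), `σ g = c g`
(`eq_C_of_isUnit`), `g = ι(p) Y^m` (`eq_C_mul_pow_of_sig`), and `ord_b (nm h) ≡ m - j` for all `b ∈ S`
since `nm y_a = ± f · x_a^n` has order `≡ 1` at each `b ∈ S`. -/
theorem exists_PP : ∃ (P : Type) (_ : AddCommGroup P) (s : AddMonoid.End P)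
    (τ : (k → ZMod G.l) →+ P) (Qt : P)
    (cl : (a : k) → (ha : a ∈ G.S) → Ideal (G.mdl a ha).R → P),
    (∀ w, s (τ w) = τ w) ∧ (∀ w, τ w = 0 → ∀ b ∈ G.S, ∀ b' ∈ G.S, w b = w b') ∧
    (∀ w w', (∀ b ∈ G.S, w b = w' b) → τ w = τ w') ∧
    ∀ a ha, Sem (G.mdl a ha) s (cl a ha) ∧
      (∀ b ∈ G.S, b ≠ a → cl a ha ((G.mdl a ha).P (b - a)⁻¹) =
        τ (Pi.single b 1) - τ (Pi.single a 1)) ∧
      cl a ha (G.mdl a ha).Q = Qt - τ (Pi.single a 1) := by
  obtain ⟨a0, ha0⟩ := G.hne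
  obtain ⟨P, inst, s, c, c_mul, c_span, c_σ, c_top⟩ := app_group (appE ha0) G.appσ.toRingHom
    (appE_σ ha0) (fun h => G.appO (G.appN h)) (fun h h' => G.appON_mul h.isUnit h'.isUnit)
    fun h => congrArg G.appO (nm_sig _ G.app_zprim _)
  let res : (k → ZMod G.l) → k → ZMod G.l := fun w b => if b ∈ G.S then w b else 0
  have c_top_add : ∀ w w', c ⊤ (w + w') = c ⊤ w + c ⊤ w' := fun w w' => by
    rw [← c_mul _ _ _ _ (appU_top _) (appU_top _), Ideal.top_mul]
  let τ : (k → ZMod G.l) →+ P := AddMonoidHom.mk' (fun w => c ⊤ (res w)) fun w w' => by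
    rw [← c_top_add]
    congr 1
    funext b
    simp only [res, Pi.add_apply]
    split_ifs <;> simp
  have hτ : ∀ r, c ⊤ (G.appO r) = τ (G.appO r) := fun r => by
    refine congrArg (c ⊤) (funext fun b => ?_)
    simp only [res, appO]
    split_ifs <;> rfl
  let cl : (a : k) → (ha : a ∈ G.S) → Ideal (G.mdl a ha).R → P := fun a ha I =>
    c (I.map (appJE ha0 ha))
      (G.appO (aeval (appD a)⁻¹ (Classical.epsilon ((G.mdl a ha).IsPsi I))))
  have hne : ∀ a, ∀ p : k[X], p ≠ 0 → aeval (appD a)⁻¹ p ≠ 0 := fun a p hp h0 =>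
    hp (transcendental_iff.1 (app_transc a) _ h0)
  have hcl : ∀ a ha I ψ, I ≠ ⊥ → (G.mdl a ha).IsPsi I ψ →
      cl a ha I = c (I.map (appJE ha0 ha)) (G.appO (aeval (appD a)⁻¹ ψ)) := by
    intro a ha I ψ hI hψ
    obtain ⟨d, hd, e⟩ := hψ.unique (Classical.epsilon_spec ⟨ψ, hψ⟩)
    simp only [cl]
    rw [e, map_mul, aeval_C, G.appO_mul ((_root_.map_ne_zero _).2 hd) (hne a ψ (hψ.ne_zero hI)), appO_C,
      zero_add]
  have hP : ∀ a ha, ∀ b ∈ G.S, b ≠ a → cl a ha ((G.mdl a ha).P (b - a)⁻¹) =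
      τ (Pi.single b 1) - τ (Pi.single a 1) := by
    intro a ha b hb hba
    have hT : (b - a)⁻¹ ∈ (G.mdl a ha).T := mem_image_of_mem _ (mem_erase.2 ⟨hba, hb⟩)
    have hab : a - b ≠ 0 := sub_ne_zero.2 hba.symm
    have e : (X - C (b - a)⁻¹ : k[X]) = C (a - b)⁻¹ * (1 + C (a - b) * X) := by
      rw [mul_add, ← mul_assoc, ← C_mul, inv_mul_cancel₀ hab, ← neg_sub a b, inv_neg, C_neg, C_1]
      ring
    have e' : ((G.mdl a ha).P (b - a)⁻¹).map (appJE ha0 ha) = ⊤ :=
      Ideal.eq_top_of_isUnit_mem _ (Ideal.mem_map_of_mem _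
        (Ideal.subset_span (Set.mem_insert _ _))) (appJE_isUnit_Y ha0 ha)
    rw [hcl a ha _ _ ((G.mdl a ha).P_ne_bot _) ((G.mdl a ha).isPsi_P hT), e', hτ, e, map_mul, aeval_C, app_u,
      G.appO_mul ((_root_.map_ne_zero _).2 (inv_ne_zero hab))
        (mul_ne_zero (inv_ne_zero (appD_ne a)) (appD_ne b)), appO_C, zero_add,
      G.appO_mul (inv_ne_zero (appD_ne a)) (appD_ne b), G.appO_D hb, G.appO_D_inv ha, ← map_sub,
      neg_add_eq_sub]
  have hτ0 : ∀ w, τ w = 0 → ∀ b ∈ G.S, ∀ b' ∈ G.S, w b = w b' := by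
    intro w hw b hb b' hb'
    obtain ⟨h, h1, h2, e⟩ := c_top _ hw
    obtain ⟨d, hd⟩ := G.app_unit ha0 h h1 h2
    have e1 := congrFun e b
    have e2 := congrFun e b'
    simp only [res, if_pos hb, if_pos hb', hd b hb, hd b' hb'] at e1 e2
    rw [e1, e2]
  have hmul : ∀ a ha I J, I ≠ ⊥ → J ≠ ⊥ → cl a ha (I * J) = cl a ha I + cl a ha J := by
    intro a ha I J hI hJ
    obtain ⟨ψ, hψ⟩ := (G.mdl a ha).exists_isPsi hI
    obtain ⟨χ, hχ⟩ := (G.mdl a ha).exists_isPsi hJ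
    rw [hcl a ha _ _ (mul_ne_zero hI hJ) (hψ.mul hχ), hcl a ha _ _ hI hψ, hcl a ha _ _ hJ hχ,
      Ideal.map_mul, map_mul, G.appO_mul (hne a _ (hψ.ne_zero hI)) (hne a _ (hχ.ne_zero hJ)),
      c_mul _ _ _ _ (appJE_U ha0 ha hI) (appJE_U ha0 ha hJ)]
  have hspan : ∀ a ha g, g ≠ 0 → cl a ha (Ideal.span {g}) = 0 := by
    intro a ha g hg
    rw [hcl a ha _ _ (mt Ideal.span_singleton_eq_bot.1 hg) ((G.mdl a ha).isPsi_span g),
      Ideal.map_span, Set.image_singleton, ← appJa_nm ha]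
    exact c_span _ (appJa_isUnit ha hg).unit rfl
  refine ⟨P, inst, s, τ, c ((G.mdl a0 ha0).Q.map (appJE ha0 ha0)) 0, cl, fun w => ?_, hτ0,
    fun w w' h => ?_, fun a ha => ⟨⟨hmul a ha, fun I J hI hIJ => ?_, fun I hI => ?_,
      fun w hw b hb b' hb' => ?_⟩, hP a ha, ?_⟩⟩
  · change s (c ⊤ _) = c ⊤ _
    rw [c_σ _ _ (appU_top _), Ideal.map_top]
  · refine congrArg (c ⊤) (funext fun b => ?_)
    simp only [res]
    split_ifs with hb
    · exact h b hb
    · rfl
  · have hJ := hIJ.ne_bot hI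
    obtain ⟨g, h, hg, hh, e⟩ := hIJ
    have := congrArg (cl a ha) e
    rwa [hmul a ha _ _ (mt Ideal.span_singleton_eq_bot.1 hg) hI,
      hmul a ha _ _ (mt Ideal.span_singleton_eq_bot.1 hh) hJ, hspan a ha g hg, hspan a ha h hh,
      zero_add, zero_add] at this
  · obtain ⟨ψ, hψ⟩ := (G.mdl a ha).exists_isPsi hI
    rw [hcl a ha _ _ ((G.mdl a ha).cj_ne_bot 1 hI) (hψ.cj 1), hcl a ha _ _ hI hψ,
      c_σ _ _ (appJE_U ha0 ha hI), appJE_cj]
  · let w' : k → ZMod G.l := ∑ b ∈ G.S.erase a,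
      (w (b - a)⁻¹).val • (Pi.single b 1 - Pi.single a 1 : k → ZMod G.l)
    have h1 : τ w' = 0 := by
      rw [← hw, map_sum]
      refine Eq.trans ?_ (sum_image (s := G.S.erase a) (g := fun b => (b - a)⁻¹)
        fun b _ b' _ h => sub_left_injective (inv_injective h)).symm
      refine sum_congr rfl fun b hb => ?_
      rw [hP a ha b (mem_of_mem_erase hb) (ne_of_mem_erase hb), map_nsmul, map_sub]
    have h2 : ∀ b ∈ G.S.erase a, w' b = w (b - a)⁻¹ := by
      intro b hb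
      simp only [w', Finset.sum_apply, Pi.smul_apply, Pi.sub_apply,
        Pi.single_eq_of_ne (ne_of_mem_erase hb), sub_zero]
      rw [sum_eq_single_of_mem b hb fun c _ hc => by rw [Pi.single_eq_of_ne hc.symm, smul_zero],
        Pi.single_eq_same, nsmul_one]
      exact ZMod.natCast_zmod_val _
    obtain ⟨d, hd, rfl⟩ := mem_image.1 hb
    obtain ⟨d', hd', rfl⟩ := mem_image.1 hb'
    rw [← h2 d hd, ← h2 d' hd']
    exact hτ0 _ h1 _ (mem_of_mem_erase hd) _ (mem_of_mem_erase hd')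
  · rw [hcl a ha _ _ (G.mdl a ha).Q_ne_bot ((G.mdl a ha).isPsi_Q (G.mdl_F_eval_zero a ha)),
      le_antisymm (appJE_Q_le ha0 ha0 ha) (appJE_Q_le ha0 ha ha0), aeval_X, sub_eq_add_neg (c _ _),
      ← map_neg, ← G.appO_D_inv ha, ← hτ,
      ← c_mul _ _ _ _ (appJE_U ha0 ha0 (G.mdl a0 ha0).Q_ne_bot) (appU_top _), Ideal.mul_top,
      zero_add]

end Glb

end Crest.Agent.R312
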