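import Crest.Agent.R312.ACard

/-! # Row 312, part A: auxiliary constructions for the global group -/

set_option autoImplicit false
set_option linter.unusedSectionVars false

noncomputable section

open Polynomial Finset

namespace Crest.Agent.R312

section Grp

variable {L W : Type} [CommRing L] [AddCommGroup W] (E : Subring L) (σ : L →+* L)
  (hσ : ∀ e ∈ E, σ e ∈ E)

/-- An ideal of `E` which becomes invertible in `L`. -/
def AppU (I : Ideal E) : Prop := ∃ (J : Ideal E) (e : E), IsUnit (e : L) ∧ I * J = Ideal.span {e}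

/-- The restriction of `σ` to `E`. -/
def appS : E →+* E := (σ.comp E.subtype).codRestrict E fun e => hσ e e.2

/-- `σ` as a semilinear map. -/
def appSL : L →ₛₗ[appS E σ hσ] L where
  toFun := σ
  map_add' := map_add σ
  map_smul' e x := map_mul σ (e : L) x

include hσ in
theorem app_span_image (s : Set L) :
    Submodule.span E (σ '' (Submodule.span E s : Set L)) = Submodule.span E (σ '' s) := by
  refine le_antisymm (Submodule.span_le.2 ?_)
    (Submodule.span_mono (Set.image_mono Submodule.subset_span))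
  rintro _ ⟨x, hx, rfl⟩
  have : Submodule.span E s ≤ (Submodule.span E (σ '' s)).comap (appSL E σ hσ) :=
    Submodule.span_le.2 fun y hy => Submodule.subset_span ⟨y, hy, rfl⟩
  exact this hx

/-- The action of `σ` on the `E`-submodules of `L`. -/
def appT : Submodule E L →* Submodule E L where
  toFun N := Submodule.span E (σ '' N)
  map_one' := by
    rw [Submodule.one_eq_span, app_span_image E σ hσ, Set.image_singleton, map_one]
  map_mul' N N' := by
    rw [Submodule.span_mul_span, ← Set.image_mul]
    conv_lhs => rw [Submodule.mul_eq_span_mul_set, app_span_image E σ hσ]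

/-- Ideals of `E` as submodules of `L`. -/
def appPhi : Ideal E →* Submodule E L :=
  (Submodule.mapHom (Algebra.ofId E L)).toMonoidHom

theorem appPhi_span (s : Set E) :
    appPhi E (Ideal.span s) = Submodule.span E (((↑) : E → L) '' s) :=
  Submodule.map_span _ _

theorem app_span_mul (x y : L) :
    Submodule.span E {x * y} = Submodule.span E {x} * Submodule.span E {y} := by
  rw [Submodule.span_mul_span, Set.singleton_mul_singleton]

theorem app_isUnit_span {h : L} (hh : IsUnit h) : IsUnit (Submodule.span E {h}) := by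
  obtain ⟨h', e⟩ := hh.exists_right_inv
  exact IsUnit.of_mul_eq_one (Submodule.span E {h'})
    (by rw [← app_span_mul, e, Submodule.one_eq_span])

theorem AppU.isUnit {I : Ideal E} (h : AppU E I) : IsUnit (appPhi E I) := by
  obtain ⟨J, e, he, h⟩ := h
  have := app_isUnit_span E he
  rw [← Set.image_singleton, ← appPhi_span, ← h, map_mul] at this
  exact isUnit_of_mul_isUnit_left this

theorem appU_top : AppU E ⊤ := ⟨⊤, 1, isUnit_one, by simp⟩

theorem app_group (o : Lˣ → W) (o_mul : ∀ h h', o (h * h') = o h + o h')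
    (o_σ : ∀ h, o (Units.map σ.toMonoidHom h) = o h) :
    ∃ (P : Type) (_ : AddCommGroup P) (s : AddMonoid.End P) (c : Ideal E → W → P),
      (∀ I J w w', AppU E I → AppU E J → c (I * J) (w + w') = c I w + c J w') ∧
      (∀ (e : E) (h : Lˣ), (h : L) = e → c (Ideal.span {e}) (o h) = 0) ∧
      (∀ I w, AppU E I → s (c I w) = c (I.map (appS E σ hσ)) w) ∧
      (∀ w, c ⊤ w = 0 → ∃ h : Lˣ, (h : L) ∈ E ∧ ((h⁻¹ : Lˣ) : L) ∈ E ∧ w = o h) := by
  classical
  have o1 : o 1 = 0 := by simpa using o_mul 1 1
  let N : AddSubgroup (Additive (Submodule E L)ˣ × W) :=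
    { carrier := {u | ∃ h : Lˣ, (u.1.toMul : Submodule E L) = Submodule.span E {(h : L)} ∧
        u.2 = o h}
      zero_mem' := ⟨1, Submodule.one_eq_span, o1.symm⟩
      add_mem' := by
        rintro u v ⟨h, h1, h2⟩ ⟨h', h1', h2'⟩
        refine ⟨h * h', ?_, by rw [o_mul, ← h2, ← h2']; rfl⟩
        rw [Units.val_mul, app_span_mul, ← h1, ← h1']
        rfl
      neg_mem' := by
        rintro u ⟨h, h1, h2⟩
        refine ⟨h⁻¹, ?_, ?_⟩
        · refine Units.inv_eq_of_mul_eq_one_right ?_
          rw [h1, ← app_span_mul, Units.mul_inv, Submodule.one_eq_span]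
        · have := o_mul h h⁻¹
          rw [mul_inv_cancel, o1, ← h2] at this
          exact (neg_eq_of_add_eq_zero_right this.symm) }
  let sA : Additive (Submodule E L)ˣ × W →+ Additive (Submodule E L)ˣ × W :=
    (MonoidHom.toAdditive (Units.map (appT E σ hσ))).prodMap (AddMonoidHom.id W)
  have hsA : N ≤ N.comap sA := by
    rintro u ⟨h, h1, h2⟩
    refine ⟨Units.map σ.toMonoidHom h, ?_, by rw [o_σ]; exact h2⟩
    change Submodule.span E (σ '' (u.1.toMul : Submodule E L)) = _
    rw [h1, app_span_image E σ hσ, Set.image_singleton]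
    rfl
  let c : Ideal E → W → _ ⧸ N := fun I w =>
    if h : IsUnit (appPhi E I) then QuotientAddGroup.mk (Additive.ofMul h.unit, w) else 0
  have hc : ∀ I w (u : (Submodule E L)ˣ), (u : Submodule E L) = appPhi E I →
      c I w = QuotientAddGroup.mk (Additive.ofMul u, w) := by
    intro I w u hu
    have h : IsUnit (appPhi E I) := ⟨u, hu⟩
    simp only [c, dif_pos h]
    congr 3
    exact Units.ext hu.symm
  refine ⟨_ ⧸ N, inferInstance, QuotientAddGroup.map N N sA hsA, c, fun I J w w' hI hJ => ?_,
    fun e h he => ?_, fun I w hI => ?_, fun w hw => ?_⟩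
  · obtain ⟨u, hu⟩ := hI.isUnit
    obtain ⟨v, hv⟩ := hJ.isUnit
    rw [hc I w u hu, hc J w' v hv, hc _ _ (u * v) (by rw [map_mul, ← hu, ← hv]; rfl)]
    rfl
  · obtain ⟨u, hu⟩ := app_isUnit_span E h.isUnit
    rw [hc _ _ u (by rw [hu, appPhi_span, Set.image_singleton, he]), QuotientAddGroup.eq_zero_iff]
    exact ⟨h, hu, rfl⟩
  · obtain ⟨u, hu⟩ := hI.isUnit
    rw [hc I w u hu, hc _ w (Units.map (appT E σ hσ) u)]
    · rfl
    · change Submodule.span E (σ '' (u : Submodule E L)) = _
      rw [hu, Ideal.map, appPhi_span, Set.image_image]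
      conv_lhs => rw [← Ideal.span_eq I, appPhi_span, app_span_image E σ hσ, Set.image_image]
      rfl
  · rw [hc ⊤ w 1 (by rw [← Ideal.one_eq_top, map_one]; rfl), QuotientAddGroup.eq_zero_iff] at hw
    obtain ⟨h, h1, h2⟩ := hw
    change (1 : Submodule E L) = _ at h1
    refine ⟨h, ?_, ?_, h2⟩
    · have : (h : L) ∈ (1 : Submodule E L) := h1 ▸ Submodule.mem_span_singleton_self _
      obtain ⟨e, he⟩ := Submodule.mem_one.1 this
      exact he ▸ e.2
    · have : (1 : L) ∈ Submodule.span E {(h : L)} :=
        h1 ▸ Submodule.mem_one.2 ⟨1, map_one _⟩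
      obtain ⟨e, he⟩ := Submodule.mem_span_singleton.1 this
      rw [Units.inv_eq_of_mul_eq_one_left (a := (e : L)) he]
      exact e.2

end Grp

section J

variable {k K : Type} [Field k] [Field K] [Algebra k K] (M : Mdl k) {f x c : K}

variable (K) in
theorem app_zK_prim : IsPrimitiveRoot (algebraMap k K M.z) M.l :=
  M.hz.map_of_injective (algebraMap k K).injective

/-- The embedding of an affine model into the function field. -/
def appJ (h : c ^ M.l * f = aeval x M.F) : M.R →+* Kum M.l f :=
  AdjoinRoot.lift ((algebraMap K (Kum M.l f)).comp (aeval x : k[X] →ₐ[k] K).toRingHom)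
    (algebraMap K _ c * kY M.l f) (by
      rw [eval₂_sub, eval₂_pow, eval₂_X, eval₂_C, mul_pow, kY_pow, ← map_pow, ← map_mul, h]
      exact sub_self _)

variable (h : c ^ M.l * f = aeval x M.F)

theorem appJ_ι (p : k[X]) : appJ M h (M.ι p) = algebraMap K _ (aeval x p) :=
  AdjoinRoot.lift_of _

theorem appJ_Y : appJ M h M.Y = algebraMap K _ c * kY M.l f := AdjoinRoot.lift_root _

theorem appJ_σ (g : M.R) :
    appJ M h (M.σ g) = sig f _ (app_zK_prim K M).pow_eq_one (appJ M h g) := by
  rw [← sum_co g]
  simp only [map_sum, map_mul, map_pow, AlgHom.commutes, sig_Y, appJ_ι, appJ_Y, aeval_C]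
  exact sum_congr rfl fun j _ => by ring

theorem appJ_σ_pow (t : ℕ) (g : M.R) :
    appJ M h ((M.σ ^ t) g) = (sig f _ (app_zK_prim K M).pow_eq_one ^ t) (appJ M h g) := by
  induction t with
  | zero => rfl
  | succ t ih => rw [pow_succ', pow_succ', AlgHom.mul_apply, AlgHom.mul_apply, appJ_σ, ih]

theorem appJ_nm (g : M.R) :
    nm f _ (app_zK_prim K M).pow_eq_one (appJ M h g) = aeval x (M.nm g) := by
  apply kum_algebraMap_injective (l := M.l) (F := f)
  rw [C_nm _ (app_zK_prim K M), ← appJ_ι M h, C_nm _ M.Cz_prim, map_prod]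
  exact prod_congr rfl fun t _ => (appJ_σ_pow M h t g).symm

theorem appJ_isUnit (hx : Transcendental k x) {g : M.R} (hg : g ≠ 0) : IsUnit (appJ M h g) := by
  refine isUnit_of_dvd_unit (dvd_C_nm (app_zK_prim K M).pow_eq_one (app_zK_prim K M) _)
    (IsUnit.map _ (Ne.isUnit ?_))
  rw [appJ_nm]
  exact fun e => M.nm_ne_zero hg (transcendental_iff.1 hx _ e)

theorem appJ_injective (hx : Transcendental k x) : Function.Injective (appJ M h) := by
  have := (kum_algebraMap_injective (l := M.l) (F := f)).nontrivial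
  rw [injective_iff_map_eq_zero]
  intro g hg
  by_contra h0
  exact (appJ_isUnit M h hx h0).ne_zero hg

end J

section Ord

variable {k : Type} [Field k]

/-- The order of vanishing of a rational function at `b`. -/
def appOrd (b : k) (r : RatFunc k) : ℤ := rootMultiplicity b r.num - rootMultiplicity b r.denom

theorem appOrd_mul (b : k) {r s : RatFunc k} (hr : r ≠ 0) (hs : s ≠ 0) :
    appOrd b (r * s) = appOrd b r + appOrd b s := by
  have e := congrArg (rootMultiplicity b) (RatFunc.num_denom_mul r s)
  have h1 := RatFunc.num_ne_zero hr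
  have h2 := RatFunc.num_ne_zero hs
  have h3 := RatFunc.num_ne_zero (mul_ne_zero hr hs)
  have h4 := mul_ne_zero r.denom_ne_zero s.denom_ne_zero
  rw [rootMultiplicity_mul (mul_ne_zero h3 h4), rootMultiplicity_mul h4,
    rootMultiplicity_mul (mul_ne_zero (mul_ne_zero h1 h2) (r * s).denom_ne_zero),
    rootMultiplicity_mul (mul_ne_zero h1 h2)] at e
  unfold appOrd
  omega

theorem appOrd_poly (b : k) (p : k[X]) :
    appOrd b (algebraMap k[X] (RatFunc k) p) = rootMultiplicity b p := by
  unfold appOrd
  rw [RatFunc.num_algebraMap, RatFunc.denom_algebraMap, ← C_1, rootMultiplicity_C]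
  simp

theorem appOrd_C (b c : k) : appOrd b (algebraMap k (RatFunc k) c) = 0 := by
  rw [IsScalarTower.algebraMap_apply k k[X], appOrd_poly, Polynomial.algebraMap_apply,
    rootMultiplicity_C]
  rfl

theorem appOrd_one (b : k) : appOrd b 1 = 0 := by simpa using appOrd_C b 1

theorem appOrd_inv (b : k) {r : RatFunc k} (hr : r ≠ 0) : appOrd b r⁻¹ = -appOrd b r := by
  have := appOrd_mul b hr (inv_ne_zero hr)
  rw [mul_inv_cancel₀ hr, appOrd_one] at this
  omega

theorem appOrd_pow (b : k) {r : RatFunc k} (hr : r ≠ 0) (n : ℕ) :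
    appOrd b (r ^ n) = n * appOrd b r := by
  induction n with
  | zero => simp [appOrd_one]
  | succ n ih => rw [pow_succ, appOrd_mul b (pow_ne_zero _ hr) hr, ih]; push_cast; ring

end Ord

end Crest.Agent.R312
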