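import Crest.Agent.R312.ATop
import Crest.Agent.Lib.PT.Dep

/-! # Row 312, part A: polynomial time, the framework

`PTO O`, `PTM V`, `PTE E` say that the families of operations `O i`, `V i`, `E i` are polynomial-time
and have outputs of polynomial size.  They are `fun_prop` properties. -/

set_option autoImplicit false
set_option linter.unusedSectionVars false

namespace Crest.Agent.R312

open Crest.Agent.Lib.PT

variable {ι κ α β γ δ : Type} [Enc ι] [Enc κ] [Enc α] [Enc β] [Enc γ] [Enc δ]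

/-- All the outputs of the operations have size at most `b`. -/
structure Ops.Bd (O : Ops α) (b : ℕ) : Prop where
  zero : sz O.zero ≤ b
  one : sz O.one ≤ b
  add : ∀ x y, sz (O.add x y) ≤ b
  mul : ∀ x y, sz (O.mul x y) ≤ b
  neg : ∀ x, sz (O.neg x) ≤ b

theorem Ops.Bd.mono {O : Ops α} {b b' : ℕ} (h : O.Bd b) (hb : b ≤ b') : O.Bd b' :=
  ⟨h.zero.trans hb, h.one.trans hb, fun x y => (h.add x y).trans hb,
    fun x y => (h.mul x y).trans hb, fun x => (h.neg x).trans hb⟩

/-- The set of vectors `S` is closed under the operations. -/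
structure MOps.Closed {α β : Type} (V : MOps α β) (S : β → Prop) : Prop where
  zero : S V.zero
  add : ∀ x y, S x → S y → S (V.add x y)
  smul : ∀ c x, S x → S (V.smul c x)

/-- Lists of length at most `D` with members in `S`. -/
def LBd {β : Type} (D : ℕ) (S : β → Prop) (l : List β) : Prop := l.length ≤ D ∧ ∀ x ∈ l, S x

/-- Polynomial-time ring operations with outputs of bounded size. -/
@[fun_prop] structure PTO (O : ι → Ops α) : Prop where
  zero : PT fun i => (O i).zero
  one : PT fun i => (O i).one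
  add : PT fun x : ι × α × α => (O x.1).add x.2.1 x.2.2
  mul : PT fun x : ι × α × α => (O x.1).mul x.2.1 x.2.2
  neg : PT fun x : ι × α => (O x.1).neg x.2
  bd : ∃ b : ι → ℕ, PB b ∧ ∀ i, (O i).Bd (b i)

/-- Polynomial-time module operations which do not increase the sizes more than polynomially,
however often they are iterated. -/
@[fun_prop] structure PTM (V : ι → MOps α β) : Prop where
  zero : PT fun i => (V i).zero
  add : PT fun x : ι × β × β => (V x.1).add x.2.1 x.2.2
  smul : PT fun x : ι × α × β => (V x.1).smul x.2.1 x.2.2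
  bd : ∃ (S : ι → ℕ → β → Prop) (c k : ℕ), (∀ i M, (V i).Closed (S i M)) ∧
    (∀ i M x, sz x ≤ M → S i M x) ∧ ∀ i M x, S i M x → sz x ≤ c * (sz i + M) ^ k

/-- Polynomial-time environments. -/
@[fun_prop] structure PTE (E : ι → Env α) : Prop where
  O : PTO fun i => (E i).O
  isZ : PT fun x : ι × α => (E x.1).isZ x.2
  q : PT fun i => (E i).q
  l : PT fun i => (E i).l
  pbl : PB fun i => (E i).l
  pos : ∀ i, 0 < (E i).l
  η : PT fun i => (E i).η
  F : PT fun i => (E i).F
  Fm : PT fun i => (E i).Fm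
  a : PT fun i => (E i).a
  fx : PT fun i => (E i).fx

@[fun_prop] theorem PTO.comp {O : κ → Ops α} {f : ι → κ} (h : PTO O) (hf : PT f) :
    PTO fun i => O (f i) := by
  obtain ⟨b, hb, hb'⟩ := h.bd
  exact ⟨h.zero.comp hf, h.one.comp hf,
    h.add.comp (f := fun x : ι × α × α => (f x.1, x.2)) (by fun_prop),
    h.mul.comp (f := fun x : ι × α × α => (f x.1, x.2)) (by fun_prop),
    h.neg.comp (f := fun x : ι × α => (f x.1, x.2)) (by fun_prop),
    ⟨fun i => b (f i), hb.comp hf, fun i => hb' _⟩⟩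

@[fun_prop] theorem PTM.comp {V : κ → MOps α β} {f : ι → κ} (h : PTM V) (hf : PT f) :
    PTM fun i => V (f i) := by
  obtain ⟨S, c, k, h1, h2, h3⟩ := h.bd
  obtain ⟨c', k', hf'⟩ := PB.sz hf
  refine ⟨h.zero.comp hf, h.add.comp (f := fun x : ι × β × β => (f x.1, x.2)) (by fun_prop),
    h.smul.comp (f := fun x : ι × α × β => (f x.1, x.2)) (by fun_prop),
    fun i => S (f i), c * (c' + 1) ^ k, (k' + 1) * k, fun i M => h1 _ M, fun i M => h2 _ M,
    fun i M x hx => (h3 _ M x hx).trans ?_⟩
  rw [mul_assoc, pow_mul, ← mul_pow]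
  refine Nat.mul_le_mul_left _ (Nat.pow_le_pow_left ?_ _)
  have h4 := hf' i
  have h5 : 1 ≤ sz i + M := by have := one_le_sz i; omega
  have h6 : sz i ^ k' ≤ (sz i + M) ^ (k' + 1) :=
    (Nat.pow_le_pow_left (by omega) _).trans (Nat.pow_le_pow_right h5 (by omega))
  have h7 : M ≤ (sz i + M) ^ (k' + 1) :=
    (show M ≤ (sz i + M) ^ 1 by simp).trans (Nat.pow_le_pow_right h5 (by omega))
  have h8 := Nat.mul_le_mul_left c' h6
  beta_reduce at h4
  rw [add_mul]
  omega

@[fun_prop] theorem PTE.comp {E : κ → Env α} {f : ι → κ} (h : PTE E) (hf : PT f) :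
    PTE fun i => E (f i) :=
  ⟨h.O.comp hf, h.isZ.comp (f := fun x : ι × α => (f x.1, x.2)) (by fun_prop), h.q.comp hf,
    h.l.comp hf, h.pbl.comp hf, fun _ => h.pos _, h.η.comp hf, h.F.comp hf, h.Fm.comp hf,
    h.a.comp hf, h.fx.comp hf⟩

section Ops

variable {O : ι → Ops α}

@[fun_prop] theorem pt_zero (h : PTO O) : PT fun i => (O i).zero := h.zero
@[fun_prop] theorem pt_one (h : PTO O) : PT fun i => (O i).one := h.one
@[fun_prop] theorem pt_add (h : PTO O) {x y : ι → α} (hx : PT x) (hy : PT y) :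
    PT fun i => (O i).add (x i) (y i) := h.add.comp (f := fun i => (i, x i, y i)) (by fun_prop)
@[fun_prop] theorem pt_mul (h : PTO O) {x y : ι → α} (hx : PT x) (hy : PT y) :
    PT fun i => (O i).mul (x i) (y i) := h.mul.comp (f := fun i => (i, x i, y i)) (by fun_prop)
@[fun_prop] theorem pt_neg (h : PTO O) {x : ι → α} (hx : PT x) :
    PT fun i => (O i).neg (x i) := h.neg.comp (f := fun i => (i, x i)) (by fun_prop)

variable {V : ι → MOps α β}

@[fun_prop] theorem pt_mzero (h : PTM V) : PT fun i => (V i).zero := h.zero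
@[fun_prop] theorem pt_madd (h : PTM V) {x y : ι → β} (hx : PT x) (hy : PT y) :
    PT fun i => (V i).add (x i) (y i) := h.add.comp (f := fun i => (i, x i, y i)) (by fun_prop)
@[fun_prop] theorem pt_msmul (h : PTM V) {c : ι → α} {x : ι → β} (hc : PT c) (hx : PT x) :
    PT fun i => (V i).smul (c i) (x i) := h.smul.comp (f := fun i => (i, c i, x i)) (by fun_prop)

variable {E : ι → Env α}

@[fun_prop] theorem pto_O (h : PTE E) : PTO fun i => (E i).O := h.O
@[fun_prop] theorem pt_isZ (h : PTE E) {x : ι → α} (hx : PT x) : PT fun i => (E i).isZ (x i) :=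
  h.isZ.comp (f := fun i => (i, x i)) (by fun_prop)
@[fun_prop] theorem pt_q (h : PTE E) : PT fun i => (E i).q := h.q
@[fun_prop] theorem pt_l (h : PTE E) : PT fun i => (E i).l := h.l
@[fun_prop] theorem pb_l (h : PTE E) : PB fun i => (E i).l := h.pbl
@[fun_prop] theorem pt_η (h : PTE E) : PT fun i => (E i).η := h.η
@[fun_prop] theorem pt_F (h : PTE E) : PT fun i => (E i).F := h.F
@[fun_prop] theorem pt_Fm (h : PTE E) : PT fun i => (E i).Fm := h.Fm
@[fun_prop] theorem pt_a (h : PTE E) : PT fun i => (E i).a := h.a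
@[fun_prop] theorem pt_fx (h : PTE E) : PT fun i => (E i).fx := h.fx

end Ops

/-! ### loops over numbers which are needed in unary -/

section Clamp

variable {l : ι → List ℕ} {n : ι → ℕ}

theorem pt_map_le {g : ι → ℕ → β} (n : ι → ℕ) (hl : PT l) (hle : ∀ i, ∀ x ∈ l i, x ≤ n i)
    (hg : PT fun x : ι × ℕ => g x.1 (min x.2 (n x.1))) : PT fun i => (l i).map (g i) :=
  (hl.map (g := fun i x => g i (min x (n i))) hg).congr fun i =>
    List.map_congr_left fun x hx => by rw [min_eq_left (hle i x hx)]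

theorem pt_flatMap_le {g : ι → ℕ → List β} (n : ι → ℕ) (hl : PT l)
    (hle : ∀ i, ∀ x ∈ l i, x ≤ n i) (hg : PT fun x : ι × ℕ => g x.1 (min x.2 (n x.1))) :
    PT fun i => (l i).flatMap (g i) :=
  (pt_map_le n hl hle hg).flatten.congr fun i => by rw [List.flatMap_def]

theorem pt_find?_le {g : ι → ℕ → Bool} (n : ι → ℕ) (hl : PT l) (hle : ∀ i, ∀ x ∈ l i, x ≤ n i)
    (hg : PT fun x : ι × ℕ => g x.1 (min x.2 (n x.1))) : PT fun i => (l i).find? (g i) :=
  (hl.find? (g := fun i x => g i (min x (n i))) hg).congr fun i => by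
    have := hle i
    generalize l i = m at this
    induction m with
    | nil => rfl
    | cons x m ih =>
      rw [List.find?_cons, List.find?_cons, min_eq_left (this x (by simp)),
        ih fun y hy => this y (by simp [hy])]

theorem pt_map_range {g : ι → ℕ → β} (hn : PT n) (hb : PB n)
    (hg : PT fun x : ι × ℕ => g x.1 (min x.2 (n x.1))) :
    PT fun i => (List.range (n i)).map (g i) :=
  pt_map_le n (hn.range hb) (fun _ _ hx => (List.mem_range.1 hx).le) hg

theorem pt_flatMap_range {g : ι → ℕ → List β} (hn : PT n) (hb : PB n)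
    (hg : PT fun x : ι × ℕ => g x.1 (min x.2 (n x.1))) :
    PT fun i => (List.range (n i)).flatMap (g i) :=
  pt_flatMap_le n (hn.range hb) (fun _ _ hx => (List.mem_range.1 hx).le) hg

theorem pt_find?_range {g : ι → ℕ → Bool} (hn : PT n) (hb : PB n)
    (hg : PT fun x : ι × ℕ => g x.1 (min x.2 (n x.1))) :
    PT fun i => (List.range (n i)).find? (g i) :=
  pt_find?_le n (hn.range hb) (fun _ _ hx => (List.mem_range.1 hx).le) hg

theorem find?_range_getD_le (n d : ℕ) (g : ℕ → Bool) :
    ((List.range n).find? g).getD d ≤ n + d := by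
  cases h : (List.range n).find? g with
  | none => simp
  | some x => have := List.mem_range.1 (List.mem_of_find?_eq_some h); simp; omega

theorem pb_find?_range (hb : PB n) (g : ι → ℕ → Bool) (d : ℕ) :
    PB fun i => ((List.range (n i)).find? (g i)).getD d :=
  (hb.add (PB.const d)).of_le fun _ => find?_range_getD_le _ _ _

theorem pb_mod {x : ι → ℕ} (hb : PB n) (hpos : ∀ i, 0 < n i) : PB fun i => x i % n i :=
  hb.of_le fun i => (Nat.mod_lt _ (hpos i)).le

end Clamp

/-! ### size bounds and loops -/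

/-- A polynomial-time function has bounded outputs on bounded inputs. -/
theorem exists_pb_of_pt {g : ι → β → γ} (hg : PT fun x : ι × β => g x.1 x.2) {b : ι → ℕ}
    (hb : PB b) : ∃ b' : ι → ℕ, PB b' ∧ ∀ i x, sz x ≤ b i → sz (g i x) ≤ b' i := by
  obtain ⟨c, k, h⟩ := (PB.sz hg).exists_bound
  have : PB fun i : ι => sz i := PB.sz_id
  exact ⟨fun i => c * (sz i + b i + 1) ^ k, by fun_prop, fun i x hx =>
    h (i, x) _ (by rw [sz_pair]; omega)⟩

theorem pt_foldl_bd {f : ι → γ → β → γ} {l : ι → List β} {ini : ι → γ} {b : ι → ℕ}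
    (hf : PT fun x : ι × γ × β => f x.1 x.2.1 x.2.2) (hl : PT l) (hi : PT ini) (hb : PB b)
    (h : ∀ i acc, ∀ x ∈ l i, sz (f i acc x) ≤ b i) : PT fun i => (l i).foldl (f i) (ini i) :=
  PT.foldl_inv (fun i acc => sz acc ≤ b i + sz (ini i)) (fun i => b i + sz (ini i)) hf hl hi
    (by fun_prop) (fun _ => by omega) (fun i acc x hx _ => by have := h i acc x hx; omega)
    fun _ _ h => h

theorem pt_foldr_bd {f : ι → β → γ → γ} {l : ι → List β} {ini : ι → γ} {b : ι → ℕ}
    (hf : PT fun x : ι × β × γ => f x.1 x.2.1 x.2.2) (hl : PT l) (hi : PT ini) (hb : PB b)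
    (h : ∀ i acc, ∀ x ∈ l i, sz (f i x acc) ≤ b i) : PT fun i => (l i).foldr (f i) (ini i) :=
  PT.foldr_inv (fun i acc => sz acc ≤ b i + sz (ini i)) (fun i => b i + sz (ini i)) hf hl hi
    (by fun_prop) (fun _ => by omega) (fun i acc x hx _ => by have := h i acc x hx; omega)
    fun _ _ h => h

theorem LBd.sz_le {D b : ℕ} {S : β → Prop} {l : List β} (h : LBd D S l)
    (hS : ∀ x, S x → sz x ≤ b) : sz l ≤ (b + 1) * D + 1 :=
  (sz_list_le l b fun x hx => hS x (h.2 x hx)).trans
    (Nat.add_le_add_right (Nat.mul_le_mul_left _ h.1) 1)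

theorem LBd.mono {β : Type} {D D' : ℕ} {S S' : β → Prop} {l : List β} (h : LBd D S l)
    (hD : D ≤ D') (hS : ∀ x, S x → S' x) : LBd D' S' l :=
  ⟨h.1.trans hD, fun x hx => hS x (h.2 x hx)⟩

theorem LBd.of_sz {M : ℕ} {S : β → Prop} (hS : ∀ x, sz x ≤ M → S x) {l : List β}
    (h : sz l ≤ M) : LBd M S l :=
  ⟨(length_le_sz l).trans h, fun x hx => hS x ((sz_le_of_mem hx).trans h)⟩

theorem LBd.nil {β : Type} (D : ℕ) (S : β → Prop) : LBd D S [] := ⟨by simp, by simp⟩

theorem LBd.getD {β : Type} {D : ℕ} {S : β → Prop} {l : List β} (h : LBd D S l) {d : β} (hd : S d)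
    (i : ℕ) : S (l.getD i d) := by
  rw [List.getD_eq_getElem?_getD]
  cases hi : l[i]? with
  | none => exact hd
  | some x => exact h.2 x (List.mem_of_getElem? hi)

/-! ### the exception monad -/

@[fun_prop] theorem pt_bindS {x : ι → δ ⊕ β} {f : ι → β → δ ⊕ γ} (hx : PT x)
    (hf : PT fun y : ι × β => f y.1 y.2) : PT fun i => bindS (x i) (f i) := by
  unfold bindS
  exact PT.sumElim hx (by fun_prop) hf

@[fun_prop] theorem pt_mapS {f : ι → β → δ ⊕ γ} {l : ι → List β}
    (hf : PT fun y : ι × β => f y.1 y.2) (hl : PT l) : PT fun i => mapS (f i) (l i) := by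
  have h := hl.map hf
  unfold mapS
  exact PT.optionElim (by fun_prop) (by fun_prop) (by fun_prop)

theorem bindS_eq_inr {ε β γ : Type} {x : ε ⊕ β} {f : β → ε ⊕ γ} {c : γ}
    (h : bindS x f = Sum.inr c) : ∃ b, x = Sum.inr b ∧ f b = Sum.inr c := by
  cases x with
  | inl e => simp [bindS] at h
  | inr b => exact ⟨b, rfl, h⟩

theorem guard_eq_inr {α β : Type} {E : Env α} {xs : List α} {r : Exc α ⊕ β} {b : β}
    (h : E.guard xs r = Sum.inr b) : r = Sum.inr b := by
  unfold Env.guard at h
  cases hx : xs.find? E.bad with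
  | none => simpa [hx] using h
  | some x => simp [hx] at h

/-- Iteration in the exception monad; only the regular states have to be bounded. -/
theorem pt_iterS {f : ι → β → δ ⊕ β} {n : ι → ℕ} {x : ι → β} (Inv : ι → ℕ → β → Prop)
    {b : ι → ℕ} (hf : PT fun y : ι × β => f y.1 y.2) (hn : PT n) (hn' : PB n) (hx : PT x)
    (hb : PB b) (h0 : ∀ i, Inv i 0 (x i))
    (hstep : ∀ i j y y', Inv i j y → f i y = Sum.inr y' → Inv i (j + 1) y')
    (hsz : ∀ i j y, j ≤ n i → Inv i j y → sz y ≤ b i) :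
    PT fun i => iterS (f i) (n i) (x i) := by
  obtain ⟨b', hb', h'⟩ := exists_pb_of_pt hf hb
  unfold iterS
  refine PT.iterate (f := fun i st => bindS st (f i)) (fun i => b i + b' i + 4) ?_ hn hn'
    (by fun_prop) (by fun_prop) fun i j hj => ?_
  · exact pt_bindS (f := fun y : ι × (δ ⊕ β) => f y.1) (by fun_prop)
      (hf.comp (f := fun z : (ι × (δ ⊕ β)) × β => (z.1.1, z.2)) (by fun_prop))
  · have key : ∀ j, j ≤ n i → (∃ e, (fun st => bindS st (f i))^[j] (Sum.inr (x i)) = Sum.inl e ∧
        sz (Sum.inl e : δ ⊕ β) ≤ b' i) ∨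
        ∃ y, (fun st => bindS st (f i))^[j] (Sum.inr (x i)) = Sum.inr y ∧ Inv i j y := by
      intro j
      induction j with
      | zero => exact fun _ => Or.inr ⟨_, rfl, h0 i⟩
      | succ j ih =>
        intro hj
        rw [Function.iterate_succ_apply']
        rcases ih (by omega) with ⟨e, h1, h2⟩ | ⟨y, h1, h2⟩
        · exact Or.inl ⟨e, by rw [h1]; rfl, h2⟩
        · have h3 := h' i y (hsz i j y (by omega) h2)
          rw [h1]
          show (∃ e, f i y = _ ∧ _) ∨ ∃ y', f i y = _ ∧ _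
          cases h4 : f i y with
          | inl e => exact Or.inl ⟨e, rfl, h4 ▸ h3⟩
          | inr y' => exact Or.inr ⟨y', rfl, hstep i j y y' h2 h4⟩
    rcases key j hj with ⟨e, h1, h2⟩ | ⟨y, h1, h2⟩
    · rw [h1]; omega
    · have := hsz i j y hj h2
      rw [h1, sz_inr]; omega

end Crest.Agent.R312
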