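import Crest.Agent.R312.APT0
import Crest.Agent.Lib.PT.Mat

/-! # Row 312, part A: polynomial time, ring and module level routines -/

set_option autoImplicit false
set_option linter.unusedSectionVars false

namespace Crest.Agent.R312

open Crest.Agent.Lib.PT

variable {ι κ α β γ δ : Type} [Enc ι] [Enc κ] [Enc α] [Enc β] [Enc γ] [Enc δ]

/-! ### closed sets of vectors -/

section Closed

variable {α β γ κ : Type} {V : MOps α β} {W : MOps α γ} {S : β → Prop} {S' : γ → Prop}

theorem MOps.Closed.ladd (h : V.Closed S) {D : ℕ} {x y : List β} (hx : LBd D S x)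
    (hy : LBd D S y) : LBd D S (V.ladd x y) := by
  refine ⟨by simpa [MOps.ladd] using ⟨hx.1, hy.1⟩, fun z hz => ?_⟩
  obtain ⟨i, -, rfl⟩ := List.mem_map.1 hz
  exact h.add _ _ (hx.getD h.zero i) (hy.getD h.zero i)

theorem MOps.Closed.list (h : V.Closed S) (D : ℕ) : V.list.Closed (LBd D S) := by
  refine ⟨LBd.nil D S, fun x y hx hy => h.ladd hx hy, fun c x hx => ⟨by simpa [MOps.list] using hx.1,
    fun z hz => ?_⟩⟩
  obtain ⟨y, hy, rfl⟩ := List.mem_map.1 hz
  exact h.smul c y (hx.2 y hy)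

theorem MOps.Closed.prod (h : V.Closed S) (h' : W.Closed S') :
    (V.prod W).Closed fun x => S x.1 ∧ S' x.2 :=
  ⟨⟨h.zero, h'.zero⟩, fun _ _ hx hy => ⟨h.add _ _ hx.1 hy.1, h'.add _ _ hx.2 hy.2⟩,
    fun _ _ hx => ⟨h.smul _ _ hx.1, h'.smul _ _ hx.2⟩⟩

theorem MOps.Closed.fst (h : V.Closed S) (W : MOps α γ) : (V.prod W).Closed fun x => S x.1 :=
  ⟨h.zero, fun _ _ hx hy => h.add _ _ hx hy, fun _ _ hx => h.smul _ _ hx⟩

theorem MOps.Closed.getD (h : V.Closed S) (i : ℕ) :
    V.list.Closed fun l => S (l.getD i V.zero) := by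
  refine ⟨by simpa [MOps.list] using h.zero, fun x y hx hy => ?_, fun c x hx => ?_⟩
  · show S ((V.ladd x y).getD i V.zero)
    by_cases hi : i < max x.length y.length
    · have : (V.ladd x y).getD i V.zero = V.add (x.getD i V.zero) (y.getD i V.zero) := by
        simp [MOps.ladd, List.getD_eq_getElem?_getD, List.getElem?_range hi]
      rw [this]
      exact h.add _ _ hx hy
    · rw [List.getD_eq_default _ _ (by simpa [MOps.ladd] using hi)]
      exact h.zero
  · show S ((x.map (V.smul c)).getD i V.zero)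
    by_cases hi : i < x.length
    · rw [List.getD_eq_getElem _ _ (by simpa using hi), List.getElem_map]
      rw [List.getD_eq_getElem _ _ hi] at hx
      exact h.smul _ _ hx
    · rw [List.getD_eq_default _ _ (by simpa using hi)]
      exact h.zero

theorem MOps.Closed.sum (h : V.Closed S) {l : List β} (hl : ∀ x ∈ l, S x) : S (V.sum l) := by
  induction l with
  | nil => exact h.zero
  | cons x l ih => exact h.add _ _ (hl x (by simp)) (ih fun y hy => hl y (by simp [hy]))

theorem MOps.Closed.foldl (h : V.Closed S) (c : β → β → α) {l : List β} (hl : ∀ x ∈ l, S x) {p : β}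
    (hp : S p) : S (l.foldl (fun p r => V.add p (V.smul (c p r) r)) p) := by
  induction l generalizing p with
  | nil => exact hp
  | cons x l ih =>
    exact ih (fun y hy => hl y (by simp [hy])) (h.add _ _ hp (h.smul _ _ (hl x (by simp))))

variable {O : Ops α}

theorem MOps.Closed.pick (h : V.Closed S) (O : Ops α) (q : ℕ) (f : β → α) {rows : List β}
    (hl : ∀ x ∈ rows, S x) : S (O.pick V q f rows) := h.foldl _ hl h.zero

theorem MOps.Closed.firstNZ (h : V.Closed S) (O : Ops α) (nz : β → α) {l : List β}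
    (hl : ∀ x ∈ l, S x) : S (O.firstNZ V nz l) :=
  h.foldl (fun p _ => O.sub O.one (nz p)) hl h.zero

theorem MOps.Closed.cut (h : V.Closed S) (O : Ops α) (q : ℕ) (f : β → α) {rows : List β}
    (hl : ∀ x ∈ rows, S x) : ∀ x ∈ O.cut V q f rows, S x := by
  intro x hx
  obtain ⟨r, hr, rfl⟩ := List.mem_map.1 hx
  exact h.add _ _ (hl r hr) (h.smul _ _ (h.pick O q f hl))

theorem MOps.Closed.elim_aux (h : V.Closed S) (O : Ops α) (q : ℕ) (fn : κ → β → α) (idx : List κ)
    {a b : ℕ} {st : List β × List β} (h1 : LBd a S st.1) (h2 : LBd b S st.2) :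
    LBd (a + idx.length) S (idx.foldl (fun st i =>
      (O.pick V q (fn i) st.2 :: st.1, O.cut V q (fn i) st.2)) st).1 ∧
    LBd b S (idx.foldl (fun st i =>
      (O.pick V q (fn i) st.2 :: st.1, O.cut V q (fn i) st.2)) st).2 := by
  induction idx generalizing a st with
  | nil => exact ⟨h1, h2⟩
  | cons i idx ih =>
    rw [List.foldl_cons, List.length_cons, ← add_assoc, add_right_comm]
    refine ih ⟨by simpa using h1.1, fun x hx => ?_⟩ ⟨by simpa [Ops.cut] using h2.1,
      h.cut O q _ h2.2⟩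
    rcases List.mem_cons.1 hx with rfl | hx
    · exact h.pick O q _ h2.2
    · exact h1.2 x hx

theorem MOps.Closed.elim (h : V.Closed S) (O : Ops α) (q : ℕ) (fn : κ → β → α) (idx : List κ)
    {rows : List β} (hl : ∀ x ∈ rows, S x) :
    LBd idx.length S (O.elim V q fn idx rows).1 ∧ LBd rows.length S (O.elim V q fn idx rows).2 := by
  have := h.elim_aux O q fn idx (st := ([], rows)) (LBd.nil 0 S) ⟨le_rfl, hl⟩
  rwa [zero_add] at this

theorem MOps.Closed.kerP (h : V.Closed S) (W : MOps α γ) (O : Ops α) (q : ℕ) (fn : κ → γ → α)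
    (idx : List κ) {rows : List (β × γ)} (hl : ∀ x ∈ rows, S x.1) :
    LBd rows.length S (O.kerP V W q fn idx rows) := by
  have := ((h.fst W).elim O q (fun i r => fn i r.2) idx hl).2
  refine ⟨by simpa [Ops.kerP] using this.1, fun x hx => ?_⟩
  obtain ⟨y, hy, rfl⟩ := List.mem_map.1 hx
  exact this.2 y hy

theorem le_mlen {l : List (List β)} {x : List β} (hx : x ∈ l) : x.length ≤ mlen l := by
  induction l with
  | nil => simp at hx
  | cons y l ih =>
    rcases List.mem_cons.1 hx with rfl | hx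
    · exact le_max_left _ _
    · exact (ih hx).trans (le_max_right _ _)

theorem mlen_le {l : List (List β)} {D : ℕ} (h : ∀ x ∈ l, x.length ≤ D) : mlen l ≤ D := by
  induction l with
  | nil => exact Nat.zero_le _
  | cons y l ih => exact max_le (h y (by simp)) (ih fun x hx => h x (by simp [hx]))

theorem getD_length_le_mlen (l : List (List β)) (i : ℕ) : (l.getD i []).length ≤ mlen l :=
  LBd.getD (S := fun x : List β => x.length ≤ mlen l) ⟨le_rfl, fun _ hx => le_mlen hx⟩
    (Nat.zero_le _) i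

end Closed

section Bd

variable {O : Ops α} {b : ℕ}

theorem Ops.Bd.closed (h : O.Bd b) : O.self.Closed fun x => sz x ≤ b :=
  ⟨h.zero, fun x y _ _ => h.add x y, fun c x _ => h.mul c x⟩

theorem Ops.Bd.sub (h : O.Bd b) (x y : α) : sz (O.sub x y) ≤ b := h.add _ _

theorem Ops.Bd.pow (h : O.Bd b) (x : α) (n : ℕ) : sz (O.pow x n) ≤ b := by
  unfold Ops.pow
  cases n.bits with
  | nil => exact h.one
  | cons c l => cases c <;> exact h.mul _ _

theorem Ops.Bd.padd (h : O.Bd b) (l m : List α) :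
    LBd (max l.length m.length) (fun x => sz x ≤ b) (O.padd l m) := by
  refine ⟨by simp [Ops.padd, MOps.ladd], fun z hz => ?_⟩
  obtain ⟨i, -, rfl⟩ := List.mem_map.1 hz
  exact h.add _ _

theorem Ops.Bd.pmul (h : O.Bd b) (l m : List α) :
    LBd (l.length + m.length) (fun x => sz x ≤ b) (O.pmul l m) := by
  induction l with
  | nil => exact LBd.nil _ _
  | cons a l ih =>
    refine (h.padd _ _).mono ?_ fun _ h => h
    have : (List.foldr (fun a acc => O.padd (m.map (O.mul a)) (O.zero :: acc)) [] l).length ≤ _ :=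
      ih.1
    simp only [List.length_map, List.length_cons]
    omega

theorem Ops.Bd.prem (h : O.Bd b) (f l : List α) :
    LBd f.length (fun x => sz x ≤ b) (O.prem f l) := by
  cases l with
  | nil => exact LBd.nil _ _
  | cons a l =>
    refine ⟨by simp [Ops.prem], fun z hz => ?_⟩
    obtain ⟨i, -, rfl⟩ := List.mem_map.1 hz
    exact h.sub _ _

theorem Ops.Bd.quot (h : O.Bd b) (f : List α) : (O.quot f).Bd ((b + 1) * f.length + 1) :=
  ⟨by simp [Ops.quot], (h.prem f _).sz_le fun _ h => h, fun _ _ => (h.prem f _).sz_le fun _ h => h,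
    fun _ _ => (h.prem f _).sz_le fun _ h => h, fun _ => (h.prem f _).sz_le fun _ h => h⟩

theorem Ops.Bd.polyProd (h : O.Bd b) (l : List (List α)) :
    LBd (1 + (l.map List.length).sum) (fun x => sz x ≤ b) (O.poly.prod l) := by
  induction l with
  | nil => exact ⟨by simp [Ops.prod, Ops.poly], by simpa [Ops.prod, Ops.poly] using h.one⟩
  | cons a l ih =>
    refine (h.pmul a (O.poly.prod l)).mono ?_ fun _ h => h
    have := ih.1
    simp only [List.map_cons, List.sum_cons]
    omega

theorem zops_bd (p : ℕ) : (zops p).Bd (sz p + 7) := by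
  have h : ∀ x, sz (x % max p 1) ≤ sz p + 7 := fun x => by
    have h1 : x % max p 1 < max p 1 := Nat.mod_lt _ (by omega)
    have := sz_nat_mono (show x % max p 1 ≤ p by omega)
    omega
  exact ⟨by simp [zops], h _, fun _ _ => h _, fun _ _ => h _, fun _ => h _⟩

end Bd

theorem sum_length_le_sz (l : List (List β)) : (l.map List.length).sum ≤ sz l := by
  induction l with
  | nil => simp
  | cons x l ih => have := length_le_sz x; simp; omega

theorem mlen_le_sz (l : List (List β)) : mlen l ≤ sz l :=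
  mlen_le fun x hx => (length_le_sz x).trans (sz_le_of_mem hx)

@[fun_prop] theorem pt_mlen {l : ι → List (List β)} (hl : PT l) : PT fun i => mlen (l i) := by
  unfold mlen
  fun_prop

@[fun_prop] theorem pb_mlen {l : ι → List (List β)} (hl : PT l) : PB fun i => mlen (l i) :=
  (PB.sz hl).of_le fun _ => mlen_le_sz _

@[fun_prop] theorem pto_zops {p : ι → ℕ} (hp : PT p) : PTO fun i => zops (p i) := by
  refine ⟨?_, ?_, ?_, ?_, ?_, fun i => sz (p i) + 7, by fun_prop, fun _ => zops_bd _⟩ <;>
    (unfold zops; fun_prop)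

/-! ### ring level -/

variable {O : ι → Ops α} {V : ι → MOps α β} {W : ι → MOps α γ}

@[fun_prop] theorem pt_sub (h : PTO O) {x y : ι → α} (hx : PT x) (hy : PT y) :
    PT fun i => (O i).sub (x i) (y i) := by
  unfold Ops.sub
  fun_prop

@[fun_prop] theorem pt_pow (h : PTO O) {x : ι → α} {n : ι → ℕ} (hx : PT x) (hn : PT n) :
    PT fun i => (O i).pow (x i) (n i) := by
  obtain ⟨b, hb, hb'⟩ := h.bd
  unfold Ops.pow
  exact pt_foldr_bd (by fun_prop) (by fun_prop) (by fun_prop) hb fun i acc c _ => by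
    cases c <;> exact (hb' i).mul _ _

@[fun_prop] theorem pt_sum (h : PTO O) {l : ι → List α} (hl : PT l) :
    PT fun i => (O i).sum (l i) := by
  obtain ⟨b, hb, hb'⟩ := h.bd
  unfold Ops.sum
  exact pt_foldr_bd (f := fun i => (O i).add) h.add hl h.zero hb fun i acc c _ => (hb' i).add _ _

@[fun_prop] theorem pt_prod (h : PTO O) {l : ι → List α} (hl : PT l) :
    PT fun i => (O i).prod (l i) := by
  obtain ⟨b, hb, hb'⟩ := h.bd
  unfold Ops.prod
  exact pt_foldr_bd (f := fun i => (O i).mul) h.mul hl h.one hb fun i acc c _ => (hb' i).mul _ _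

@[fun_prop] theorem pt_ind (h : PTO O) {q : ι → ℕ} {x : ι → α} (hq : PT q) (hx : PT x) :
    PT fun i => (O i).ind (q i) (x i) := by
  unfold Ops.ind
  fun_prop

@[fun_prop] theorem pt_pinv (h : PTO O) {q : ι → ℕ} {x : ι → α} (hq : PT q) (hx : PT x) :
    PT fun i => (O i).pinv (q i) (x i) := by
  unfold Ops.pinv
  fun_prop

@[fun_prop] theorem pt_anyNZ (h : PTO O) {q : ι → ℕ} {l : ι → List α} (hq : PT q) (hl : PT l) :
    PT fun i => (O i).anyNZ (q i) (l i) := by
  unfold Ops.anyNZ
  fun_prop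

@[fun_prop] theorem pt_horner (h : PTO O) {l : ι → List α} {x : ι → α} (hl : PT l) (hx : PT x) :
    PT fun i => (O i).horner (l i) (x i) := by
  obtain ⟨b, hb, hb'⟩ := h.bd
  unfold Ops.horner
  exact pt_foldr_bd (by fun_prop) hl h.zero hb fun i acc c _ => (hb' i).add _ _

/-! ### module level -/

@[fun_prop] theorem ptm_self (h : PTO O) : PTM fun i => (O i).self := by
  obtain ⟨b, ⟨c, k, hb⟩, hb'⟩ := h.bd
  refine ⟨h.zero, h.add, h.mul, fun i M x => sz x ≤ b i + M, c + 1, k + 1,
    fun i M => ((hb' i).mono (Nat.le_add_right _ M)).closed, fun i M x hx => by omega,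
    fun i M x hx => hx.trans ?_⟩
  have h4 := hb i
  have h5 : 1 ≤ sz i + M := by have := one_le_sz i; omega
  have h6 : sz i ^ k ≤ (sz i + M) ^ (k + 1) :=
    (Nat.pow_le_pow_left (by omega) _).trans (Nat.pow_le_pow_right h5 (by omega))
  have h7 : M ≤ (sz i + M) ^ (k + 1) :=
    (show M ≤ (sz i + M) ^ 1 by simp).trans (Nat.pow_le_pow_right h5 (by omega))
  have h8 := Nat.mul_le_mul_left c h6
  rw [add_mul]
  omega

@[fun_prop] theorem pt_ladd (h : PTM V) {l m : ι → List β} (hl : PT l) (hm : PT m) :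
    PT fun i => (V i).ladd (l i) (m i) := by
  unfold MOps.ladd
  fun_prop

@[fun_prop] theorem ptm_list (h : PTM V) : PTM fun i => (V i).list := by
  obtain ⟨S, c, k, h1, h2, h3⟩ := h.bd
  refine ⟨PT.const _, ?_, ?_, fun i M => LBd M (S i M), c + 2, k + 1,
    fun i M => (h1 i M).list M, fun i M x hx => LBd.of_sz (h2 i M) hx,
    fun i M x hx => (hx.sz_le (h3 i M)).trans ?_⟩
  · show PT fun x : ι × List β × List β => (V x.1).ladd x.2.1 x.2.2
    fun_prop
  · show PT fun x : ι × α × List β => x.2.2.map ((V x.1).smul x.2.1)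
    fun_prop
  · have h5 : 1 ≤ sz i + M := by have := one_le_sz i; omega
    have h6 : 1 ≤ (sz i + M) ^ k := Nat.one_le_pow _ _ h5
    have h7 : (sz i + M) ^ k * M ≤ (sz i + M) ^ k * (sz i + M) := Nat.mul_le_mul_left _ (by omega)
    have h8 : 1 * (sz i + M) ≤ (sz i + M) ^ k * (sz i + M) := Nat.mul_le_mul_right _ h6
    have h9 := Nat.mul_le_mul_left c h7
    rw [pow_succ]
    nlinarith

@[fun_prop] theorem ptm_prod (h : PTM V) (h' : PTM W) : PTM fun i => (V i).prod (W i) := by
  obtain ⟨S, c, k, h1, h2, h3⟩ := h.bd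
  obtain ⟨S', c', k', h1', h2', h3'⟩ := h'.bd
  refine ⟨?_, ?_, ?_, fun i M x => S i M x.1 ∧ S' i M x.2, c + c' + 1, k + k',
    fun i M => (h1 i M).prod (h1' i M),
    fun i M x hx => ⟨h2 i M _ ((sz_fst_le x).trans hx), h2' i M _ ((sz_snd_le x).trans hx)⟩,
    fun i M x hx => ?_⟩
  · unfold MOps.prod; fun_prop
  · unfold MOps.prod; fun_prop
  · unfold MOps.prod; fun_prop
  · have h4 := h3 i M _ hx.1
    have h4' := h3' i M _ hx.2
    have h5 : 1 ≤ sz i + M := by have := one_le_sz i; omega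
    have h6 := Nat.mul_le_mul_left c (Nat.pow_le_pow_right h5 (Nat.le_add_right k k'))
    have h7 := Nat.mul_le_mul_left c' (Nat.pow_le_pow_right h5 (Nat.le_add_left k' k))
    have h8 : 1 ≤ (sz i + M) ^ (k + k') := Nat.one_le_pow _ _ h5
    rw [sz_prod, add_mul, add_mul]
    omega

/-- The form in which `PTM.bd` is used: a closed set containing the members of a given list. -/
theorem PTM.exists_closed (h : PTM V) {l : ι → List β} (hl : PT l) :
    ∃ (S : ι → β → Prop) (b : ι → ℕ), PB b ∧ (∀ i, (V i).Closed (S i)) ∧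
      (∀ i, ∀ x ∈ l i, S i x) ∧ ∀ i x, S i x → sz x ≤ b i := by
  obtain ⟨S, c, k, h1, h2, h3⟩ := h.bd
  have : PB fun i : ι => sz i := PB.sz_id
  exact ⟨fun i => S i (sz (l i)), fun i => c * (sz i + sz (l i)) ^ k, by fun_prop,
    fun i => h1 i _, fun i x hx => h2 i _ x (sz_le_of_mem hx), fun i x hx => h3 i _ x hx⟩

@[fun_prop] theorem pt_msum (h : PTM V) {l : ι → List β} (hl : PT l) :
    PT fun i => (V i).sum (l i) := by
  obtain ⟨S, b, hb, h1, h2, h3⟩ := h.exists_closed hl
  unfold MOps.sum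
  exact PT.foldr_inv (f := fun i => (V i).add) S b h.add hl h.zero hb (fun i => (h1 i).zero)
    (fun i acc x hx hacc => (h1 i).add _ _ (h2 i x hx) hacc) h3

@[fun_prop] theorem pt_pick (hO : PTO O) (h : PTM V) {q : ι → ℕ} {f : ι → β → α}
    {rows : ι → List β} (hq : PT q) (hf : PT fun x : ι × β => f x.1 x.2) (hl : PT rows) :
    PT fun i => (O i).pick (V i) (q i) (f i) (rows i) := by
  obtain ⟨S, b, hb, h1, h2, h3⟩ := h.exists_closed hl
  unfold Ops.pick
  exact PT.foldl_inv S b (by fun_prop) hl h.zero hb (fun i => (h1 i).zero)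
    (fun i acc x hx hacc => (h1 i).add _ _ hacc ((h1 i).smul _ _ (h2 i x hx))) h3

@[fun_prop] theorem pt_firstNZ (hO : PTO O) (h : PTM V) {nz : ι → β → α} {l : ι → List β}
    (hf : PT fun x : ι × β => nz x.1 x.2) (hl : PT l) :
    PT fun i => (O i).firstNZ (V i) (nz i) (l i) := by
  obtain ⟨S, b, hb, h1, h2, h3⟩ := h.exists_closed hl
  unfold Ops.firstNZ
  exact PT.foldl_inv S b (by fun_prop) hl h.zero hb (fun i => (h1 i).zero)
    (fun i acc x hx hacc => (h1 i).add _ _ hacc ((h1 i).smul _ _ (h2 i x hx))) h3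

@[fun_prop] theorem pt_cut (hO : PTO O) (h : PTM V) {q : ι → ℕ} {f : ι → β → α}
    {rows : ι → List β} (hq : PT q) (hf : PT fun x : ι × β => f x.1 x.2) (hl : PT rows) :
    PT fun i => (O i).cut (V i) (q i) (f i) (rows i) := by
  have := pt_pick hO h hq hf hl
  unfold Ops.cut
  fun_prop

@[fun_prop] theorem pt_elim (hO : PTO O) (h : PTM V) {q : ι → ℕ} {fn : ι → κ → β → α}
    {idx : ι → List κ} {rows : ι → List β} (hq : PT q)
    (hf : PT fun x : ι × κ × β => fn x.1 x.2.1 x.2.2) (hi : PT idx) (hl : PT rows) :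
    PT fun i => (O i).elim (V i) (q i) (fn i) (idx i) (rows i) := by
  obtain ⟨S, b, hb, h1, h2, h3⟩ := h.exists_closed hl
  unfold Ops.elim
  have hf' : PT fun x : (ι × (List β × List β) × κ) × β => fn x.1.1 x.1.2.2 x.2 :=
    hf.comp (f := fun x : (ι × (List β × List β) × κ) × β => (x.1.1, x.1.2.2, x.2)) (by fun_prop)
  refine PT.foldl (fun i => (b i + 1) * (idx i).length + 1 + ((b i + 1) * (rows i).length + 1) + 1)
    (PT.pair (PT.cons (pt_pick (by fun_prop) (by fun_prop) (by fun_prop) hf' (by fun_prop))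
      (by fun_prop)) (pt_cut (by fun_prop) (by fun_prop) (by fun_prop) hf' (by fun_prop)))
    hi (by fun_prop) (by fun_prop) fun i j => ?_
  obtain ⟨k1, k2⟩ := (h1 i).elim (O i) (q i) (fn i) ((idx i).take j) (h2 i)
  have k3 := (k1.mono (D' := (idx i).length) (by simp) fun _ h => h).sz_le (h3 i)
  have k4 := k2.sz_le (h3 i)
  rw [sz_prod]
  unfold Ops.elim at k3 k4
  omega

@[fun_prop] theorem pt_kerP (hO : PTO O) (h : PTM V) (h' : PTM W) {q : ι → ℕ}
    {fn : ι → κ → γ → α} {idx : ι → List κ} {rows : ι → List (β × γ)} (hq : PT q)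
    (hf : PT fun x : ι × κ × γ => fn x.1 x.2.1 x.2.2) (hi : PT idx) (hl : PT rows) :
    PT fun i => (O i).kerP (V i) (W i) (q i) (fn i) (idx i) (rows i) := by
  have := pt_elim hO (ptm_prod h h') (fn := fun i j (r : β × γ) => fn i j r.2) hq
    (hf.comp (f := fun x : ι × κ × β × γ => (x.1, x.2.1, x.2.2.2)) (by fun_prop)) hi hl
  unfold Ops.kerP
  fun_prop

/-! ### polynomials -/

@[fun_prop] theorem pt_padd (h : PTO O) {l m : ι → List α} (hl : PT l) (hm : PT m) :
    PT fun i => (O i).padd (l i) (m i) := by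
  unfold Ops.padd
  fun_prop

@[fun_prop] theorem pt_pmul (h : PTO O) {l m : ι → List α} (hl : PT l) (hm : PT m) :
    PT fun i => (O i).pmul (l i) (m i) := by
  obtain ⟨b, hb, hb'⟩ := h.bd
  unfold Ops.pmul
  refine PT.foldr (fun i => (b i + 1) * ((l i).length + (m i).length) + 1) (by fun_prop) hl
    (by fun_prop) (by fun_prop) fun i j => ?_
  exact (((hb' i).pmul ((l i).drop j) (m i)).mono (by simp) fun _ h => h).sz_le fun _ h => h

@[fun_prop] theorem pt_prem (h : PTO O) {f l : ι → List α} (hf : PT f) (hl : PT l) :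
    PT fun i => (O i).prem (f i) (l i) := by
  obtain ⟨b, hb, hb'⟩ := h.bd
  unfold Ops.prem
  refine PT.foldr (fun i => (b i + 1) * (f i).length + 1) (by fun_prop) hl
    (by fun_prop) (by fun_prop) fun i j => ?_
  exact ((hb' i).prem (f i) ((l i).drop j)).sz_le fun _ h => h

@[fun_prop] theorem pto_quot (h : PTO O) {f : ι → List α} (hf : PT f) :
    PTO fun i => (O i).quot (f i) := by
  obtain ⟨b, hb, hb'⟩ := h.bd
  refine ⟨?_, ?_, ?_, ?_, ?_, fun i => (b i + 1) * (f i).length + 1, by fun_prop,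
    fun i => (hb' i).quot _⟩ <;> (unfold Ops.quot; fun_prop)

@[fun_prop] theorem pt_polySum (h : PTO O) {l : ι → List (List α)} (hl : PT l) :
    PT fun i => (O i).poly.sum (l i) := pt_msum (ptm_list (ptm_self h)) hl

@[fun_prop] theorem pt_polySub (h : PTO O) {l m : ι → List α} (hl : PT l) (hm : PT m) :
    PT fun i => (O i).poly.sub (l i) (m i) := by
  show PT fun i => (O i).padd (l i) ((m i).map (O i).neg)
  fun_prop

@[fun_prop] theorem pt_polyProd (h : PTO O) {l : ι → List (List α)} (hl : PT l) :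
    PT fun i => (O i).poly.prod (l i) := by
  obtain ⟨b, hb, hb'⟩ := h.bd
  unfold Ops.prod
  refine PT.foldr (f := fun i => (O i).pmul) (fun i => (b i + 1) * (1 + sz (l i)) + 1)
    (by fun_prop) hl (show PT fun i => [(O i).one] by fun_prop) (by fun_prop) fun i j => ?_
  refine (((hb' i).polyProd ((l i).drop j)).mono ?_ fun _ h => h).sz_le fun _ h => h
  have := sum_length_le_sz ((l i).drop j)
  have := sz_drop_le j (l i)
  omega

/-! ### roots -/

theorem pt_rootStep (h : PTO O) {q l j : ι → ℕ} {η x z : ι → α} (hq : PT q) (hl : PT l)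
    (hl' : PB l) (hη : PT η) (hx : PT x) (hz : PT z) (hj : PT j) (hj' : PB j) :
    PT fun i => (O i).rootStep (q i) (l i) (η i) (x i) (z i) (j i) := by
  unfold Ops.rootStep
  fun_prop

@[fun_prop] theorem pt_coPart {q l : ι → ℕ} (hq : PT q) (hl : PT l) :
    PT fun i => Ops.coPart (q i) (l i) := by
  unfold Ops.coPart
  refine PT.foldl_inv (fun i t => t ≤ q i) (fun i => sz (q i)) (by fun_prop) (by fun_prop)
    (by fun_prop) (by fun_prop) (fun _ => Nat.sub_le _ _) (fun i t _ _ ht => ?_)
    fun _ _ h => sz_nat_mono h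
  split_ifs
  · exact (Nat.div_le_self _ _).trans ht
  · exact ht

@[fun_prop] theorem pt_invExp {l t : ι → ℕ} (hl : PT l) (hl' : PB l) (ht : PT t) :
    PT fun i => Ops.invExp (l i) (t i) := by
  unfold Ops.invExp
  fun_prop

@[fun_prop] theorem pt_root (h : PTO O) {q l : ι → ℕ} {η x : ι → α} (hq : PT q) (hl : PT l)
    (hl' : PB l) (hη : PT η) (hx : PT x) : PT fun i => (O i).root (q i) (l i) (η i) (x i) := by
  obtain ⟨b, hb, hb'⟩ := h.bd
  have key : PT fun i => (List.range' 1 (Nat.size (q i))).foldl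
      ((O i).rootStep (q i) (l i) (η i) (x i)) (O i).one := by
    refine (PT.foldl_inv (f := fun i z j => (O i).rootStep (q i) (l i) (η i) (x i) z
      (min j (Nat.size (q i)))) (l := fun i => List.range' 1 (Nat.size (q i)))
      (ini := fun i => (O i).one) (fun i z => sz z ≤ b i) b
      (pt_rootStep (by fun_prop) (by fun_prop) (by fun_prop) (by fun_prop) (by fun_prop)
        (by fun_prop) (by fun_prop) (by fun_prop) (by fun_prop)) (by fun_prop) (by fun_prop) hb
      (fun i => (hb' i).one) (fun i z j _ hz => ?_) fun _ _ h => h).congr fun i => ?_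
    · unfold Ops.rootStep
      split_ifs
      · refine (hb' i).closed.firstNZ _ _ fun y hy => ?_
        obtain ⟨_, -, rfl⟩ := List.mem_map.1 hy
        exact (hb' i).mul _ _
      · exact hz
    · refine List.foldl_ext _ _ _ fun z j hj => ?_
      rw [min_eq_left]
      have := List.mem_range'_1.1 hj
      omega
  unfold Ops.root
  fun_prop

end Crest.Agent.R312
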