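import Crest.Agent.R312.APT1

/-! # Row 312, part A: polynomial time, arithmetic of ideals -/

set_option autoImplicit false
set_option linter.unusedSectionVars false

namespace Crest.Agent.R312

open Crest.Agent.Lib.PT

variable {ι κ α β γ δ : Type} [Enc ι] [Enc κ] [Enc α] [Enc β] [Enc γ] [Enc δ]

/-! ### shapes -/

/-- Elements with at most `L` coordinates of length at most `D`, with coefficients of size `≤ b`. -/
abbrev RBd (L D b : ℕ) (g : Relt α) : Prop := LBd L (LBd D fun x => sz x ≤ b) g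

theorem RBd.sz_le {L D b : ℕ} {g : Relt α} (h : RBd L D b g) :
    sz g ≤ ((b + 1) * D + 1 + 1) * L + 1 :=
  LBd.sz_le h fun _ hx => hx.sz_le fun _ h => h

theorem RBd.mono {L D b L' D' b' : ℕ} {g : Relt α} (h : RBd L D b g) (hL : L ≤ L') (hD : D ≤ D')
    (hb : b ≤ b') : RBd L' D' b' g :=
  LBd.mono h hL fun _ hx => hx.mono hD fun _ h => h.trans hb

theorem RBd.mlen_le {L D b : ℕ} {g : Relt α} (h : RBd L D b g) : mlen g ≤ D :=
  R312.mlen_le fun x hx => (h.2 x hx).1

theorem mlen_flatten_le {L D b : ℕ} {G : Gens α} (h : ∀ g ∈ G, RBd L D b g) :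
    mlen G.flatten ≤ D :=
  mlen_le fun x hx => by
    obtain ⟨g, hg, hx⟩ := List.mem_flatten.1 hx
    exact ((h g hg).2 x hx).1

theorem mlen_le_flatten {β : Type} {G : List (List (List β))} {g : List (List β)} (hg : g ∈ G) :
    mlen g ≤ mlen G.flatten := mlen_le fun _ hx => le_mlen (List.mem_flatten.2 ⟨g, hg, hx⟩)

section Shape

variable {E : Env α} {b : ℕ} (hb : E.O.Bd b)
include hb

theorem closed_RV (L D : ℕ) : E.RV.Closed (RBd L D b) := (hb.closed.list D).list L

theorem rmul_bd (g h : Relt α) : RBd E.l (E.F.length + mlen g + mlen h) b (E.rmul g h) := by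
  refine ⟨by simp [Env.rmul], fun c hc => ?_⟩
  obtain ⟨m, -, rfl⟩ := List.mem_map.1 hc
  refine (hb.closed.list _).sum fun x hx => ?_
  obtain ⟨i, -, rfl⟩ := List.mem_map.1 hx
  split_ifs
  · refine (hb.pmul _ _).mono ?_ fun _ h => h
    have := getD_length_le_mlen g i
    have := getD_length_le_mlen h (m - i)
    omega
  · refine (hb.pmul _ _).mono ?_ fun _ h => h
    have := (hb.pmul (g.getD i []) (h.getD (E.l + m - i) [])).1
    have := getD_length_le_mlen g i
    have := getD_length_le_mlen h (E.l + m - i)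
    omega

theorem rsig_bd (t : ℕ) (g : Relt α) : RBd E.l (mlen g) b (E.rsig t g) := by
  refine ⟨by simp [Env.rsig], fun c hc => ?_⟩
  obtain ⟨m, -, rfl⟩ := List.mem_map.1 hc
  refine ⟨by simpa using getD_length_le_mlen g m, fun x hx => ?_⟩
  obtain ⟨y, -, rfl⟩ := List.mem_map.1 hx
  exact hb.mul _ _

theorem rone_bd : RBd 1 1 b E.rone := by
  refine ⟨by simp [Env.rone], fun c hc => ?_⟩
  obtain rfl : c = [E.O.one] := by simpa [Env.rone] using hc
  exact ⟨by simp, by simpa using hb.one⟩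

theorem rmon_bd (i j : ℕ) : RBd (j + 1) (i + 1) b (E.rmon i j) := by
  refine ⟨by simp [Env.rmon], fun c hc => ?_⟩
  rcases List.mem_append.1 hc with hc | hc
  · rw [List.eq_of_mem_replicate hc]
    exact LBd.nil _ _
  · obtain rfl := List.mem_singleton.1 hc
    refine ⟨by simp, fun x hx => ?_⟩
    rcases List.mem_append.1 hx with hx | hx
    · rw [List.eq_of_mem_replicate hx]
      exact hb.zero
    · rw [List.mem_singleton.1 hx]
      exact hb.one

theorem mons_bd (W : ℕ) : ∀ g ∈ E.mons W, RBd E.l (W + 1) b g := by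
  intro g hg
  obtain ⟨j, hj, hg⟩ := List.mem_flatMap.1 hg
  obtain ⟨i, hi, rfl⟩ := List.mem_map.1 hg
  exact (rmon_bd hb i j).mono (List.mem_range.1 hj)
    (List.mem_range.1 (List.mem_of_mem_filter hi)) le_rfl

theorem compress_bd {L D : ℕ} {H : Gens α} (hH : ∀ g ∈ H, RBd L D b g) :
    LBd (E.l * D) (RBd L D b) (E.compress H) := by
  refine ((closed_RV hb L D).elim E.O E.q _ _ hH).1.mono ?_ fun _ h => h
  rw [List.length_product, List.length_range, List.length_range]
  exact Nat.mul_le_mul_left _ (mlen_flatten_le hH)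

theorem colon_bd {L D : ℕ} (s : Relt α) (G : Gens α) {ms : Gens α} (hm : ∀ g ∈ ms, RBd L D b g) :
    LBd (E.l * D) (RBd L D b) (E.colon s G ms) := by
  refine compress_bd hb fun g hg => ?_
  obtain ⟨x, hx, rfl⟩ := List.mem_map.1 hg
  refine (((closed_RV hb L D).getD 0).kerP E.TV E.O E.q _ _ fun y hy => ?_).2 x hx
  obtain ⟨u, hu, rfl⟩ := List.mem_map.1 hy
  obtain ⟨j, -, hu⟩ := List.mem_flatMap.1 hu
  obtain ⟨g, hg, rfl⟩ := List.mem_map.1 hu
  cases j with
  | zero => exact hm g hg
  | succ j => exact LBd.nil _ _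

theorem mulI_bd (G G' : Gens α) :
    LBd (E.l * (E.F.length + mlen G.flatten + mlen G'.flatten))
      (RBd E.l (E.F.length + mlen G.flatten + mlen G'.flatten) b) (E.mulI G G') := by
  refine compress_bd hb fun g hg => ?_
  obtain ⟨x, hx, hg⟩ := List.mem_flatMap.1 hg
  obtain ⟨y, hy, rfl⟩ := List.mem_map.1 hg
  refine (rmul_bd hb x y).mono le_rfl ?_ le_rfl
  have := mlen_le_flatten hx
  have := mlen_le_flatten hy
  omega

theorem preI_bd (G : Gens α) (i : ℕ) :
    LBd ((E.l + 1) * (1 + i * (E.F.length + mlen G.flatten)))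
      (RBd (E.l + 1) (1 + i * (E.F.length + mlen G.flatten)) b) (E.preI G i) := by
  induction i with
  | zero =>
    refine ⟨by simp [Env.preI], fun g hg => ?_⟩
    obtain rfl : g = E.rone := by simpa [Env.preI] using hg
    exact (rone_bd hb).mono (by omega) (by omega) le_rfl
  | succ i ih =>
    have e : E.preI G (i + 1) = E.mulI (E.preI G i) (G.map (E.rsig i)) := by
      simp [Env.preI, List.range_succ]
    have h1 := mlen_flatten_le ih.2
    have h2 : mlen (G.map (E.rsig i)).flatten ≤ mlen G.flatten :=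
      mlen_flatten_le (L := E.l) (b := b) fun g hg => by
        obtain ⟨x, hx, rfl⟩ := List.mem_map.1 hg
        exact (rsig_bd hb i x).mono le_rfl (mlen_le_flatten hx) le_rfl
    have h3 : E.F.length + mlen (E.preI G i).flatten + mlen (G.map (E.rsig i)).flatten ≤
        1 + (i + 1) * (E.F.length + mlen G.flatten) := by
      rw [add_mul]; omega
    rw [e]
    exact (mulI_bd hb _ _).mono (Nat.mul_le_mul (by omega) h3) fun _ h =>
      RBd.mono h (by omega) h3 le_rfl

theorem ROprod_bd (l : List (Relt α)) :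
    RBd (E.l + 1) (1 + l.length * (E.F.length + mlen l.flatten)) b (E.RO.prod l) := by
  induction l with
  | nil => exact (rone_bd hb).mono (by omega) (by omega) le_rfl
  | cons g l ih =>
    refine (rmul_bd hb g (E.RO.prod l)).mono (by omega) ?_ le_rfl
    have h1 := ih.mlen_le
    have h2 : mlen g ≤ mlen (g :: l).flatten := mlen_le_flatten (by simp)
    have h3 : mlen l.flatten ≤ mlen (g :: l).flatten :=
      mlen_le fun x hx => le_mlen (by simp only [List.flatten_cons, List.mem_append]; exact .inr hx)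
    have h4 := Nat.mul_le_mul_left l.length (Nat.add_le_add_left h3 E.F.length)
    rw [List.length_cons, add_mul]
    omega

theorem neg_bd (G : Gens α) :
    LBd (E.l * (E.gw (E.l * E.N) + 1)) (RBd E.l (E.gw (E.l * E.N) + 1) b) (E.neg G) :=
  colon_bd hb _ _ (mons_bd hb _)

end Shape

/-! ### polynomial time -/

@[fun_prop] theorem pt_unitV {n : ι → ℕ} (hn : PT n) (hb : PB n) : PT fun i => unitV (n i) := by
  unfold unitV
  fun_prop

@[fun_prop] theorem pt_tupB {Ls : ι → List (Gens α)} (hL : PT Ls) :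
    PT fun i => Env.tupB (Ls i) := by
  unfold Env.tupB
  exact pt_flatMap_range (by fun_prop) (by fun_prop) (by fun_prop)

variable {E : ι → Env α}

@[fun_prop] theorem pt_N (h : PTE E) : PT fun i => (E i).N := by
  unfold Env.N
  fun_prop
@[fun_prop] theorem pb_N (h : PTE E) : PB fun i => (E i).N := by
  unfold Env.N
  fun_prop
@[fun_prop] theorem pt_ζ (h : PTE E) : PT fun i => (E i).ζ := by
  unfold Env.ζ
  fun_prop
@[fun_prop] theorem pto_O2 (h : PTE E) : PTO fun i => (E i).O2 := by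
  unfold Env.O2
  fun_prop
@[fun_prop] theorem pto_OX (h : PTE E) : PTO fun i => (E i).OX := by
  unfold Env.OX
  fun_prop
@[fun_prop] theorem ptm_RV (h : PTE E) : PTM fun i => (E i).RV := by
  unfold Env.RV
  fun_prop
@[fun_prop] theorem ptm_TV (h : PTE E) : PTM fun i => (E i).TV := by
  unfold Env.TV
  fun_prop
@[fun_prop] theorem pt_rmul (h : PTE E) {g g' : ι → Relt α} (hg : PT g) (hg' : PT g') :
    PT fun i => (E i).rmul (g i) (g' i) := by
  unfold Env.rmul
  fun_prop
@[fun_prop] theorem pt_rsig (h : PTE E) {t : ι → ℕ} {g : ι → Relt α} (ht : PT t) (hg : PT g) :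
    PT fun i => (E i).rsig (t i) (g i) := by
  unfold Env.rsig
  fun_prop
@[fun_prop] theorem pt_rone (h : PTE E) : PT fun i => (E i).rone := by
  unfold Env.rone
  fun_prop
@[fun_prop] theorem pt_rmon (h : PTE E) {m n : ι → ℕ} (hm : PT m) (hm' : PB m) (hn : PT n)
    (hn' : PB n) : PT fun i => (E i).rmon (m i) (n i) := by
  unfold Env.rmon
  fun_prop
@[fun_prop] theorem pt_ROsub (h : PTE E) {g g' : ι → Relt α} (hg : PT g) (hg' : PT g') :
    PT fun i => (E i).RO.sub (g i) (g' i) := by
  show PT fun i => (E i).RV.add (g i) ((g' i).map (List.map (E i).O.neg))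
  fun_prop
@[fun_prop] theorem pt_ROsum (h : PTE E) {l : ι → List (Relt α)} (hl : PT l) :
    PT fun i => (E i).RO.sum (l i) := pt_msum (ptm_RV h) hl
@[fun_prop] theorem pt_ROprod (h : PTE E) {l : ι → List (Relt α)} (hl : PT l) :
    PT fun i => (E i).RO.prod (l i) := by
  obtain ⟨b, hb, hb'⟩ := h.O.bd
  unfold Ops.prod
  refine PT.foldr (f := fun i => (E i).rmul) (fun i => ((b i + 1) *
      (1 + (l i).length * ((E i).F.length + sz (l i))) + 1 + 1) * ((E i).l + 1) + 1)
    (by fun_prop) hl (pt_rone h) (by fun_prop) fun i j => ?_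
  refine ((ROprod_bd (hb' i) ((l i).drop j)).mono le_rfl ?_ le_rfl).sz_le
  have h1 : mlen ((l i).drop j).flatten ≤ sz (l i) := mlen_le fun x hx => by
    obtain ⟨g, hg, hx⟩ := List.mem_flatten.1 hx
    exact (length_le_sz x).trans ((sz_le_of_mem hx).trans (sz_le_of_mem (List.mem_of_mem_drop hg)))
  exact Nat.add_le_add_left (Nat.mul_le_mul (by simp) (by omega)) _
@[fun_prop] theorem pt_rpow (h : PTE E) {g : ι → Relt α} {n : ι → ℕ} (hg : PT g) (hn : PT n)
    (hn' : PB n) : PT fun i => (E i).rpow (g i) (n i) := by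
  unfold Env.rpow
  fun_prop
@[fun_prop] theorem pt_nzR (h : PTE E) {g : ι → Relt α} (hg : PT g) :
    PT fun i => (E i).nzR (g i) := by
  unfold Env.nzR
  fun_prop
@[fun_prop] theorem pt_nzT (h : PTE E) {x : ι → Gens α} (hx : PT x) :
    PT fun i => (E i).nzT (x i) := by
  unfold Env.nzT
  fun_prop
@[fun_prop] theorem pt_nzK (h : PTE E) {K : ι → List (Gens α)} (hK : PT K) :
    PT fun i => (E i).nzK (K i) := by
  unfold Env.nzK
  fun_prop
@[fun_prop] theorem pt_wt (h : PTE E) {G : ι → Gens α} (hG : PT G) :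
    PT fun i => (E i).wt (G i) := by
  unfold Env.wt
  fun_prop
@[fun_prop] theorem pb_wt (h : PTE E) {G : ι → Gens α} (hG : PT G) :
    PB fun i => (E i).wt (G i) := by
  unfold Env.wt
  fun_prop
@[fun_prop] theorem pt_gw (h : PTE E) {W : ι → ℕ} (hW : PT W) : PT fun i => (E i).gw (W i) := by
  unfold Env.gw
  fun_prop
@[fun_prop] theorem pb_gw (h : PTE E) {W : ι → ℕ} (hW : PB W) : PB fun i => (E i).gw (W i) := by
  unfold Env.gw
  fun_prop
@[fun_prop] theorem pt_mons (h : PTE E) {W : ι → ℕ} (hW : PT W) (hW' : PB W) :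
    PT fun i => (E i).mons (W i) := by
  unfold Env.mons
  refine pt_flatMap_range (by fun_prop) (by fun_prop) (pt_map_le (fun x => W x.1) (by fun_prop)
    (fun x y hy => ?_) (by fun_prop))
  have := List.mem_range.1 (List.mem_of_mem_filter hy)
  omega
@[fun_prop] theorem pt_pmons (h : PTE E) {D : ι → ℕ} (hD : PT D) (hD' : PB D) :
    PT fun i => (E i).pmons (D i) := by
  unfold Env.pmons
  exact pt_map_range (by fun_prop) (by fun_prop) (by fun_prop)
@[fun_prop] theorem pt_fn3 (h : PTE E) {j : ι → ℕ × ℕ × ℕ} {x : ι → Gens α} (hj : PT j)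
    (hx : PT x) : PT fun i => (E i).fn3 (j i) (x i) := by
  unfold Env.fn3
  fun_prop
@[fun_prop] theorem pt_idx3 (h : PTE E) {cs : ι → List (Gens α)} (hc : PT cs) :
    PT fun i => (E i).idx3 (cs i) := by
  unfold Env.idx3
  fun_prop
@[fun_prop] theorem pt_kerT (h : PTE E) {us : ι → List (Gens α)} {T : ι → Gens α → Gens α}
    (hu : PT us) (hT : PT fun x : ι × Gens α => T x.1 x.2) :
    PT fun i => (E i).kerT (us i) (T i) := by
  have h1 := hu.map hT
  have h2 := hu.map (g := fun i u => (u, T i u)) (PT.pair (by fun_prop) hT)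
  unfold Env.kerT
  exact pt_kerP h.O (ptm_TV h) (ptm_TV h) h.q (by fun_prop) (pt_idx3 h h1) h2
@[fun_prop] theorem pt_colonT (h : PTE E) {s : ι → Relt α} {G ms : ι → Gens α} (hs : PT s)
    (hG : PT G) (hm : PT ms) : PT fun i => (E i).colonT (s i) (G i) (ms i) := by
  unfold Env.colonT
  fun_prop
@[fun_prop] theorem pt_compress (h : PTE E) {H : ι → Gens α} (hH : PT H) :
    PT fun i => (E i).compress (H i) := by
  unfold Env.compress
  fun_prop
@[fun_prop] theorem pt_colon (h : PTE E) {s : ι → Relt α} {G ms : ι → Gens α} (hs : PT s)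
    (hG : PT G) (hm : PT ms) : PT fun i => (E i).colon (s i) (G i) (ms i) := by
  unfold Env.colon
  fun_prop
@[fun_prop] theorem pt_mulI (h : PTE E) {G G' : ι → Gens α} (hG : PT G) (hG' : PT G') :
    PT fun i => (E i).mulI (G i) (G' i) := by
  unfold Env.mulI
  fun_prop
@[fun_prop] theorem pt_preI (h : PTE E) {G : ι → Gens α} {n : ι → ℕ} (hG : PT G) (hn : PT n)
    (hn' : PB n) : PT fun i => (E i).preI (G i) (n i) := by
  obtain ⟨b, hb, hb'⟩ := h.O.bd
  unfold Env.preI
  refine PT.foldl (fun i => (((b i + 1) * (1 + n i * ((E i).F.length + mlen (G i).flatten)) + 1 + 1) *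
      ((E i).l + 1) + 1 + 1) * (((E i).l + 1) * (1 + n i * ((E i).F.length + mlen (G i).flatten))) + 1)
    (by fun_prop) (by fun_prop) (by fun_prop) (by fun_prop) fun i j => ?_
  rw [List.take_range]
  have h1 : 1 + min j (n i) * ((E i).F.length + mlen (G i).flatten) ≤
      1 + n i * ((E i).F.length + mlen (G i).flatten) :=
    Nat.add_le_add_left (Nat.mul_le_mul_right _ (min_le_right _ _)) _
  exact ((preI_bd (hb' i) (G i) (min j (n i))).mono (Nat.mul_le_mul_left _ h1)
    fun _ h => RBd.mono h le_rfl h1 le_rfl).sz_le fun _ h => RBd.sz_le h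
@[fun_prop] theorem pt_s0 (h : PTE E) {G : ι → Gens α} (hG : PT G) :
    PT fun i => (E i).s0 (G i) := by
  unfold Env.s0
  fun_prop
@[fun_prop] theorem pt_cinv (h : PTE E) {G : ι → Gens α} (hG : PT G) :
    PT fun i => (E i).cinv (G i) := by
  unfold Env.cinv
  fun_prop
@[fun_prop] theorem pt_psi (h : PTE E) {G : ι → Gens α} (hG : PT G) :
    PT fun i => (E i).psi (G i) := by
  unfold Env.psi
  refine PT.getD (by fun_prop) (pt_s0 h (pt_flatMap_range (by fun_prop) (by fun_prop) ?_))
    (by fun_prop)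
  fun_prop
@[fun_prop] theorem pt_small (h : PTE E) {G : ι → Gens α} (hG : PT G) :
    PT fun i => (E i).small (G i) := by
  unfold Env.small
  refine pt_s0 h (pt_flatMap_range (by fun_prop) (by fun_prop) ?_)
  fun_prop
@[fun_prop] theorem pt_negI (h : PTE E) {G : ι → Gens α} (hG : PT G) :
    PT fun i => (E i).neg (G i) := by
  unfold Env.neg
  fun_prop
@[fun_prop] theorem pt_wgen (h : PTE E) {G : ι → Gens α} (hG : PT G) :
    PT fun i => (E i).wgen (G i) := by
  obtain ⟨b, hb, hb'⟩ := h.O.bd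
  unfold Env.wgen
  refine PT.fst (PT.foldl_inv (fun i (st : Relt α × List α) =>
      RBd (E i).l ((E i).F.length + (E i).N + mlen (G i).flatten) (b i) st.1 ∧
        sz st.2 ≤ (b i + 1) * (E i).N + 1)
    (fun i => ((b i + 1) * ((E i).F.length + (E i).N + mlen (G i).flatten) + 1 + 1) * (E i).l + 1 +
      ((b i + 1) * (E i).N + 1) + 1) (by fun_prop) (by fun_prop) (by fun_prop) (by fun_prop)
    (fun i => ⟨LBd.nil _ _, by simp⟩) (fun i st p hp hst => ⟨?_, ((hb' i).quot _).add _ _⟩)
    fun i st hst => ?_)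
  · refine (closed_RV (hb' i) _ _).add _ _ hst.1 ((rmul_bd (hb' i) _ _).mono le_rfl ?_ le_rfl)
    obtain ⟨x, -, hp⟩ := List.mem_flatMap.1 hp
    obtain ⟨u, hu, rfl⟩ := List.mem_map.1 hp
    have h1 : mlen ((G i).getD u []) ≤ mlen (G i).flatten := by
      rw [List.getD_eq_getElem _ _ (List.mem_range.1 hu)]
      exact mlen_le_flatten (List.getElem_mem _)
    refine Nat.add_le_add (Nat.add_le_add_left (mlen_le fun y hy => ?_) _) h1
    rw [List.mem_singleton.1 hy]
    exact ((hb' i).prem _ _).1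
  · have := hst.1.sz_le
    have := hst.2
    rw [sz_prod]
    omega
@[fun_prop] theorem pt_cneg (h : PTE E) {G : ι → Gens α} (hG : PT G) :
    PT fun i => (E i).cneg (G i) := by
  unfold Env.cneg
  fun_prop
@[fun_prop] theorem pt_nrm (h : PTE E) {G : ι → Gens α} (hG : PT G) :
    PT fun i => (E i).nrm (G i) := by
  unfold Env.nrm
  fun_prop
/-- Normal forms have bounded size. -/
theorem nrm_bd (h : PTE E) : ∃ B : ι → ℕ, PB B ∧ ∀ i G, sz ((E i).nrm G) ≤ B i := by
  obtain ⟨b, hb, hb'⟩ := h.O.bd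
  obtain ⟨B, hB, hB'⟩ := exists_pb_of_pt (g := fun i (G : Gens α) => (E i).cneg G) (by fun_prop)
    (b := fun i => (((b i + 1) * ((E i).gw ((E i).l * (E i).N) + 1) + 1 + 1) * (E i).l + 1 + 1) *
      ((E i).l * ((E i).gw ((E i).l * (E i).N) + 1)) + 1) (by fun_prop)
  exact ⟨B, hB, fun i G => hB' i _ ((neg_bd (hb' i) G).sz_le fun _ h => RBd.sz_le h)⟩
@[fun_prop] theorem pt_addI (h : PTE E) {G G' : ι → Gens α} (hG : PT G) (hG' : PT G') :
    PT fun i => (E i).addI (G i) (G' i) := by
  unfold Env.addI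
  fun_prop
@[fun_prop] theorem pt_comb (h : PTE E) {G : ι → Gens α} {c : ι → List ℕ}
    {Gs : ι → List (Gens α)} (hG : PT G) (hc : PT c) (hGs : PT Gs) :
    PT fun i => (E i).comb (G i) (c i) (Gs i) := by
  obtain ⟨B, hB, hB'⟩ := nrm_bd h
  unfold Env.comb
  refine pt_foldl_bd (f := fun i => (E i).addI) (by fun_prop) (PT.flatMap (by fun_prop) ?_) hG hB
    fun i acc x _ => hB' i _
  exact PT.replicate (by fun_prop) (pb_mod (by fun_prop) fun x => h.pos x.1) (by fun_prop)
@[fun_prop] theorem pt_ob (h : PTE E) {G : ι → Gens α} (hG : PT G) :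
    PT fun i => (E i).ob (G i) := by
  unfold Env.ob
  fun_prop

end Crest.Agent.R312
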