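import Crest.Agent.R312.APT2

/-! # Row 312, part A: polynomial time, division and chains -/

set_option autoImplicit false
set_option linter.unusedSectionVars false

namespace Crest.Agent.R312

open Crest.Agent.Lib.PT

variable {ι κ α β γ δ : Type} [Enc ι] [Enc κ] [Enc α] [Enc β] [Enc γ] [Enc δ]

@[fun_prop] theorem pt_rel {l nc : ι → ℕ} {obs : ι → List (List ℕ)} (hl : PT l) (hn : PT nc)
    (hn' : PB nc) (ho : PT obs) : PT fun i => rel (l i) (nc i) (obs i) := by
  have : PT fun i => (List.range (obs i).length).map fun j => (unitV j, (obs i).getD j []) :=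
    pt_map_range (by fun_prop) (by fun_prop) (by fun_prop)
  unfold rel
  fun_prop

theorem rel_length_le {l nc : ℕ} {obs : List (List ℕ)} :
    ((rel l nc obs).getD []).length ≤ obs.length := by
  cases h : rel l nc obs with
  | none => simp
  | some c =>
    obtain ⟨x, -, rfl⟩ := List.mem_map.1 (List.mem_of_find?_eq_some h)
    simp

@[fun_prop] theorem pt_lin {l nc : ι → ℕ} {c : ι → List ℕ} {ws : ι → List (List ℕ)} (hl : PT l)
    (hn : PT nc) (hn' : PB nc) (hc : PT c) (hw : PT ws) :
    PT fun i => lin (l i) (nc i) (c i) (ws i) := by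
  unfold lin
  fun_prop

theorem lin_bd {l : ℕ} (hl : 0 < l) (nc : ℕ) (c : List ℕ) (ws : List (List ℕ)) :
    sz (lin l nc c ws) ≤ (sz l + 1) * nc + 1 := by
  refine LBd.sz_le (S := fun x => sz x ≤ sz l) ⟨by simp [lin], fun x hx => ?_⟩ fun _ h => h
  obtain ⟨_, -, rfl⟩ := List.mem_map.1 hx
  exact sz_nat_mono (Nat.mod_lt _ hl).le

@[fun_prop] theorem pt_coefS {es : ι → List ℕ} {tbl : ι → List (List ℕ)} {s : ι → ℕ} (he : PT es)
    (ht : PT tbl) (hs : PT s) : PT fun i => Env.coefS (es i) (tbl i) (s i) := by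
  unfold Env.coefS
  fun_prop

theorem foldr_max_le {l : List ℕ} {D : ℕ} (h : ∀ x ∈ l, x ≤ D) : l.foldr max 0 ≤ D := by
  induction l with
  | nil => exact Nat.zero_le _
  | cons y l ih => exact max_le (h y (by simp)) (ih fun x hx => h x (by simp [hx]))

variable {E : ι → Env α}

@[fun_prop] theorem pt_bad (h : PTE E) {x : ι → α} (hx : PT x) : PT fun i => (E i).bad (x i) := by
  unfold Env.bad
  fun_prop
@[fun_prop] theorem pt_guard (h : PTE E) {xs : ι → List α} {r : ι → Exc α ⊕ β} (hx : PT xs)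
    (hr : PT r) : PT fun i => (E i).guard (xs i) (r i) := by
  unfold Env.guard
  exact PT.optionElim (by fun_prop) hr (by fun_prop)
@[fun_prop] theorem pt_degB (h : PTE E) {p : ι → List α} (hp : PT p) :
    PT fun i => (E i).degB (p i) := by
  unfold Env.degB
  fun_prop
@[fun_prop] theorem pb_degB (E : ι → Env α) {p : ι → List α} (hp : PT p) :
    PB fun i => (E i).degB (p i) :=
  (PB.length hp).of_le fun _ => foldr_max_le fun _ hx =>
    (List.mem_range.1 (List.mem_of_mem_filter hx)).le
@[fun_prop] theorem pt_locT (h : PTE E) {b : ι → List α} {x : ι → Gens α} (hb : PT b)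
    (hx : PT x) : PT fun i => (E i).locT (b i) (x i) := by
  unfold Env.locT
  fun_prop
@[fun_prop] theorem pt_W0 (h : PTE E) : PT fun i => (E i).W0 := by
  unfold Env.W0
  fun_prop
@[fun_prop] theorem pb_W0 (h : PTE E) : PB fun i => (E i).W0 := by
  unfold Env.W0
  fun_prop
@[fun_prop] theorem pt_rho (h : PTE E) {G : ι → Gens α} {ψ b : ι → List α} {d : ι → ℕ}
    (hG : PT G) (hψ : PT ψ) (hd : PT d) (hd' : PB d) (hb : PT b) :
    PT fun i => (E i).rho (G i) (ψ i) (d i) (b i) := by
  have : PT fun i => (List.range (E i).l).map fun j => (E i).colon [ψ i]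
      (((E i).preI (G i) ((E i).l - j)).map ((E i).rsig j)) ((E i).mons ((E i).W0 + j * d i)) :=
    pt_map_range (by fun_prop) (by fun_prop) (by fun_prop)
  unfold Env.rho
  fun_prop
@[fun_prop] theorem pt_vmat (h : PTE E) {ψ : ι → List α} {c : ι → α} {ρ : ι → Gens α}
    (hψ : PT ψ) (hc : PT c) (hρ : PT ρ) : PT fun i => (E i).vmat (ψ i) (c i) (ρ i) := by
  unfold Env.vmat
  fun_prop
@[fun_prop] theorem pt_relD (h : PTE E) {W : ι → ℕ} (hW : PT W) :
    PT fun i => (E i).relD (W i) := by
  unfold Env.relD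
  fun_prop
@[fun_prop] theorem pb_relD (h : PTE E) {W : ι → ℕ} (hW : PB W) :
    PB fun i => (E i).relD (W i) := by
  unfold Env.relD
  fun_prop
@[fun_prop] theorem pt_relK (h : PTE E) {v : ι → List (Gens α)} {r : ι → ℕ} (hv : PT v)
    (hr : PT r) (hr' : PB r) : PT fun i => (E i).relK (v i) (r i) := by
  unfold Env.relK
  fun_prop
@[fun_prop] theorem pt_h90 (h : PTE E) {G : ι → Gens α} {g g' : ι → Relt α} (hG : PT G)
    (hg : PT g) (hg' : PT g') : PT fun i => (E i).h90 (G i) (g i) (g' i) := by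
  unfold Env.h90
  exact pt_flatMap_range (by fun_prop) (by fun_prop) (by fun_prop)
@[fun_prop] theorem pt_invL (h : PTE E) {r : ι → ℕ} (hr : PT r) :
    PT fun i => (E i).invL (r i) := by
  unfold Env.invL
  fun_prop
@[fun_prop] theorem pb_invL (h : PTE E) (r : ι → ℕ) : PB fun i => (E i).invL (r i) :=
  pb_find?_range h.pbl _ 0
@[fun_prop] theorem pt_rk (h : PTE E) {v : ι → List (Gens α)} (hv : PT v) :
    PT fun i => (E i).rk (v i) := by
  unfold Env.rk
  exact PT.optionGetD (pt_find?_range (by fun_prop) (by fun_prop) (by fun_prop)) (by fun_prop)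
@[fun_prop] theorem pb_rk (h : PTE E) (v : ι → List (Gens α)) : PB fun i => (E i).rk (v i) :=
  pb_find?_range h.pbl _ 0
@[fun_prop] theorem pt_div2 (h : PTE E) {G : ι → Gens α} {ψ : ι → List α}
    {v : ι → List (Gens α)} {r : ι → ℕ} (hG : PT G) (hψ : PT ψ) (hv : PT v) (hr : PT r)
    (hr' : PB r) : PT fun i => (E i).div2 (G i) (ψ i) (v i) (r i) := by
  unfold Env.div2
  fun_prop
@[fun_prop] theorem pt_beta (h : PTE E) {ψ : ι → List α} {c : ι → α} (hψ : PT ψ) (hc : PT c) :
    PT fun i => (E i).beta (ψ i) (c i) := by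
  unfold Env.beta
  fun_prop
@[fun_prop] theorem pt_div1 (h : PTE E) {G : ι → Gens α} {j : ι → ℕ} (hG : PT G) (hj : PT j) :
    PT fun i => (E i).div1 (G i) (j i) := by
  unfold Env.div1
  fun_prop
@[fun_prop] theorem pt_divI (h : PTE E) {G : ι → Gens α} {j : ι → ℕ} (hG : PT G) (hj : PT j) :
    PT fun i => (E i).divI (G i) (j i) := by
  have : PT fun i => (List.range (E i).l).map fun r =>
      (E i).nzK ((E i).relK ((E i).div1 (G i) (j i)) r) :=
    pt_map_range (by fun_prop) (by fun_prop) (by fun_prop)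
  unfold Env.divI
  fun_prop
@[fun_prop] theorem pt_e2 (h : PTE E) {ω ε : ι → List α} {j : ι → ℕ} (hω : PT ω) (hε : PT ε)
    (hj : PT j) : PT fun i => (E i).e2 (ω i) (ε i) (j i) := by
  unfold Env.e2
  fun_prop
@[fun_prop] theorem pt_refine (h : PTE E) {ω : ι → List α} {cells : ι → List (List α)} (hω : PT ω)
    (hc : PT cells) : PT fun i => (E i).refine (ω i) (cells i) := by
  unfold Env.refine
  fun_prop
@[fun_prop] theorem pt_readW (h : PTE E) {ω : ι → List α} {cells : ι → List (List α)}
    (hc : PT cells) (hω : PT ω) : PT fun i => (E i).readW (cells i) (ω i) := by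
  unfold Env.readW
  fun_prop
@[fun_prop] theorem pt_readOb (h : PTE E) {G : ι → Gens α} {cells : ι → List (List α)}
    (hc : PT cells) (hG : PT G) : PT fun i => (E i).readOb (cells i) (G i) := by
  unfold Env.readOb
  fun_prop
@[fun_prop] theorem pt_divC (h : PTE E) {G : ι → Gens α} {cells : ι → List (List α)}
    (hc : PT cells) (hG : PT G) : PT fun i => (E i).divC (cells i) (G i) := by
  unfold Env.divC
  fun_prop

theorem divC_eq_inr {α : Type} {E : Env α} {cells : List (List α)} {G G' : Gens α}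
    (h : E.divC cells G = Sum.inr G') : ∃ H, G' = E.nrm H := by
  obtain ⟨js, -, h⟩ := bindS_eq_inr h
  exact ⟨_, (Sum.inr.inj (guard_eq_inr (guard_eq_inr h))).symm⟩

@[fun_prop] theorem pt_emax (h : PTE E) {tops : ι → List (Top α)} {c : ι → List ℕ}
    (ht : PT tops) (hc : PT c) : PT fun i => (E i).emax (tops i) (c i) := by
  unfold Env.emax
  fun_prop
@[fun_prop] theorem pt_imax (h : PTE E) {tops : ι → List (Top α)} {c : ι → List ℕ}
    (ht : PT tops) (hc : PT c) : PT fun i => (E i).imax (tops i) (c i) := by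
  unfold Env.imax
  fun_prop
@[fun_prop] theorem pt_newW (h : PTE E) {nc : ι → ℕ} {tops : ι → List (Top α)} {c : ι → List ℕ}
    (hn : PT nc) (hn' : PB nc) (ht : PT tops) (hc : PT c) :
    PT fun i => (E i).newW (nc i) (tops i) (c i) := by
  unfold Env.newW
  fun_prop
@[fun_prop] theorem pt_stepT (h : PTE E) {cells : ι → List (List α)} {tops : ι → List (Top α)}
    (hc : PT cells) (ht : PT tops) : PT fun i => (E i).stepT (cells i) (tops i) := by
  unfold Env.stepT
  fun_prop
@[fun_prop] theorem pt_relQ (h : PTE E) {nc : ι → ℕ} {oq : ι → List ℕ} {obs : ι → List (List ℕ)}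
    (hn : PT nc) (hn' : PB nc) (hq : PT oq) (ho : PT obs) :
    PT fun i => (E i).relQ (nc i) (oq i) (obs i) := by
  unfold Env.relQ
  fun_prop
@[fun_prop] theorem pt_stepQ (h : PTE E) {cells : ι → List (List α)} {Gs : ι → List (Gens α)}
    {obs : ι → List (List ℕ)} {st : ι → Gens α × List (List ℕ)} (hc : PT cells) (hG : PT Gs)
    (ho : PT obs) (hs : PT st) : PT fun i => (E i).stepQ (cells i) (Gs i) (obs i) (st i) := by
  unfold Env.stepQ
  fun_prop
@[fun_prop] theorem pt_B (h : PTE E) : PT fun i => (E i).B := by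
  unfold Env.B
  fun_prop
@[fun_prop] theorem pb_B (h : PTE E) : PB fun i => (E i).B := by
  unfold Env.B
  fun_prop
@[fun_prop] theorem pt_tors (h : PTE E) {ε : ι → List α} (hε : PT ε) :
    PT fun i => (E i).tors (ε i) := by
  unfold Env.tors
  fun_prop
@[fun_prop] theorem pt_initT (h : PTE E) {cells : ι → List (List α)} (hc : PT cells) :
    PT fun i => (E i).initT (cells i) := by
  unfold Env.initT
  exact pt_map_range (by fun_prop) (by fun_prop) (by fun_prop)
@[fun_prop] theorem pt_QG (h : PTE E) : PT fun i => (E i).QG := by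
  unfold Env.QG
  fun_prop
@[fun_prop] theorem pt_mOrd (h : PTE E) {es : ι → List ℕ} {tbl : ι → List (List ℕ)} (he : PT es)
    (ht : PT tbl) : PT fun i => (E i).mOrd (es i) (tbl i) := by
  unfold Env.mOrd
  fun_prop
@[fun_prop] theorem pt_omega0 (h : PTE E) {cells : ι → List (List α)} {wv : ι → List ℕ}
    {m : ι → ℕ} (hc : PT cells) (hw : PT wv) (hm : PT m) :
    PT fun i => (E i).omega0 (cells i) (wv i) (m i) := by
  have h1 : PT fun i => ((List.range (cells i).length).map fun Z' =>
      (wv i).getD Z' 0 * (E i).degB ((E i).psi ((E i).tors ((cells i).getD Z' [])))).sum := by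
    have h2 : PTE fun x : ι × ℕ => E x.1 := by fun_prop
    exact PT.natSum (PT.map (by fun_prop) (PT.mul (by fun_prop)
      (pt_degB h2 (pt_psi h2 (pt_tors h2 (by fun_prop))))))
  unfold Env.omega0
  refine pt_sum (pto_O2 h) (PT.map (by fun_prop) (pt_mul (by fun_prop) (PT.cons (pt_pow
    (by fun_prop) (by fun_prop) (PT.add (PT.add (by fun_prop) (h1.comp PT.id.fst))
      (by fun_prop))) (by fun_prop)) (by fun_prop)))
@[fun_prop] theorem pt_fin0 (h : PTE E) {cells : ι → List (List α)} {tops : ι → List (Top α)}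
    {tbl : ι → List (List ℕ)} (hc : PT cells) (ht : PT tops) (ht' : PT tbl) :
    PT fun i => (E i).fin0 (cells i) (tops i) (tbl i) := by
  unfold Env.fin0
  fun_prop

theorem pt_chains (h : PTE E) {cells : ι → List (List α)} (hc : PT cells) :
    PT fun i => iterS ((E i).stepT (cells i)) ((cells i).length * (E i).B)
      ((E i).initT (cells i)) := by
  obtain ⟨B, hB, hB'⟩ := nrm_bd h
  have hI := pt_initT h hc
  refine pt_iterS (fun i j tops => LBd (cells i).length (fun t : Top α =>
      sz t.1 ≤ B i ∧ t.2.1 ≤ j ∧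
        sz t.2.2 ≤ sz ((E i).initT (cells i)) + ((sz (E i).l + 1) * (cells i).length + 1)) tops)
    (b := fun i => (B i + (sz ((cells i).length * (E i).B) + (sz ((E i).initT (cells i)) +
      ((sz (E i).l + 1) * (cells i).length + 1)) + 1) + 1 + 1) * (cells i).length + 1)
    (by fun_prop) (by fun_prop) (by fun_prop) hI (by fun_prop) (fun i => ⟨?_, fun t ht => ?_⟩)
    (fun i j y y' hy hs => ?_) fun i j y hj hy => hy.sz_le fun t ht => ?_
  · simp [Env.initT]
  · have h1 := (sz_snd_le t.2).trans ((sz_snd_le t).trans (sz_le_of_mem ht))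
    obtain ⟨_, -, rfl⟩ := List.mem_map.1 ht
    exact ⟨hB' i _, le_rfl, h1.trans (Nat.le_add_right _ _)⟩
  · obtain ⟨obs, -, hs⟩ := bindS_eq_inr hs
    cases hr : rel (E i).l (cells i).length obs with
    | none =>
      rw [hr] at hs
      obtain rfl := Sum.inr.inj hs
      exact hy.mono le_rfl fun t ht => ⟨ht.1, ht.2.1.trans (Nat.le_succ _), ht.2.2⟩
    | some c =>
      rw [hr] at hs
      obtain ⟨G', hG', hs⟩ := bindS_eq_inr hs
      obtain rfl := Sum.inr.inj hs
      obtain ⟨H, rfl⟩ := divC_eq_inr hG'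
      refine ⟨by simpa using hy.1, fun t ht => ?_⟩
      rcases List.mem_or_eq_of_mem_set ht with ht | rfl
      · exact ⟨(hy.2 t ht).1, (hy.2 t ht).2.1.trans (Nat.le_succ _), (hy.2 t ht).2.2⟩
      · refine ⟨hB' i _, Nat.succ_le_succ (foldr_max_le fun x hx => ?_),
          (lin_bd (h.pos i) _ _ _).trans (Nat.le_add_left _ _)⟩
        obtain ⟨u, hu, rfl⟩ := List.mem_map.1 hx
        rw [List.getD_eq_getElem _ _ (List.mem_range.1 (List.mem_of_mem_filter hu))]
        exact (hy.2 _ (List.getElem_mem _)).2.1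
  · have h1 := sz_nat_mono (ht.2.1.trans hj)
    have := ht.1
    have := ht.2.2
    rw [sz_prod, sz_prod]
    omega

theorem pt_qphase (h : PTE E) {cells : ι → List (List α)} {Gs : ι → List (Gens α)}
    {obs : ι → List (List ℕ)} (hc : PT cells) (hG : PT Gs) (ho : PT obs) :
    PT fun i => iterS ((E i).stepQ (cells i) (Gs i) (obs i)) (E i).B ((E i).QG, []) := by
  obtain ⟨B, hB, hB'⟩ := nrm_bd h
  refine pt_iterS (fun i j st => sz st.1 ≤ B i + sz (E i).QG ∧
      LBd j (LBd (obs i).length fun x => sz x ≤ sz (E i).l) st.2)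
    (b := fun i => B i + sz (E i).QG +
      (((sz (E i).l + 1) * (obs i).length + 1 + 1) * (E i).B + 1) + 1)
    (by fun_prop) (by fun_prop) (by fun_prop) (by fun_prop) (by fun_prop)
    (fun i => ⟨Nat.le_add_left _ _, LBd.nil _ _⟩) (fun i j y y' hy hs => ?_)
    fun i j y hj hy => ?_
  · obtain ⟨oq, -, hs⟩ := bindS_eq_inr hs
    obtain ⟨G', hG', hs⟩ := bindS_eq_inr hs
    obtain rfl := Sum.inr.inj hs
    obtain ⟨H, rfl⟩ := divC_eq_inr hG'
    refine ⟨(hB' i _).trans (Nat.le_add_right _ _), by simpa using hy.2.1, fun x hx => ?_⟩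
    rcases List.mem_append.1 hx with hx | hx
    · exact hy.2.2 x hx
    · rw [List.mem_singleton.1 hx]
      refine ⟨?_, fun z hz => ?_⟩
      · have := rel_length_le (l := (E i).l) (nc := (cells i).length) (obs := oq :: obs i)
        simp only [Env.relQ, List.length_map, List.length_tail, List.length_cons] at this ⊢
        omega
      · obtain ⟨_, -, rfl⟩ := List.mem_map.1 hz
        exact sz_nat_mono (Nat.mod_lt _ (h.pos i)).le
  · have := (hy.2.mono hj fun _ h => h).sz_le fun _ h => h.sz_le fun _ h => h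
    have := hy.1
    rw [sz_prod]
    omega

@[fun_prop] theorem pt_core (h : PTE E) {cells : ι → List (List α)} (hc : PT cells) :
    PT fun i => (E i).core (cells i) := by
  unfold Env.core
  refine pt_bindS (pt_chains h hc) (pt_bindS (by fun_prop) (pt_bindS ?_ (by fun_prop)))
  exact pt_qphase (by fun_prop) (by fun_prop) (by fun_prop) (by fun_prop)
@[fun_prop] theorem pt_omega (h : PTE E) {Ω : ι → List α} (hΩ : PT Ω) :
    PT fun i => (E i).omega (Ω i) := by
  unfold Env.omega
  fun_prop
@[fun_prop] theorem pt_resv (h : PTE E) {Ω : ι → List α} (hΩ : PT Ω) :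
    PT fun i => (E i).resv (Ω i) := by
  unfold Env.resv
  fun_prop
@[fun_prop] theorem pt_cands (h : PTE E) {Ω : ι → List α} (hΩ : PT Ω) :
    PT fun i => (E i).cands (Ω i) := by
  unfold Env.cands
  fun_prop
@[fun_prop] theorem pt_attempt (h : PTE E) {cells : ι → List (List α)} (hc : PT cells) :
    PT fun i => (E i).attempt (cells i) := by
  unfold Env.attempt
  exact PT.sumElim (by fun_prop) (by fun_prop) (by fun_prop)
@[fun_prop] theorem pt_run (h : PTE E) : PT fun i => (E i).run := by
  obtain ⟨b, hb, hb'⟩ := (pto_O2 h).bd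
  obtain ⟨B, hB, hB'⟩ := exists_pb_of_pt (g := fun i (c : List (List α)) => (E i).attempt c)
    (by fun_prop) (b := fun i => (b i + 1) * (E i).N + 1) (by fun_prop)
  unfold Env.run
  refine PT.sumElim (PT.iterate_inv (fun i st => sz st ≤ B i + sz (Sum.inr [(E i).O2.one] : Exc α))
    (fun i => B i + sz (Sum.inr [(E i).O2.one] : Exc α))
    (PT.sumElim (by fun_prop) (by fun_prop) (by fun_prop)) (by fun_prop) (by fun_prop)
    (by fun_prop) (by fun_prop) (fun _ => Nat.le_add_left _ _) (fun i st hst => ?_) fun _ _ h => h)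
    (by fun_prop) (by fun_prop)
  cases st with
  | inl x => exact hst
  | inr cells =>
    refine (hB' i _ (LBd.sz_le (S := fun x => sz x ≤ b i) ⟨by simp, fun x hx => ?_⟩
      fun _ h => h)).trans (Nat.le_add_right _ _)
    obtain ⟨_, -, rfl⟩ := List.mem_map.1 hx
    exact (hb' i).mul _ _

end Crest.Agent.R312
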