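import Crest.Agent.R312.APT3

/-! # Row 312, part A: polynomial time, the top level -/

set_option autoImplicit false
set_option linter.unusedSectionVars false

namespace Crest.Agent.R312

open Crest.Agent.Lib.PT

variable {ι κ α β γ δ : Type} [Enc ι] [Enc κ] [Enc α] [Enc β] [Enc γ] [Enc δ]
variable {p : ι → ℕ}

@[fun_prop] theorem pt_isZ0 {x : ι → ℕ} (hp : PT p) (hx : PT x) :
    PT fun i => isZ0 (p i) (x i) := by
  unfold isZ0
  fun_prop
@[fun_prop] theorem pt_isZq {O : ι → Ops α} {isZ : ι → α → Bool} {f x : ι → List α} (hO : PTO O)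
    (hZ : PT fun y : ι × α => isZ y.1 y.2) (hf : PT f) (hx : PT x) :
    PT fun i => isZq (O i) (isZ i) (f i) (x i) := by
  unfold isZq
  exact PT.all (by fun_prop) hZ
@[fun_prop] theorem pt_isZp {v : ι → List ℕ} (hp : PT p) (hv : PT v) :
    PT fun i => isZp (p i) (v i) := by
  unfold isZp
  fun_prop
@[fun_prop] theorem pt_degp {v : ι → List ℕ} (hp : PT p) (hv : PT v) :
    PT fun i => degp (p i) (v i) := by
  unfold degp
  fun_prop
theorem degp_le (p : ℕ) (v : List ℕ) : degp p v ≤ v.length :=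
  foldr_max_le fun _ hx => (List.mem_range.1 (List.mem_of_mem_filter hx)).le
@[fun_prop] theorem pb_degp (p : ι → ℕ) {v : ι → List ℕ} (hv : PT v) :
    PB fun i => degp (p i) (v i) := (PB.length hv).of_le fun _ => degp_le _ _
@[fun_prop] theorem pt_mon {v : ι → List ℕ} (hp : PT p) (hv : PT v) :
    PT fun i => mon (p i) (v i) := by
  unfold mon
  fun_prop
theorem mon_bd (p : ℕ) (v : List ℕ) : LBd v.length (fun x => sz x ≤ sz p + 7) (mon p v) := by
  refine ⟨by simpa [mon] using degp_le p v, fun x hx => ?_⟩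
  obtain ⟨_, -, rfl⟩ := List.mem_map.1 hx
  exact (zops_bd p).mul _ _
@[fun_prop] theorem pt_gcdStep {st : ι → List ℕ × List ℕ} (hp : PT p) (hs : PT st) :
    PT fun i => gcdStep (p i) (st i) := by
  unfold gcdStep
  fun_prop
@[fun_prop] theorem pt_pgcd {u v : ι → List ℕ} (hp : PT p) (hu : PT u) (hv : PT v) :
    PT fun i => pgcd (p i) (u i) (v i) := by
  unfold pgcd
  refine PT.fst (PT.iterate_inv (f := fun i => gcdStep (p i)) (fun i st =>
      sz st.1 ≤ sz (u i) + ((sz (p i) + 7 + 1) * (v i).length + 1) ∧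
      sz st.2 ≤ sz (v i) + ((sz (p i) + 7 + 1) * (v i).length + 1) ∧ st.2.length ≤ (v i).length)
    (fun i => sz (u i) + ((sz (p i) + 7 + 1) * (v i).length + 1) +
      (sz (v i) + ((sz (p i) + 7 + 1) * (v i).length + 1)) + 1)
    (by fun_prop) (by fun_prop) (by fun_prop) (by fun_prop) (by fun_prop)
    (fun i => ⟨Nat.le_add_right _ _, Nat.le_add_right _ _, le_rfl⟩) (fun i st hst => ?_)
    fun i st hst => ?_)
  · unfold gcdStep
    split_ifs
    · exact hst
    · have h1 := (mon_bd (p i) st.2).mono hst.2.2 fun _ h => h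
      have h2 := ((zops_bd (p i)).prem (mon (p i) st.2) (st.1 ++ [1])).mono h1.1 fun _ h => h
      exact ⟨(h1.sz_le fun _ h => h).trans (Nat.le_add_left _ _),
        (h2.sz_le fun _ h => h).trans (Nat.le_add_left _ _), h2.1⟩
  · have := hst.1
    have := hst.2.1
    rw [sz_prod]
    omega
theorem pdiv_bd (p : ℕ) (d l : List ℕ) :
    LBd d.length (fun x => sz x ≤ sz p + 7) (pdiv p d l).1 ∧
      LBd l.length (fun x => sz x ≤ sz p + 7) (pdiv p d l).2 := by
  induction l with
  | nil => exact ⟨LBd.nil _ _, LBd.nil _ _⟩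
  | cons c l ih =>
    refine ⟨⟨by simp [pdiv], fun x hx => ?_⟩, Nat.succ_le_succ ih.2.1, fun x hx => ?_⟩
    · obtain ⟨_, -, rfl⟩ := List.mem_map.1 hx
      exact (zops_bd p).sub _ _
    · rcases List.mem_cons.1 hx with rfl | hx
      · exact (zops_bd p).add _ _
      · exact ih.2.2 x hx
@[fun_prop] theorem pt_pdiv {d l : ι → List ℕ} (hp : PT p) (hd : PT d) (hl : PT l) :
    PT fun i => pdiv (p i) (d i) (l i) := by
  unfold pdiv
  refine PT.foldr (fun i => (sz (p i) + 7 + 1) * (d i).length + 1 +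
    ((sz (p i) + 7 + 1) * (l i).length + 1) + 1) (by fun_prop) hl (by fun_prop) (by fun_prop)
    fun i j => ?_
  obtain ⟨h1, h2⟩ := pdiv_bd (p i) (d i) ((l i).drop j)
  have h3 := h1.sz_le fun _ h => h
  have h4 := (h2.mono (D' := (l i).length) (by simp) fun _ h => h).sz_le fun _ h => h
  unfold pdiv at h3 h4
  rw [sz_prod]
  omega
@[fun_prop] theorem pt_pquo {g d : ι → List ℕ} (hp : PT p) (hg : PT g) (hd : PT d) :
    PT fun i => pquo (p i) (g i) (d i) := by
  unfold pquo
  fun_prop
@[fun_prop] theorem pt_splitOne {h : ι → List ℕ} {o : ι → Option (List ℕ)} (hp : PT p) (hh : PT h)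
    (ho : PT o) : PT fun i => splitOne (p i) (h i) (o i) := by
  unfold splitOne
  fun_prop

theorem splitOne_bd (p : ℕ) {b : ℕ} (hb : sz p + 7 ≤ b) {h : List ℕ} (hh : ∀ x ∈ h, sz x ≤ b)
    (o : Option (List ℕ)) :
    ((splitOne p h o).map fun x => max x.length 1).sum ≤ max h.length 1 ∧
      ∀ y ∈ splitOne p h o, ∀ x ∈ y, sz x ≤ b := by
  have h0 : (([h] : List (List ℕ)).map fun x => max x.length 1).sum ≤ max h.length 1 ∧
      ∀ y ∈ [h], ∀ x ∈ y, sz x ≤ b := ⟨by simp, by simpa using hh⟩
  cases o with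
  | none => exact h0
  | some d =>
    simp only [splitOne, Option.elim_some]
    split_ifs with hd
    · refine ⟨by simp [pquo]; omega, fun y hy x hx => ?_⟩
      rcases List.mem_cons.1 hy with rfl | hy
      · obtain ⟨_, -, rfl⟩ := List.mem_map.1 hx
        exact ((zops_bd p).add _ _).trans hb
      · rw [List.mem_singleton.1 hy] at hx
        obtain ⟨j, -, rfl⟩ := List.mem_map.1 hx
        exact ((pdiv_bd p d (h ++ [1])).2.getD (by simp) j).trans hb
    · exact h0

theorem loop_bd (p : ℕ) (split : List ℕ → Option (List ℕ)) (g : List ℕ) (n : ℕ) :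
    LBd (g.length + 1) (LBd (g.length + 1) fun x => sz x ≤ sz p + 7 + sz g)
      ((fun L : List (List ℕ) => L.flatMap fun h => splitOne p h (split h))^[n] [g]) := by
  have key : ∀ n, (((fun L : List (List ℕ) => L.flatMap fun h => splitOne p h (split h))^[n]
      [g]).map fun x => max x.length 1).sum ≤ g.length + 1 ∧
      ∀ y ∈ (fun L : List (List ℕ) => L.flatMap fun h => splitOne p h (split h))^[n] [g],
        ∀ x ∈ y, sz x ≤ sz p + 7 + sz g := by
    intro n
    induction n with
    | zero =>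
      refine ⟨by simp, fun y hy x hx => ?_⟩
      obtain rfl : y = g := by simpa using hy
      exact (sz_le_of_mem hx).trans (Nat.le_add_left _ _)
    | succ n ih =>
      rw [Function.iterate_succ_apply']
      obtain ⟨ih1, ih2⟩ := ih
      generalize (fun L : List (List ℕ) => L.flatMap fun h => splitOne p h (split h))^[n] [g] = L
        at ih1 ih2
      refine ⟨le_trans ?_ ih1, fun y hy => ?_⟩
      · clear ih1
        induction L with
        | nil => simp
        | cons h L ih =>
          have h1 := (splitOne_bd p (Nat.le_add_right _ _) (ih2 h (by simp)) (split h)).1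
          have h2 := ih fun y hy => ih2 y (by simp [hy])
          simp only [List.flatMap_cons, List.map_append, List.sum_append, List.map_cons,
            List.sum_cons]
          omega
      · obtain ⟨h, hh, hy⟩ := List.mem_flatMap.1 hy
        exact (splitOne_bd p (Nat.le_add_right _ _) (ih2 h hh) (split h)).2 y hy
  obtain ⟨h1, h2⟩ := key n
  generalize (fun L : List (List ℕ) => L.flatMap fun h => splitOne p h (split h))^[n] [g] = L
    at h1 h2
  refine ⟨le_trans ?_ h1, fun y hy => ⟨le_trans ?_ h1, h2 y hy⟩⟩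
  · clear h1 h2
    induction L with
    | nil => simp
    | cons h L ih => simp only [List.length_cons, List.map_cons, List.sum_cons]; omega
  · exact (le_max_left _ 1).trans (List.single_le_sum (fun _ _ => Nat.zero_le _) _
      (List.mem_map.2 ⟨y, hy, rfl⟩))

@[fun_prop] theorem pt_loop {split : ι → List ℕ → Option (List ℕ)} {g : ι → List ℕ} (hp : PT p)
    (hs : PT fun x : ι × List ℕ => split x.1 x.2) (hg : PT g) :
    PT fun i => loop (p i) (split i) (g i) := by
  unfold loop
  refine PT.iterate (f := fun i (L : List (List ℕ)) => L.flatMap fun h => splitOne (p i) h (split i h))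
    (fun i => ((sz (p i) + 7 + sz (g i) + 1) * ((g i).length + 1) + 1 + 1) * ((g i).length + 1) + 1)
    (PT.flatMap (by fun_prop) (pt_splitOne (by fun_prop) (by fun_prop)
      (hs.comp (f := fun x : (ι × List (List ℕ)) × List ℕ => (x.1.1, x.2)) (by fun_prop))))
    (by fun_prop) (by fun_prop) (by fun_prop) (by fun_prop) fun i j _ => ?_
  exact (loop_bd (p i) (split i) (g i) j).sz_le fun _ h => h.sz_le fun _ h => h

@[fun_prop] theorem pt_mf {n : ι → ℕ} (hn : PT n) (hb : PB n) : PT fun i => mf (n i) := by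
  unfold mf
  fun_prop
@[fun_prop] theorem pb_mf {n : ι → ℕ} (hb : PB n) : PB fun i => mf (n i) :=
  pb_find?_range (n := fun i => n i + 1) (by fun_prop) _ 2
theorem mf_pos (n : ℕ) : 0 < mf n := by
  unfold mf
  cases h : (List.range (n + 1)).find? fun d => decide (2 ≤ d ∧ d ∣ n) with
  | none => simp
  | some d =>
    have := List.find?_some h
    simp only [decide_eq_true_eq] at this
    simp only [Option.getD_some]
    omega
@[fun_prop] theorem pto_kops {f : ι → List ℕ} (hp : PT p) (hf : PT f) :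
    PTO fun i => kops (p i) (f i) := by
  unfold kops
  fun_prop
@[fun_prop] theorem pt_kisZ {f x : ι → List ℕ} (hp : PT p) (hf : PT f) (hx : PT x) :
    PT fun i => kisZ (p i) (f i) (x i) := by
  unfold kisZ
  fun_prop
@[fun_prop] theorem pto_aops {f g : ι → List ℕ} (hp : PT p) (hf : PT f) (hg : PT g) :
    PTO fun i => aops (p i) (f i) (g i) := by
  unfold aops
  fun_prop
@[fun_prop] theorem pt_mkF {f g : ι → List ℕ} (hp : PT p) (hf : PT f) (hg : PT g) :
    PT fun i => mkF (p i) (f i) (g i) := by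
  unfold mkF
  exact pt_polySum (by fun_prop) (pt_map_range (by fun_prop) (by fun_prop) (by fun_prop))
theorem pte_mkEnv {l : ι → ℕ} {e : ι → List ℕ × List ℕ} {g : ι → List ℕ} (hp : PT p) (hl : PT l)
    (hl' : PB l) (hpos : ∀ i, 0 < l i) (he : PT e) (hg : PT g) :
    PTE fun i => mkEnv (p i) (l i) (e i) (g i) := by
  refine ⟨?_, ?_, ?_, hl, hl', hpos, ?_, ?_, ?_, ?_, ?_⟩ <;> (simp only [mkEnv]; fun_prop)
@[fun_prop] theorem pt_idem {f g : ι → List ℕ} {x : ι → List (List ℕ)} (hp : PT p) (hf : PT f)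
    (hg : PT g) (hx : PT x) : PT fun i => idem (p i) (f i) (g i) (x i) := by
  unfold idem
  fun_prop
@[fun_prop] theorem pt_splitS {tbl : ι → List (List ℕ × List ℕ)} {g : ι → List ℕ} (hp : PT p)
    (ht : PT tbl) (hg : PT g) : PT fun i => splitS (p i) (tbl i) (g i) := by
  have h1 := pt_run (pte_mkEnv (l := fun i => mf (g i).length)
    (e := fun i => (tbl i).getD (mf (g i).length) ([], [])) hp (by fun_prop) (by fun_prop)
    (fun _ => mf_pos _) (by fun_prop) hg)
  unfold splitS
  exact PT.ite (by fun_prop) (by fun_prop)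
    (PT.some (pt_pgcd hp hg (pt_idem hp (by fun_prop) hg h1)))
@[fun_prop] theorem pt_roots {ks m : ι → List ℕ} {tbl : ι → List (List ℕ × List ℕ)} (hp : PT p)
    (hk : PT ks) (ht : PT tbl) (hm : PT m) : PT fun i => roots (p i) (ks i) (tbl i) (m i) := by
  unfold roots
  fun_prop
theorem pt_kerL {n n' : ι → ℕ} {T : ι → ℕ → List ℕ} (hp : PT p) (hn : PT n) (hb : PB n)
    (hn' : PT n') (hb' : PB n') (hT : PT fun x : ι × ℕ => T x.1 (min x.2 (n x.1))) :
    PT fun i => kerL (p i) (n i) (n' i) (T i) := by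
  have : PT fun i => (List.range (n i)).map fun j => (unitV j, T i j) :=
    pt_map_range hn hb (PT.pair (by fun_prop) hT)
  unfold kerL
  fun_prop
@[fun_prop] theorem pt_killer {g h : ι → List ℕ} (hp : PT p) (hg : PT g) (hh : PT h) :
    PT fun i => killer (p i) (g i) (h i) := by
  have h1 : PT fun i => mon (p i) (((kerL (p i) ((g i).length + 1) (g i).length
      fun j => ((zops (p i)).quot (g i)).pow (h i) j).find? fun m => !isZp (p i) m).getD []) :=
    pt_mon hp (PT.optionGetD (PT.find? (pt_kerL hp (by fun_prop) (by fun_prop) (by fun_prop)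
      (by fun_prop) (by fun_prop)) (by fun_prop)) (by fun_prop))
  have h2 := pto_quot (pto_zops hp) h1
  unfold killer
  exact pt_pgcd hp h1 (pt_sub h2 (pt_pow h2 (by fun_prop) hp) (by fun_prop))
@[fun_prop] theorem pt_splitG {ks g : ι → List ℕ} {tbl : ι → List (List ℕ × List ℕ)} (hp : PT p)
    (hk : PT ks) (ht : PT tbl) (hg : PT g) : PT fun i => splitG (p i) (ks i) (tbl i) (g i) := by
  unfold splitG
  refine PT.optionElim (PT.find? (pt_kerL hp (by fun_prop) (by fun_prop) (by fun_prop)
    (by fun_prop) (by fun_prop)) (by fun_prop)) (PT.optionBind (PT.find? (pt_kerL hp (by fun_prop)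
    (by fun_prop) (by fun_prop) (by fun_prop) (by fun_prop)) (by fun_prop)) (by fun_prop))
    (by fun_prop)
@[fun_prop] theorem pt_factorWith {ks g : ι → List ℕ} {tbl : ι → List (List ℕ × List ℕ)}
    (hp : PT p) (hk : PT ks) (ht : PT tbl) (hg : PT g) :
    PT fun i => factorWith (p i) (ks i) (tbl i) (g i) := by
  unfold factorWith
  fun_prop

@[fun_prop] theorem pt_chi {l r t : ι → ℕ} {f : ι → List ℕ} (hp : PT p) (hl : PT l) (hl' : PB l)
    (hf : PT f) (hr : PT r) (hr' : PB r) (ht : PT t) :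
    PT fun i => chi (p i) (l i) (f i) (r i) (t i) := by
  unfold chi
  exact PT.ite (by fun_prop) (by fun_prop) (pt_pow (by fun_prop) (by fun_prop)
    (PT.optionGetD (pt_find?_range hl hl' (by fun_prop)) (by fun_prop)))
@[fun_prop] theorem pt_etaOf {l r : ι → ℕ} {f : ι → List ℕ} (hp : PT p) (hl : PT l) (hl' : PB l)
    (hf : PT f) (hr : PT r) (hr' : PB r) : PT fun i => etaOf (p i) (l i) (f i) (r i) := by
  unfold etaOf
  fun_prop
@[fun_prop] theorem pt_findEta {l R : ι → ℕ} {f : ι → List ℕ} (hp : PT p) (hl : PT l) (hl' : PB l)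
    (hf : PT f) (hR : PT R) (hR' : PB R) : PT fun i => findEta (p i) (l i) (f i) (R i) := by
  have : PT fun i => (List.range (R i + 1)).map (etaOf (p i) (l i) (f i)) :=
    pt_map_range (by fun_prop) (by fun_prop) (by fun_prop)
  unfold findEta
  fun_prop
theorem findEta_bd (p l : ℕ) (f : List ℕ) (R : ℕ) :
    sz (findEta p l f R) ≤ (sz p + 7 + 1) * f.length + 1 := by
  unfold findEta
  cases h : ((List.range (R + 1)).map (etaOf p l f)).find? fun η => !kisZ p f η &&
    !kisZ p f ((kops p f).sub ((kops p f).pow η ((p ^ f.length - 1) / l)) (kops p f).one) with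
  | none => simp
  | some η =>
    obtain ⟨r, -, rfl⟩ := List.mem_map.1 (List.mem_of_find?_eq_some h)
    exact ((zops_bd p).quot f).mul _ _
@[fun_prop] theorem pt_bnd (C : ℕ) {l : ι → ℕ} (hp : PT p) (hl : PT l) :
    PT fun i => bnd C (p i) (l i) := by
  unfold bnd
  fun_prop
@[fun_prop] theorem pb_bnd (C : ℕ) {l : ι → ℕ} (hp : PT p) (hl : PB l) :
    PB fun i => bnd C (p i) (l i) := by
  unfold bnd
  fun_prop
@[fun_prop] theorem pt_entry (C : ℕ) {ks : ι → List ℕ} {tbl : ι → List (List ℕ × List ℕ)}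
    {l : ι → ℕ} (hp : PT p) (hk : PT ks) (ht : PT tbl) (hl : PT l) (hl' : PB l) :
    PT fun i => entry C (p i) (ks i) (tbl i) (l i) := by
  unfold entry
  fun_prop
theorem entry_bd (C p : ℕ) (ks : List ℕ) (tbl : List (List ℕ × List ℕ)) {l K : ℕ} (hl : l ≤ K) :
    sz (entry C p ks tbl l) ≤
      (sz p + 7 + (8 * K + 1) + 1) * (K + 1) + 1 + ((sz p + 7 + 1) * (K + 1) + 1) + 1 := by
  have h0 : sz (List.replicate (l - 1) 1) ≤ 8 * K + 1 :=
    LBd.sz_le (D := K) (b := 7) (S := fun x => x = 1)
      ⟨by simp; omega, fun x hx => List.eq_of_mem_replicate hx⟩ fun x hx => by rw [hx]; decide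
  have h1 : LBd (K + 1) (fun x => sz x ≤ sz p + 7 + (8 * K + 1))
      ((factorWith p ks tbl (List.replicate (l - 1) 1)).headD []) := by
    rw [List.headD_eq_getD]
    refine LBd.getD (S := LBd (K + 1) fun x => sz x ≤ sz p + 7 + (8 * K + 1))
      ((loop_bd p _ _ _).mono le_rfl fun x hx => hx.mono (by simp; omega) fun y hy => ?_)
      (LBd.nil _ _) 0
    omega
  have h2 := h1.sz_le fun _ h => h
  have h3 := findEta_bd p l ((factorWith p ks tbl (List.replicate (l - 1) 1)).headD []) (bnd C p l)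
  have h4 := Nat.mul_le_mul_left (sz p + 7 + 1) h1.1
  unfold entry
  rw [sz_pair]
  omega
@[fun_prop] theorem pt_table (C : ℕ) {ks : ι → List ℕ} (hp : PT p) (hk : PT ks) :
    PT fun i => table C (p i) (ks i) := by
  unfold table
  refine PT.foldl_add (fun x : ι × ℕ => (sz (p x.1) + 7 + (8 * (ks x.1).length + 1) + 1) *
    ((ks x.1).length + 1) + 1 + ((sz (p x.1) + 7 + 1) * ((ks x.1).length + 1) + 1) + 1 + 2)
    (by fun_prop) hk (by fun_prop) (by fun_prop) fun i acc x _ => ?_
  have h1 := entry_bd C (p i) (ks i) acc (min_le_right x (ks i).length)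
  have h2 := sz_append_le acc [entry C (p i) (ks i) acc (min x (ks i).length)]
  rw [sz_cons, sz_nil] at h2
  simp only
  omega
@[fun_prop] theorem pt_factorAll (C : ℕ) {cs : ι → List ℕ} (hp : PT p) (hc : PT cs) :
    PT fun i => factorAll C (p i) (cs i) := by
  unfold factorAll
  fun_prop

end Crest.Agent.R312
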