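import Crest.Agent.R312.ADed

/-! # Row 312, part A: norms of ideals, branch points -/

set_option autoImplicit false
set_option linter.unusedSectionVars false

noncomputable section

open Polynomial Finset

namespace Crest.Agent.R312

namespace Mdl

variable {k : Type} [Field k] (M : Mdl k)

/-- The conjugate ideal `σ^t I`. -/
def cj (t : ℕ) (I : Ideal M.R) : Ideal M.R := I.map (M.σ ^ t)
/-- `A I i = I · σ I ⋯ σ^(i-1) I`. -/
def A (I : Ideal M.R) (i : ℕ) : Ideal M.R := ∏ t ∈ range i, M.cj t I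
/-- `ψ` generates the norm of `I`. -/
def IsPsi (I : Ideal M.R) (ψ : k[X]) : Prop := M.A I M.l = Ideal.span {M.ι ψ}
/-- Value at the branch point `(b, 0)`. -/
def ev (b : k) (g : M.R) : k := (M.co 0 g).eval b
/-- The branch point `(b, 0)`. -/
def P (b : k) : Ideal M.R := Ideal.span {M.Y, M.ι (X - C b)}
/-- The ideal is prime to all branch points. -/
def Cop (I : Ideal M.R) : Prop := ∀ b ∈ M.T, ∃ g ∈ I, M.ev b g ≠ 0
/-- Same ideal class. -/
def Eqv (I J : Ideal M.R) : Prop :=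
  ∃ g h : M.R, g ≠ 0 ∧ h ≠ 0 ∧ Ideal.span {g} * I = Ideal.span {h} * J
/-- The point `(0, 1)` (on the curve when `F(0) = 1`). -/
def Q : Ideal M.R := Ideal.span {M.ι X, M.Y - 1}

/-! ### conjugates -/

theorem apsi_cj (t : ℕ) (I : Ideal M.R) : M.cj t I = I.map (M.σ ^ t).toRingHom := rfl
theorem apsi_unit {c : k} (hc : c ≠ 0) : IsUnit (M.ι (C c)) :=
  (isUnit_C.2 hc.isUnit).map M.ι
theorem apsi_prod_le {A β : Type} [CommRing A] (s : Finset β) (I : β → Ideal A) (J : Ideal A)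
    (a : β → A) (h : ∀ i ∈ s, I i ≤ J ⊔ Ideal.span {a i}) :
    ∏ i ∈ s, I i ≤ J ⊔ Ideal.span {∏ i ∈ s, a i} := by
  classical
  induction s using Finset.induction_on with
  | empty => simp
  | insert i s hi ih =>
    rw [prod_insert hi, prod_insert hi, ← Ideal.span_singleton_mul_span_singleton]
    refine (Ideal.mul_mono (h i (mem_insert_self _ _))
      (ih fun j hj => h j (mem_insert_of_mem hj))).trans ?_
    rw [Ideal.sup_mul, Ideal.mul_sup (Ideal.span {a i})]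
    exact sup_le (Ideal.mul_le_left.trans le_sup_left)
      (sup_le (Ideal.mul_le_right.trans le_sup_left) le_sup_right)

theorem cj_zero (I : Ideal M.R) : M.cj 0 I = I := by
  rw [cj, pow_zero]; exact Ideal.map_id I
theorem cj_cj (s t : ℕ) (I : Ideal M.R) : M.cj s (M.cj t I) = M.cj (s + t) I := by
  have h : (M.σ ^ s).toRingHom.comp (M.σ ^ t).toRingHom = (M.σ ^ (s + t)).toRingHom :=
    RingHom.ext fun g => by
      show (M.σ ^ s) ((M.σ ^ t) g) = (M.σ ^ (s + t)) g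
      rw [pow_add, AlgHom.mul_apply]
  rw [apsi_cj, apsi_cj, apsi_cj, Ideal.map_map, h]
theorem cj_l (I : Ideal M.R) : M.cj M.l I = I := by
  rw [cj, sig_pow_l]; exact Ideal.map_id I
theorem cj_mul (t : ℕ) (I J : Ideal M.R) : M.cj t (I * J) = M.cj t I * M.cj t J := by
  exact Ideal.map_mul _ I J
theorem cj_sup (t : ℕ) (I J : Ideal M.R) : M.cj t (I ⊔ J) = M.cj t I ⊔ M.cj t J := by
  exact Ideal.map_sup _ I J
theorem cj_top (t : ℕ) : M.cj t ⊤ = ⊤ := by
  exact Ideal.map_top _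
theorem cj_prod {β : Type} (t : ℕ) (s : Finset β) (I : β → Ideal M.R) :
    M.cj t (∏ i ∈ s, I i) = ∏ i ∈ s, M.cj t (I i) := by
  classical
  induction s using Finset.induction_on with
  | empty => simpa using M.cj_top t
  | insert a s ha ih => rw [prod_insert ha, prod_insert ha, cj_mul, ih]
theorem cj_span_singleton (t : ℕ) (g : M.R) :
    M.cj t (Ideal.span {g}) = Ideal.span {(M.σ ^ t) g} := by
  rw [cj, Ideal.map_span, Set.image_singleton]
theorem cj_span (t : ℕ) (s : Set M.R) : M.cj t (Ideal.span s) = Ideal.span ((M.σ ^ t) '' s) := by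
  exact Ideal.map_span _ s
theorem cj_ne_bot (t : ℕ) {I : Ideal M.R} (hI : I ≠ ⊥) : M.cj t I ≠ ⊥ := by
  rw [cj, Ne, Ideal.map_eq_bot_iff_of_injective (sig_pow_bijective M.Cz_pow t).1]
  exact hI
theorem mem_cj (t : ℕ) {I : Ideal M.R} {g : M.R} (hg : g ∈ I) : (M.σ ^ t) g ∈ M.cj t I := by
  exact Ideal.mem_map_of_mem _ hg
theorem A_ne_bot {I : Ideal M.R} (hI : I ≠ ⊥) (i : ℕ) : M.A I i ≠ ⊥ := by
  exact prod_ne_zero_iff.2 fun t _ => M.cj_ne_bot t hI
theorem A_add (I : Ideal M.R) (i j : ℕ) : M.A I (i + j) = M.A I i * M.cj i (M.A I j) := by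
  simp only [A, prod_range_add, cj_prod, cj_cj]
theorem A_mul (I J : Ideal M.R) (i : ℕ) : M.A (I * J) i = M.A I i * M.A J i := by
  simp only [A, cj_mul, prod_mul_distrib]
theorem cj_A_l (t : ℕ) (I : Ideal M.R) : M.cj t (M.A I M.l) = M.A I M.l := by
  by_cases hI : I = ⊥
  · have h : M.A I M.l = ⊥ :=
      prod_eq_zero (mem_range.2 M.hl.pos) (by rw [cj_zero, hI]; rfl)
    rw [h]; exact Ideal.map_bot
  · have h1 := M.A_add I t M.l
    rw [add_comm, A_add, cj_l, mul_comm] at h1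
    exact (mul_left_cancel₀ (M.A_ne_bot hI t) h1).symm
/-- An ideal containing `Y` is `σ`-stable (`kY_dvd_sig_pow_sub`). -/
theorem cj_of_Y_mem (t : ℕ) {I : Ideal M.R} (h : M.Y ∈ I) : M.cj t I = I := by
  have hY : M.Y ∈ M.cj t I := by
    have h1 := M.mem_cj t h
    rw [sig_pow_Y, ← map_pow] at h1
    exact (Ideal.unit_mul_mem_iff_mem _
      (M.apsi_unit (pow_ne_zero t (M.hz.ne_zero M.hl.ne_zero)))).1 h1
  refine le_antisymm (Ideal.map_le_iff_le_comap.2 fun g hg => ?_) fun g hg => ?_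
  · have := I.add_mem (I.mem_of_dvd (kY_dvd_sig_pow_sub M.Cz_pow t g) h) hg
    rwa [sub_add_cancel] at this
  · have := (M.cj t I).sub_mem (M.mem_cj t hg)
      ((M.cj t I).mem_of_dvd (kY_dvd_sig_pow_sub M.Cz_pow t g) hY)
    rwa [sub_sub_cancel] at this
/-- An ideal containing a power of `Y` is `σ`-stable: it is the product of its prime factors
(`Ideal.prod_normalizedFactors_eq_self` or induction `UniqueFactorizationMonoid.induction_on_prime`),
each of which contains `Y`. -/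
theorem cj_of_Y_pow_mem (t : ℕ) {I : Ideal M.R} {j : ℕ} (h : M.Y ^ j ∈ I) : M.cj t I = I := by
  induction I using UniqueFactorizationMonoid.induction_on_prime with
  | h₁ => exact Ideal.map_bot
  | h₂ I hI => rw [Ideal.isUnit_iff.1 hI, cj_top]
  | h₃ I p _ hp ih =>
    have h1 : M.Y ^ j ∈ p := (Ideal.mul_le_left (I := p) (J := I)) h
    have h2 : M.Y ^ j ∈ I := (Ideal.mul_le_right (I := p) (J := I)) h
    have hpp : p.IsPrime := Ideal.isPrime_of_prime hp
    have hYp : M.Y ∈ p := hpp.mem_of_pow_mem j h1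
    rw [cj_mul, ih h2, M.cj_of_Y_mem t hYp]

/-! ### evaluation at branch points -/

theorem ev_add (b : k) (g h : M.R) : M.ev b (g + h) = M.ev b g + M.ev b h := by
  rw [ev, map_add, eval_add]; rfl
theorem ev_sub (b : k) (g h : M.R) : M.ev b (g - h) = M.ev b g - M.ev b h := by
  rw [ev, map_sub, eval_sub]; rfl
theorem ev_zero (b : k) : M.ev b 0 = 0 := by
  rw [ev, map_zero, eval_zero]
theorem ev_ι (b : k) (p : k[X]) : M.ev b (M.ι p) = p.eval b := by
  rw [ev, co_C, if_pos rfl]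
theorem ev_Y (b : k) : M.ev b M.Y = 0 := by
  have h := co_C_mul_pow (F := M.F) (1 : k[X]) M.hl.one_lt 0
  rw [map_one, one_mul, pow_one, if_neg zero_ne_one] at h
  rw [ev, h, eval_zero]
theorem ev_mul {b : k} (hb : b ∈ M.T) (g h : M.R) : M.ev b (g * h) = M.ev b g * M.ev b h := by
  rw [ev, co_mul g h M.hl.pos, eval_finsetSum, sum_eq_single 0]
  · simp [ev]
  · intro i _ hi
    rw [if_neg (by omega), eval_mul, M.F_eval hb, zero_mul]
  · intro h0
    exact absurd (mem_range.2 M.hl.pos) h0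
theorem ev_σ_pow (b : k) (t : ℕ) (g : M.R) : M.ev b ((M.σ ^ t) g) = M.ev b g := by
  rw [ev, co_sig_pow, mul_zero, pow_zero, one_mul]; rfl
theorem apsi_ev_one (b : k) : M.ev b 1 = 1 := by
  rw [← map_one M.ι, ev_ι, eval_one]
/-- Evaluation at a branch point as a ring homomorphism. -/
def apsi_evH {b : k} (hb : b ∈ M.T) : M.R →+* k where
  toFun := M.ev b
  map_one' := M.apsi_ev_one b
  map_mul' := M.ev_mul hb
  map_zero' := M.ev_zero b
  map_add' := M.ev_add b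
theorem apsi_evH_apply {b : k} (hb : b ∈ M.T) (g : M.R) : M.apsi_evH hb g = M.ev b g := rfl
theorem apsi_Y_dvd (g : M.R) : M.Y ∣ g - M.ι (M.co 0 g) := by
  classical
  have h := sum_co g
  rw [← add_sum_erase _ _ (mem_range.2 M.hl.pos), pow_zero, mul_one] at h
  rw [← eq_sub_of_add_eq' h]
  exact dvd_sum fun j hj => (dvd_pow_self _ (mem_erase.1 hj).1).mul_left _
theorem apsi_mem_iff {I : Ideal M.R} (hY : M.Y ∈ I) (g : M.R) : g ∈ I ↔ M.ι (M.co 0 g) ∈ I := by
  have h := I.mem_of_dvd (M.apsi_Y_dvd g) hY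
  exact ⟨fun hg => by simpa using I.sub_mem hg h, fun hg => by simpa using I.add_mem h hg⟩
theorem apsi_F_mem {I : Ideal M.R} (hY : M.Y ∈ I) : M.ι M.F ∈ I := by
  rw [← kY_pow]
  exact I.pow_mem_of_mem hY _ M.hl.pos
theorem apsi_ιF : M.ι M.F = M.ι (C M.lc) * M.ι M.Fm := by rw [← map_mul]; rfl
theorem apsi_ιFm : M.ι M.Fm = ∏ b ∈ M.T, M.ι (X - C b) := map_prod _ _ _
theorem apsi_Y_mem_P (b : k) : M.Y ∈ M.P b := Ideal.subset_span (by simp)
theorem apsi_π_mem_P (b : k) : M.ι (X - C b) ∈ M.P b := Ideal.subset_span (by simp)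
theorem eval_nm {b : k} (hb : b ∈ M.T) (g : M.R) : (M.nm g).eval b = M.ev b g ^ M.l := by
  have h := map_prod (M.apsi_evH hb) (fun t => (M.σ ^ t) g) (range M.l)
  simp only [apsi_evH_apply, ev_σ_pow, prod_const, card_range] at h
  exact h
theorem mem_P (b : k) (g : M.R) : g ∈ M.P b ↔ M.ev b g = 0 ∨ b ∉ M.T := by
  by_cases hb : b ∈ M.T
  · simp only [hb, not_true, or_false]
    constructor
    · intro hg
      obtain ⟨u, v, rfl⟩ := Ideal.mem_span_pair.1 hg
      rw [ev_add, M.ev_mul hb, M.ev_mul hb, ev_Y, ev_ι]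
      simp
    · intro hg
      refine (M.apsi_mem_iff (M.apsi_Y_mem_P b) g).2 ?_
      exact Ideal.mem_of_dvd _ (map_dvd M.ι (dvd_iff_isRoot.2 hg)) (M.apsi_π_mem_P b)
  · simp only [hb, not_false_eq_true, or_true, iff_true]
    have h1 : M.F.eval b ≠ 0 := by
      rw [F, Fm, eval_mul, eval_C, eval_prod]
      refine mul_ne_zero M.hlc (prod_ne_zero_iff.2 fun a ha => ?_)
      rw [eval_sub, eval_X, eval_C, sub_ne_zero]
      rintro rfl
      exact hb ha
    have h2 : M.ι (M.F - C (M.F.eval b)) ∈ M.P b :=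
      Ideal.mem_of_dvd _ (map_dvd M.ι (X_sub_C_dvd_sub_C_eval)) (M.apsi_π_mem_P b)
    have h3 := (M.P b).sub_mem (M.apsi_F_mem (M.apsi_Y_mem_P b)) h2
    rw [← map_sub, sub_sub_cancel] at h3
    rw [Ideal.eq_top_of_isUnit_mem _ h3 (M.apsi_unit h1)]
    trivial
theorem P_ne_bot (b : k) : M.P b ≠ ⊥ := by
  exact fun h => M.Y_ne_zero (by simpa [h] using M.apsi_Y_mem_P b)
theorem P_pow {b : k} (hb : b ∈ M.T) : M.P b ^ M.l = Ideal.span {M.ι (X - C b)} := by
  classical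
  apply le_antisymm
  · have h := apsi_prod_le (range M.l) (fun _ => M.P b) (Ideal.span {M.ι (X - C b)}) (fun _ => M.Y)
      fun _ _ => by rw [P, Ideal.span_insert, sup_comm]
    rw [prod_const, prod_const, card_range, kY_pow] at h
    refine h.trans (sup_le le_rfl (Ideal.span_singleton_le_span_singleton.2 ?_))
    exact map_dvd M.ι (dvd_iff_isRoot.2 (M.F_eval hb))
  · rw [Ideal.span_singleton_le_iff_mem]
    obtain ⟨G, hG⟩ := dvd_iff_isRoot.2 (M.F_eval hb)
    have hc : IsCoprime (X - C b) G := (squarefree_mul_iff.1 (hG ▸ M.F_squarefree)).1.isCoprime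
    obtain ⟨α, β, hαβ⟩ := hc.pow_left (m := M.l)
    have e : M.ι (X - C b) =
        M.ι (α * (X - C b)) * M.ι (X - C b) ^ M.l + M.ι β * M.Y ^ M.l := by
      rw [kY_pow, ← map_pow, ← map_mul, ← map_mul, ← map_add]
      congr 1
      linear_combination (-(X - C b)) * hαβ - β * hG
    rw [e]
    exact Ideal.add_mem _ (Ideal.mul_mem_left _ _ (Ideal.pow_mem_pow (M.apsi_π_mem_P b) _))
      (Ideal.mul_mem_left _ _ (Ideal.pow_mem_pow (M.apsi_Y_mem_P b) _))
theorem isPsi_P {b : k} (hb : b ∈ M.T) : M.IsPsi (M.P b) (X - C b) := by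
  simp only [IsPsi, A, M.cj_of_Y_mem _ (M.apsi_Y_mem_P b), prod_const, card_range, M.P_pow hb]
/-- If `e` vanishes exactly on `Z ⊆ T` (among the points of `T`) then `(Y, e) = ∏_{b ∈ Z} P_b`. -/
theorem span_Y_eq_prod {Z : Finset k} (hZ : Z ⊆ M.T) {e : k[X]}
    (he : ∀ b ∈ M.T, e.eval b = 0 ↔ b ∈ Z) :
    Ideal.span {M.Y, M.ι e} = ∏ b ∈ Z, M.P b := by
  classical
  have hY : M.Y ∈ Ideal.span {M.Y, M.ι e} := Ideal.subset_span (by simp)
  have hc : (Z : Set k).Pairwise (Function.onFun IsCoprime M.P) := by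
    intro a _ b _ hab
    rw [Function.onFun, Ideal.isCoprime_iff_sup_eq]
    have h1 := (M.P a ⊔ M.P b).sub_mem (Ideal.mem_sup_left (M.apsi_π_mem_P a))
      (Ideal.mem_sup_right (M.apsi_π_mem_P b))
    rw [← map_sub, sub_sub_sub_cancel_left, ← C_sub] at h1
    exact Ideal.eq_top_of_isUnit_mem _ h1 (M.apsi_unit (sub_ne_zero.2 hab.symm))
  rw [Ideal.prod_eq_iInf_of_pairwise_isCoprime hc]
  apply le_antisymm
  · refine le_iInf₂ fun b hb => Ideal.span_le.2 ?_
    rintro _ (rfl | rfl)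
    · exact M.apsi_Y_mem_P b
    · exact (M.mem_P b _).2 (Or.inl (by rw [ev_ι]; exact (he b (hZ hb)).2 hb))
  · intro g hg
    have h1 : ∀ b ∈ Z, (M.co 0 g).eval b = 0 := fun b hb =>
      ((M.mem_P b g).1 ((iInf₂_le (f := fun b (_ : b ∈ Z) => M.P b) b hb) hg)).resolve_right
        (not_not.2 (hZ hb))
    refine (M.apsi_mem_iff hY g).2 ?_
    obtain ⟨α, β, hαβ⟩ : IsCoprime (∏ b ∈ M.T \ Z, (X - C b)) e :=
      IsCoprime.prod_left fun b hb => (irreducible_X_sub_C b).coprime_iff_not_dvd.2 fun h =>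
        (mem_sdiff.1 hb).2 ((he b (mem_sdiff.1 hb).1).1 (dvd_iff_isRoot.1 h))
    have h2 : M.Fm ∣ (∏ b ∈ M.T \ Z, (X - C b)) * M.co 0 g := (M.Fm_dvd_iff _).2 fun b hb => by
      rw [eval_mul]
      by_cases hbZ : b ∈ Z
      · rw [h1 b hbZ, mul_zero]
      · rw [eval_prod, prod_eq_zero (mem_sdiff.2 ⟨hb, hbZ⟩) (by simp), zero_mul]
    have h3 : M.ι M.Fm ∈ Ideal.span {M.Y, M.ι e} := by
      have := M.apsi_F_mem hY
      rw [apsi_ιF] at this
      exact (Ideal.unit_mul_mem_iff_mem _ (M.apsi_unit M.hlc)).1 this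
    have e1 : M.co 0 g = α * ((∏ b ∈ M.T \ Z, (X - C b)) * M.co 0 g) + (β * M.co 0 g) * e := by
      linear_combination (-M.co 0 g) * hαβ
    rw [e1, map_add, map_mul, map_mul M.ι _ e]
    exact Ideal.add_mem _ (Ideal.mul_mem_left _ _ (Ideal.mem_of_dvd _ (map_dvd M.ι h2) h3))
      (Ideal.mul_mem_left _ _ (Ideal.subset_span (by simp)))
theorem cop_iff (I : Ideal M.R) : M.Cop I ↔ I ⊔ Ideal.span {M.Y} = ⊤ := by
  constructor
  · intro h
    by_contra hne
    obtain ⟨m, hm, hle⟩ := Ideal.exists_le_maximal _ hne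
    have hY : M.Y ∈ m := hle (Ideal.mem_sup_right (Ideal.mem_span_singleton_self _))
    have h1 := M.apsi_F_mem hY
    rw [apsi_ιF, Ideal.unit_mul_mem_iff_mem _ (M.apsi_unit M.hlc), apsi_ιFm,
      Ideal.IsPrime.prod_mem_iff (hp := hm.isPrime)] at h1
    obtain ⟨b, hb, h2⟩ := h1
    obtain ⟨g, hg, hg'⟩ := h b hb
    have h3 : M.P b ≤ m := Ideal.span_le.2 (by
      rintro _ (rfl | rfl)
      exacts [hY, h2])
    have h4 : g - M.ι (C (M.ev b g)) ∈ M.P b :=
      (M.mem_P b _).2 (Or.inl (by rw [ev_sub, ev_ι, eval_C, sub_self]))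
    have h5 := m.sub_mem (hle (Ideal.mem_sup_left hg)) (h3 h4)
    rw [sub_sub_cancel] at h5
    exact hm.ne_top (Ideal.eq_top_of_isUnit_mem _ h5 (M.apsi_unit hg'))
  · intro h b hb
    obtain ⟨g, hg, y, hy, h1⟩ := Submodule.mem_sup.1 ((Ideal.eq_top_iff_one _).1 h)
    obtain ⟨u, rfl⟩ := Ideal.mem_span_singleton'.1 hy
    refine ⟨g, hg, ?_⟩
    have h2 := congrArg (M.ev b) h1
    rw [ev_add, M.ev_mul hb, ev_Y, mul_zero, add_zero, apsi_ev_one] at h2
    rw [h2]; exact one_ne_zero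
theorem Cop.ne_bot {M : Mdl k} {I : Ideal M.R} (h : M.Cop I) : I ≠ ⊥ := by
  rintro rfl
  obtain ⟨b, hb⟩ := M.T_nonempty
  obtain ⟨g, hg, hg'⟩ := h b hb
  exact hg' (by rw [Ideal.mem_bot.1 hg, ev_zero])
theorem cop_top : M.Cop ⊤ := by
  exact fun b _ => ⟨1, trivial, by rw [apsi_ev_one]; exact one_ne_zero⟩
theorem Cop.mul {M : Mdl k} {I J : Ideal M.R} (hI : M.Cop I) (hJ : M.Cop J) : M.Cop (I * J) := by
  intro b hb
  obtain ⟨g, hg, hg'⟩ := hI b hb
  obtain ⟨h, hh, hh'⟩ := hJ b hb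
  exact ⟨g * h, Ideal.mul_mem_mul hg hh, by rw [M.ev_mul hb]; exact mul_ne_zero hg' hh'⟩
theorem Cop.cj {M : Mdl k} {I : Ideal M.R} (hI : M.Cop I) (t : ℕ) : M.Cop (M.cj t I) := by
  intro b hb
  obtain ⟨g, hg, hg'⟩ := hI b hb
  exact ⟨_, M.mem_cj t hg, by rwa [ev_σ_pow]⟩
theorem Cop.A {M : Mdl k} {I : Ideal M.R} (hI : M.Cop I) (i : ℕ) : M.Cop (M.A I i) := by
  induction i with
  | zero => simpa [Mdl.A] using M.cop_top
  | succ i ih => rw [Mdl.A, prod_range_succ]; exact ih.mul (hI.cj i)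
theorem Q_ne_bot : M.Q ≠ ⊥ := by
  intro h
  have h1 : M.ι X ∈ M.Q := Ideal.subset_span (by simp)
  exact M.ι_ne_zero X_ne_zero (by simpa [h] using h1)
theorem cop_Q : M.Cop M.Q := by
  refine fun b _ => ⟨M.Y - 1, Ideal.subset_span (by simp), ?_⟩
  rw [ev_sub, ev_Y, apsi_ev_one]
  simp
/-- The conjugates `(X, z^t Y - 1)` are pairwise comaximal and their product lies in `(X)` since
`∏ (z^t Y - 1) = ± (Y^l - 1) = ± (F - 1)`. -/
theorem isPsi_Q (h : M.F.eval 0 = 1) : M.IsPsi M.Q X := by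
  classical
  have hX : ∀ t, M.ι X ∈ M.cj t M.Q := fun t => by
    have := M.mem_cj t (show M.ι X ∈ M.Q from Ideal.subset_span (by simp))
    rwa [AlgHom.commutes] at this
  have e : ∀ t, (M.σ ^ t) (M.Y - 1) = M.ι (C (M.z ^ t)) * M.Y - 1 := fun t => by
    rw [map_sub, map_one, sig_pow_Y, C_pow]
  have hY : ∀ t, M.ι (C (M.z ^ t)) * M.Y - 1 ∈ M.cj t M.Q := fun t =>
    e t ▸ M.mem_cj t (show M.Y - 1 ∈ M.Q from Ideal.subset_span (by simp))
  apply le_antisymm
  · have h1 := apsi_prod_le (range M.l) (fun t => M.cj t M.Q) (Ideal.span {M.ι X})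
      (fun t => 1 - M.ι (C M.z) ^ t * M.Y) fun t _ => by
        rw [Q, Ideal.span_insert, cj_sup, cj_span_singleton, cj_span_singleton, AlgHom.commutes, e,
          ← Ideal.span_singleton_neg (_ - 1), neg_sub, C_pow, map_pow]
    refine h1.trans (sup_le le_rfl (Ideal.span_singleton_le_span_singleton.2 ?_))
    have h2 := congrArg (eval 1) (X_pow_sub_C_eq_prod
      (M.Cz_prim.map_of_injective (f := M.ι) kum_algebraMap_injective) M.hl.pos (kY_pow (F := M.F)))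
    simp only [eval_sub, eval_pow, eval_X, eval_C, one_pow, eval_prod] at h2
    rw [← h2, ← map_one M.ι, ← map_sub]
    refine map_dvd M.ι (X_dvd_iff.2 ?_)
    rw [coeff_zero_eq_eval_zero, eval_sub, eval_one, h, sub_self]
  · have hc : ((range M.l : Finset ℕ) : Set ℕ).Pairwise
        (Function.onFun IsCoprime fun t => M.cj t M.Q) := by
      intro s hs t ht hst
      rw [Function.onFun, Ideal.isCoprime_iff_sup_eq]
      have h1 := (M.cj s M.Q ⊔ M.cj t M.Q).sub_mem (Ideal.mem_sup_left (hY s))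
        (Ideal.mem_sup_right (hY t))
      rw [sub_sub_sub_cancel_right, ← sub_mul, ← map_sub, ← C_sub,
        Ideal.unit_mul_mem_iff_mem _ (M.apsi_unit (sub_ne_zero.2 fun h => hst
          (M.hz.pow_inj (mem_range.1 hs) (mem_range.1 ht) h)))] at h1
      have h2 := (M.cj s M.Q ⊔ M.cj t M.Q).sub_mem
        (Ideal.mul_mem_left _ (M.ι (C (M.z ^ s))) h1) (Ideal.mem_sup_left (hY s))
      rw [sub_sub_cancel] at h2
      exact (Ideal.eq_top_iff_one _).2 h2
    rw [A, Ideal.prod_eq_iInf_of_pairwise_isCoprime hc, Ideal.span_singleton_le_iff_mem]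
    simp only [Submodule.mem_iInf]
    exact fun t _ => hX t

/-! ### equivalence -/

theorem Eqv.refl (I : Ideal M.R) : M.Eqv I I := by
  exact ⟨1, 1, one_ne_zero, one_ne_zero, rfl⟩
theorem Eqv.symm {M : Mdl k} {I J : Ideal M.R} (h : M.Eqv I J) : M.Eqv J I := by
  obtain ⟨g, h, hg, hh, e⟩ := h
  exact ⟨h, g, hh, hg, e.symm⟩
theorem Eqv.trans {M : Mdl k} {I J K : Ideal M.R} (h : M.Eqv I J) (h' : M.Eqv J K) :
    M.Eqv I K := by
  obtain ⟨a, b, ha, hb, e⟩ := h
  obtain ⟨c, d, hc, hd, e'⟩ := h'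
  refine ⟨c * a, b * d, mul_ne_zero hc ha, mul_ne_zero hb hd, ?_⟩
  rw [← Ideal.span_singleton_mul_span_singleton, ← Ideal.span_singleton_mul_span_singleton,
    mul_assoc, e, mul_left_comm, e', mul_assoc]
theorem Eqv.mul {M : Mdl k} {I J I' J' : Ideal M.R} (h : M.Eqv I J) (h' : M.Eqv I' J') :
    M.Eqv (I * I') (J * J') := by
  obtain ⟨a, b, ha, hb, e⟩ := h
  obtain ⟨c, d, hc, hd, e'⟩ := h'
  refine ⟨a * c, b * d, mul_ne_zero ha hc, mul_ne_zero hb hd, ?_⟩
  rw [← Ideal.span_singleton_mul_span_singleton, ← Ideal.span_singleton_mul_span_singleton,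
    mul_mul_mul_comm, e, e', mul_mul_mul_comm]
theorem Eqv.cj {M : Mdl k} {I J : Ideal M.R} (h : M.Eqv I J) (t : ℕ) :
    M.Eqv (M.cj t I) (M.cj t J) := by
  obtain ⟨a, b, ha, hb, e⟩ := h
  have hi := (sig_pow_bijective (F := M.F) M.Cz_pow t).1
  refine ⟨(M.σ ^ t) a, (M.σ ^ t) b, (map_ne_zero_iff _ hi).2 ha, (map_ne_zero_iff _ hi).2 hb, ?_⟩
  rw [← cj_span_singleton, ← cj_span_singleton, ← cj_mul, ← cj_mul, e]
theorem Eqv.ne_bot {M : Mdl k} {I J : Ideal M.R} (h : M.Eqv I J) (hI : I ≠ ⊥) : J ≠ ⊥ := by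
  obtain ⟨a, b, ha, _, e⟩ := h
  rintro rfl
  rw [Ideal.mul_bot, Ideal.mul_eq_bot, Ideal.span_singleton_eq_bot] at e
  exact e.elim ha hI
theorem eqv_span_mul {g : M.R} (hg : g ≠ 0) (I : Ideal M.R) : M.Eqv (Ideal.span {g} * I) I := by
  exact ⟨1, g, one_ne_zero, hg, by rw [Ideal.span_singleton_one, Ideal.top_mul]⟩
/-- Two inversions. -/
theorem eqv_of_inv {I J K : Ideal M.R} {g h : M.R} (hg : g ≠ 0) (hh : h ≠ 0)
    (h1 : I * J = Ideal.span {g}) (h2 : J * K = Ideal.span {h}) : M.Eqv I K := by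
  exact ⟨h, g, hh, hg, by rw [← h1, ← h2]; ring⟩

end Mdl

end Crest.Agent.R312
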