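import Crest.Agent.R312.APsi

/-! # Row 312, part A: the norm polynomial of an ideal, counting, reduction -/

set_option autoImplicit false
set_option linter.unusedSectionVars false

noncomputable section

open Polynomial Finset

namespace Crest.Agent.R312

namespace Mdl

variable {k : Type} [Field k] (M : Mdl k)

theorem apsi2_mem_iff {I J : Ideal M.R} {s : M.R} (hs : s ≠ 0)
    (h : I * J = Ideal.span {s}) (g : M.R) : g ∈ J ↔ ∀ u ∈ I, s ∣ g * u := by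
  constructor
  · intro hg u hu
    rw [← Ideal.mem_span_singleton, ← h, mul_comm g u]
    exact Ideal.mul_mem_mul hu hg
  · intro H
    have hI : I ≠ 0 := fun h0 => hs (by
      rw [h0, zero_mul] at h
      exact Ideal.span_singleton_eq_bot.1 h.symm)
    have h1 : I * Ideal.span {g} ≤ I * J := by
      rw [h, Ideal.mul_le]
      intro u hu v hv
      obtain ⟨c, rfl⟩ := Ideal.mem_span_singleton'.1 hv
      rw [Ideal.mem_span_singleton, show u * (c * g) = g * u * c by ring]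
      exact (H u hu).mul_right c
    have h2 : J ∣ Ideal.span {g} := (mul_dvd_mul_iff_left hI).1 (Ideal.dvd_iff_le.2 h1)
    exact Ideal.le_of_dvd h2 (Ideal.mem_span_singleton_self g)

theorem apsi2_cancel_Y {J : Ideal M.R} (hJ : M.Cop J) (m : ℕ) {x : M.R} (hx : x * M.Y ^ m ∈ J) :
    x ∈ J := by
  have h1 : (1 : M.R) ∈ J ⊔ Ideal.span {M.Y} := by
    rw [(M.cop_iff J).1 hJ]; trivial
  obtain ⟨a, ha, b, hb, hab⟩ := Submodule.mem_sup.1 h1
  obtain ⟨c, rfl⟩ := Ideal.mem_span_singleton'.1 hb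
  induction m generalizing x with
  | zero => simpa using hx
  | succ m ih =>
    have h2 : x * M.Y ∈ J := ih (by rwa [mul_assoc, ← pow_succ'])
    have e : x = x * a + c * (x * M.Y) := by linear_combination (-x) * hab
    rw [e]
    exact J.add_mem (J.mul_mem_left _ ha) (J.mul_mem_left _ h2)

/-- A `σ`-stable ideal prime to `Y` is generated by a polynomial: take `ψ` a generator of
`J.comap ι`; for `g ∈ J`, `proj_eq` gives `ι (co m g) Y^m ∈ J`, and `Y^m` is invertible mod `J`. -/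
theorem exists_eq_span_of_stable {J : Ideal M.R} (hJ : M.Cop J) (hs : M.cj 1 J = J) :
    ∃ ψ : k[X], J = Ideal.span {M.ι ψ} := by
  obtain ⟨ψ, hψ⟩ := (IsPrincipalIdealRing.principal (J.comap M.ι)).principal
  have hψ' : J.comap M.ι = Ideal.span {ψ} := hψ
  have hst : ∀ t, M.cj t J = J := fun t => by
    induction t with
    | zero => exact M.cj_zero J
    | succ t ih => rw [add_comm, ← M.cj_cj, ih, hs]
  refine ⟨ψ, le_antisymm (fun g hg => ?_) ?_⟩
  · rw [Ideal.mem_span_singleton, C_dvd_iff]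
    intro m hm
    rw [← Ideal.mem_span_singleton, ← hψ', Ideal.mem_comap]
    have h1 : M.ι ((M.l : k[X]) * M.co m g) * M.Y ^ m ∈ J := by
      rw [proj_eq M.Cz_pow M.Cz_prim g hm]
      refine J.sum_mem fun j _ => J.mul_mem_left _ ?_
      have := M.mem_cj j hg
      rwa [hst] at this
    have h2 := J.mul_mem_left (M.ι (C (M.l : k)⁻¹)) (M.apsi2_cancel_Y hJ m h1)
    rwa [← map_mul, ← mul_assoc, ← map_natCast (C : k →+* k[X]), ← map_mul,
      inv_mul_cancel₀ M.l_ne_zero, map_one, one_mul] at h2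
  · rw [Ideal.span_singleton_le_iff_mem, ← Ideal.mem_comap, hψ']
    exact Ideal.mem_span_singleton_self ψ

theorem isPsi_span (g : M.R) : M.IsPsi (Ideal.span {g}) (M.nm g) := by
  unfold IsPsi A
  simp only [cj_span_singleton]
  rw [Ideal.prod_span_singleton, C_nm M.Cz_pow M.Cz_prim]

/-- Choose `w` with `I·(Y) ⊔ (w) = I` (`IsDedekindDomain.exists_sup_span_eq`), write `(w) = I J`;
then `J` is prime to `Y` (cancel `I`), `A J l = (ψ')`, `(nm w) = A I l · (ψ')`, so `ψ' ∣ nm w`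
(`C_dvd_C_iff`) and cancel. -/
theorem exists_isPsi {I : Ideal M.R} (hI : I ≠ ⊥) : ∃ ψ, M.IsPsi I ψ := by
  have hY : Ideal.span {M.Y} ≠ 0 := fun h => M.Y_ne_zero (Ideal.span_singleton_eq_bot.1 h)
  obtain ⟨w, hw⟩ := IsDedekindDomain.exists_sup_span_eq (I := I * Ideal.span {M.Y}) (J := I)
    Ideal.mul_le_left (mul_ne_zero hI hY)
  obtain ⟨J, hJ⟩ : I ∣ Ideal.span {w} := Ideal.dvd_iff_le.2 (le_sup_right.trans hw.le)
  have hc : M.Cop J := by
    rw [M.cop_iff]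
    refine mul_left_cancel₀ hI ?_
    rw [Ideal.mul_sup, Ideal.mul_top, ← hJ, sup_comm, hw]
  obtain ⟨ψ', hψ'⟩ := M.exists_eq_span_of_stable (hc.A M.l) (M.cj_A_l 1 J)
  have h1 : Ideal.span {M.ι (M.nm w)} = M.A I M.l * Ideal.span {M.ι ψ'} := by
    rw [← hψ', ← M.A_mul, ← hJ]
    exact (M.isPsi_span w).symm
  have h2 : M.ι ψ' ∣ M.ι (M.nm w) := by
    rw [← Ideal.mem_span_singleton]
    exact (h1.le.trans Ideal.mul_le_right) (Ideal.mem_span_singleton_self _)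
  obtain ⟨ψ, hψ⟩ := (C_dvd_C_iff _ _).1 h2
  refine ⟨ψ, mul_right_cancel₀ (b := Ideal.span {M.ι ψ'}) (hψ' ▸ (hc.A M.l).ne_bot) ?_⟩
  rw [← h1, hψ, Ideal.span_singleton_mul_span_singleton, ← map_mul, mul_comm]

theorem IsPsi.ne_zero {M : Mdl k} {I : Ideal M.R} {ψ : k[X]} (h : M.IsPsi I ψ) (hI : I ≠ ⊥) :
    ψ ≠ 0 := by
  rintro rfl
  refine M.A_ne_bot hI M.l (h.trans ?_)
  rw [map_zero, Ideal.span_singleton_eq_bot]
theorem IsPsi.mem {M : Mdl k} {I : Ideal M.R} {ψ : k[X]} (h : M.IsPsi I ψ) : M.ι ψ ∈ I := by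
  have h1 : M.cj 0 I ∣ M.A I M.l :=
    Finset.dvd_prod_of_mem (fun t => M.cj t I) (mem_range.2 M.hl.pos)
  rw [M.cj_zero, h] at h1
  exact Ideal.le_of_dvd h1 (Ideal.mem_span_singleton_self _)
theorem IsPsi.mul {M : Mdl k} {I J : Ideal M.R} {ψ χ : k[X]} (h : M.IsPsi I ψ)
    (h' : M.IsPsi J χ) : M.IsPsi (I * J) (ψ * χ) := by
  unfold IsPsi at *
  rw [M.A_mul, h, h', Ideal.span_singleton_mul_span_singleton, map_mul]
theorem isPsi_top : M.IsPsi ⊤ 1 := by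
  unfold IsPsi A
  simp only [cj_top]
  rw [map_one, Ideal.span_singleton_one, ← Ideal.one_eq_top, Finset.prod_const_one]
theorem IsPsi.prod {M : Mdl k} {β : Type} (s : Finset β) {I : β → Ideal M.R} {ψ : β → k[X]}
    (h : ∀ i ∈ s, M.IsPsi (I i) (ψ i)) : M.IsPsi (∏ i ∈ s, I i) (∏ i ∈ s, ψ i) := by
  classical
  induction s using Finset.induction_on with
  | empty =>
    rw [Finset.prod_empty, Finset.prod_empty, Ideal.one_eq_top]
    exact M.isPsi_top
  | insert i s hi ih =>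
    rw [Finset.prod_insert hi, Finset.prod_insert hi]
    exact (h i (mem_insert_self _ _)).mul (ih fun j hj => h j (mem_insert_of_mem hj))
theorem IsPsi.cj {M : Mdl k} {I : Ideal M.R} {ψ : k[X]} (h : M.IsPsi I ψ) (t : ℕ) :
    M.IsPsi (M.cj t I) ψ := by
  unfold IsPsi at *
  rw [← h, ← M.cj_A_l t I]
  unfold Mdl.A
  rw [M.cj_prod]
  exact Finset.prod_congr rfl fun s _ => by rw [M.cj_cj, M.cj_cj, add_comm]
theorem IsPsi.A {M : Mdl k} {I : Ideal M.R} {ψ : k[X]} (h : M.IsPsi I ψ) (i : ℕ) :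
    M.IsPsi (M.A I i) (ψ ^ i) := by
  have := IsPsi.prod (range i) (I := fun t => M.cj t I) (ψ := fun _ => ψ) fun t _ => h.cj t
  rwa [Finset.prod_const, card_range] at this
theorem IsPsi.unique {M : Mdl k} {I : Ideal M.R} {ψ χ : k[X]} (h : M.IsPsi I ψ)
    (h' : M.IsPsi I χ) : ∃ c : k, c ≠ 0 ∧ χ = C c * ψ := by
  have e : Ideal.span {M.ι ψ} = Ideal.span {M.ι χ} := h.symm.trans h'
  have e' := Ideal.span_singleton_eq_span_singleton.1 e
  obtain ⟨u, hu⟩ := associated_of_dvd_dvd ((C_dvd_C_iff _ _).1 e'.dvd)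
    ((C_dvd_C_iff _ _).1 e'.symm.dvd)
  obtain ⟨c, hc, hcu⟩ := Polynomial.isUnit_iff.1 u.isUnit
  exact ⟨c, hc.ne_zero, by rw [hcu, ← hu, mul_comm]⟩
theorem IsPsi.C_mul {M : Mdl k} {I : Ideal M.R} {ψ : k[X]} (h : M.IsPsi I ψ) {c : k}
    (hc : c ≠ 0) : M.IsPsi I (C c * ψ) := by
  unfold IsPsi at *
  rw [h, map_mul, Ideal.span_singleton_mul_left_unit ((isUnit_C.2 hc.isUnit).map M.ι)]
theorem IsPsi.natDegree_eq {M : Mdl k} {I : Ideal M.R} {ψ χ : k[X]} (h : M.IsPsi I ψ)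
    (h' : M.IsPsi I χ) : ψ.natDegree = χ.natDegree := by
  obtain ⟨c, hc, rfl⟩ := h.unique h'
  rw [natDegree_C_mul hc]
theorem IsPsi.eval_ne_zero {M : Mdl k} {I : Ideal M.R} {ψ : k[X]} (h : M.IsPsi I ψ)
    (hI : M.Cop I) {b : k} (hb : b ∈ M.T) : ψ.eval b ≠ 0 := by
  obtain ⟨g, hg, h0⟩ := hI.A M.l b hb
  rw [h] at hg
  obtain ⟨u, rfl⟩ := Ideal.mem_span_singleton.1 hg
  rw [M.ev_mul hb, M.ev_ι] at h0
  exact left_ne_zero_of_mul h0
/-- `A I i` is the colon ideal of the complementary product. -/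
theorem IsPsi.mem_A_iff {M : Mdl k} {I : Ideal M.R} {ψ : k[X]} (h : M.IsPsi I ψ) (hI : I ≠ ⊥)
    {i : ℕ} (hi : i ≤ M.l) (g : M.R) :
    g ∈ M.A I i ↔ ∀ u ∈ M.cj i (M.A I (M.l - i)), M.ι ψ ∣ g * u := by
  refine M.apsi2_mem_iff (M.ι_ne_zero (h.ne_zero hI)) ?_ g
  rw [mul_comm, ← M.A_add, Nat.add_sub_cancel' hi]
  exact h
/-- If `I J = (s)` then `J` is the colon ideal `(s : I)`. -/
theorem mem_iff_of_mul_eq_span {I J : Ideal M.R} {s : M.R} (hs : s ≠ 0)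
    (h : I * J = Ideal.span {s}) (g : M.R) : g ∈ J ↔ ∀ u ∈ I, s ∣ g * u := by
  exact M.apsi2_mem_iff hs h g
theorem exists_mul_eq_span {I : Ideal M.R} {s : M.R} (hs : s ∈ I) :
    ∃ J, I * J = Ideal.span {s} := by
  obtain ⟨J, hJ⟩ : I ∣ Ideal.span {s} :=
    Ideal.dvd_iff_le.2 ((Ideal.span_singleton_le_iff_mem _).2 hs)
  exact ⟨J, hJ.symm⟩

/-- The obstruction only depends on the class.  Pick `g₁ ∈ I` not vanishing at `b`,
`g g₁ = h g₂` with `g₂ ∈ J`; `g₂` does not vanish at `b` either (symmetric choice and cancel);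
`ψ nm g₂ = c χ nm g₁` where `nm g · ψ = c · nm h · χ`; evaluate with `eval_nm`. -/
theorem Eqv.psi_rel {M : Mdl k} {I J : Ideal M.R} (h : M.Eqv I J) (hI : M.Cop I) (hJ : M.Cop J)
    {ψ χ : k[X]} (hψ : M.IsPsi I ψ) (hχ : M.IsPsi J χ) :
    ∃ c : k, c ≠ 0 ∧ ∀ b ∈ M.T, ∃ u : k, u ≠ 0 ∧ ψ.eval b = c * u ^ M.l * χ.eval b := by
  obtain ⟨g, h, hg, hh, e⟩ := h
  have h1 := (M.isPsi_span g).mul hψ
  have h2 := (M.isPsi_span h).mul hχ
  rw [e] at h1
  obtain ⟨c, hc, hcc⟩ := h2.unique h1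
  refine ⟨c, hc, fun b hb => ?_⟩
  obtain ⟨g₁, hg₁, k1⟩ := hI b hb
  obtain ⟨h₁, hh₁, k2⟩ := hJ b hb
  obtain ⟨g₂, -, e1⟩ : ∃ z ∈ J, h * z = g * g₁ := Ideal.mem_span_singleton_mul.1
    (e ▸ Ideal.mul_mem_mul (Ideal.mem_span_singleton_self g) hg₁)
  obtain ⟨h₂, -, e2⟩ : ∃ z ∈ I, g * z = h * h₁ := Ideal.mem_span_singleton_mul.1
    (e.symm ▸ Ideal.mul_mem_mul (Ideal.mem_span_singleton_self h) hh₁)
  have e3 : g₁ * h₁ = h₂ * g₂ := mul_left_cancel₀ hg (by linear_combination (-h₁) * e1 - g₂ * e2)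
  have k3 : M.ev b g₂ ≠ 0 := by
    have := congrArg (M.ev b) e3
    rw [M.ev_mul hb, M.ev_mul hb] at this
    exact right_ne_zero_of_mul (this ▸ mul_ne_zero k1 k2)
  have e4 : M.nm h * M.nm g₂ = M.nm g * M.nm g₁ := by
    rw [← nm_mul M.Cz_pow M.Cz_prim, ← nm_mul M.Cz_pow M.Cz_prim, e1]
  have e5 : ψ * M.nm g₂ = C c * χ * M.nm g₁ := mul_left_cancel₀ (M.nm_ne_zero hg)
    (by linear_combination M.nm g₂ * hcc + C c * χ * e4)
  have e6 := congrArg (eval b) e5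
  rw [eval_mul, eval_mul, eval_mul, eval_C, M.eval_nm hb, M.eval_nm hb] at e6
  refine ⟨M.ev b g₁ / M.ev b g₂, div_ne_zero k1 k3, ?_⟩
  rw [div_pow]
  field_simp
  linear_combination e6

/-- An ideal containing a nonzero polynomial of degree `≤ W` is generated in bounded degree
(reduce the coordinates modulo the polynomial). -/
theorem span_inter_V {I : Ideal M.R} {p : k[X]} (hp : p ≠ 0) (hpI : M.ι p ∈ I) {W : ℕ}
    (hW : p.natDegree ≤ W) :
    Ideal.span {g | g ∈ I ∧ g ∈ M.V (M.l * (W + M.N))} = I := by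
  refine le_antisymm (Ideal.span_le.2 fun g hg => hg.1) fun g hg => ?_
  have e : g = M.ι p * (∑ j ∈ range M.l, M.ι (M.co j g / p) * M.Y ^ j) +
      ∑ j ∈ range M.l, M.ι (M.co j g % p) * M.Y ^ j := by
    conv_lhs => rw [← sum_co g]
    rw [Finset.mul_sum, ← Finset.sum_add_distrib]
    refine Finset.sum_congr rfl fun j _ => ?_
    rw [← mul_assoc, ← add_mul, ← map_mul, ← map_add, EuclideanDomain.div_add_mod]
  rw [e]
  refine Ideal.add_mem _ (Ideal.mul_mem_right _ _ (Ideal.subset_span ⟨hpI, ?_⟩))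
    (Ideal.subset_span ⟨?_, M.mem_V_of_natDegree fun j hj => ?_⟩)
  · rw [M.ι_mem_V_iff]
    exact Nat.mul_le_mul_left _ (hW.trans (Nat.le_add_right _ _))
  · rw [← sub_eq_of_eq_add' e]
    exact I.sub_mem hg (I.mul_mem_right _ hpI)
  · rw [co_sum (fun j => M.co j g % p) hj]
    exact (natDegree_le_natDegree (degree_mod_lt _ hp).le).trans hW

end Mdl

end Crest.Agent.R312
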