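import Crest.Agent.R312.AOpsF

/-! # Row 312, part A: extraction of `l`-th roots -/

set_option autoImplicit false
set_option linter.unusedSectionVars false

open Polynomial

namespace Crest.Agent.R312

variable {α : Type} {k : Type} [Field k] [Fintype k] {O : Ops α} {φ : α → k} {q l : ℕ}

theorem aroot_fold (h : O.Hom φ) (q : ℕ) (L : List α) (p : α) :
    φ (L.foldl (fun p r => O.add p (O.mul (O.sub O.one (O.ind q p)) r)) p) =
      (L.map φ).foldl (fun p r => p + (1 - p ^ (q - 1)) * r) (φ p) := by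
  induction L generalizing p with
  | nil => rfl
  | cons a L ih =>
    rw [List.foldl_cons, ih, List.map_cons, List.foldl_cons, h.add, h.mul, h.sub, h.one, Ops.ind, h.pow]

/-- The correction step, written in the field. -/
def aroot_step (q l : ℕ) (η x z : k) (i : ℕ) : k :=
  if l ^ (i + 1) ∣ q - 1 then
    ((List.range l).map fun j => z * η ^ (j * l ^ (i - 1)) *
      (1 - ((x * (z * η ^ (j * l ^ (i - 1))) ^ l) ^ ((q - 1) / l ^ (i + 1)) - 1) ^ (q - 1))).foldl
      (fun p r => p + (1 - p ^ (q - 1)) * r) 0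
  else z

theorem aroot_step_nat (h : O.Hom φ) (q l : ℕ) (η x z : α) (i : ℕ) :
    φ (O.rootStep q l η x z i) = aroot_step q l (φ η) (φ x) (φ z) i := by
  unfold Ops.rootStep aroot_step
  split_ifs
  · refine (aroot_fold h q _ O.zero).trans ?_
    rw [h.zero, List.map_map]
    congr 2
    funext j
    simp only [Function.comp, Ops.ind, h.mul, h.sub, h.pow, h.one]
  · rfl

theorem aroot_steps_nat (h : O.Hom φ) (q l : ℕ) (η x : α) (L : List ℕ) (z : α) :
    φ (L.foldl (O.rootStep q l η x) z) = L.foldl (aroot_step q l (φ η) (φ x)) (φ z) := by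
  induction L generalizing z with
  | nil => rfl
  | cons a L ih => rw [List.foldl_cons, ih, List.foldl_cons, aroot_step_nat h]

theorem aroot_root (h : O.Hom φ) (q l : ℕ) (η x : α) :
    φ (O.root q l η x) =
      (φ x * (List.range' 1 (Nat.size q)).foldl (aroot_step q l (φ η) (φ x)) 1 ^ l) ^
          Ops.invExp l (Ops.coPart q l) *
        (List.range' 1 (Nat.size q)).foldl (aroot_step q l (φ η) (φ x)) 1 ^ (2 * q - 3) := by
  simp only [Ops.root, Ops.pinv, h.mul, h.pow, aroot_steps_nat h, h.one]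

theorem aroot_prim (hq : Fintype.card k = q) (hl : l.Prime) (hlq : l ∣ q - 1) {η : k}
    (hη0 : η ≠ 0) (hη : η ^ ((q - 1) / l) ≠ 1) : IsPrimitiveRoot (η ^ ((q - 1) / l)) l := by
  have := Fact.mk hl
  have h1 : (η ^ ((q - 1) / l)) ^ l = 1 := by
    rw [← pow_mul, Nat.div_mul_cancel hlq, ← hq]
    exact FiniteField.pow_card_sub_one_eq_one η hη0
  have h2 := IsPrimitiveRoot.orderOf (η ^ ((q - 1) / l))
  rwa [orderOf_eq_prime h1 hη] at h2

theorem aroot_coPart {s t : ℕ} (hl : 0 < l) (ht : ¬ l ∣ t) (n : ℕ) :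
    (List.range n).foldl (fun t _ => if l ∣ t then t / l else t) (l ^ s * t) = l ^ (s - n) * t := by
  induction n with
  | zero => rfl
  | succ n ih =>
    rw [List.range_succ, List.foldl_append, ih, List.foldl_cons, List.foldl_nil]
    rcases Nat.lt_or_ge n s with h | h
    · obtain ⟨m, hm⟩ : ∃ m, s - n = m + 1 := ⟨s - n - 1, by omega⟩
      have h2 : s - (n + 1) = m := by omega
      rw [hm, h2, pow_succ', mul_assoc, if_pos (dvd_mul_right _ _), Nat.mul_div_cancel_left _ hl]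
    · have h1 : s - n = 0 := by omega
      have h2 : s - (n + 1) = 0 := by omega
      rw [h1, h2, pow_zero, one_mul, if_neg ht]

theorem aroot_invExp {t : ℕ} (hl : l.Prime) (ht : ¬ l ∣ t) :
    ∃ c, Ops.invExp l t * l = 1 + t * c := by
  have hex : ∃ c ∈ List.range l, decide (l ∣ 1 + t * c) = true := by
    have := Fact.mk hl
    have h0 : (t : ZMod l) ≠ 0 := fun h => ht ((ZMod.natCast_eq_zero_iff t l).1 h)
    refine ⟨(-(t : ZMod l)⁻¹).val, List.mem_range.2 (ZMod.val_lt _), decide_eq_true ?_⟩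
    rw [← ZMod.natCast_eq_zero_iff]
    push_cast
    rw [ZMod.natCast_zmod_val, mul_neg, mul_inv_cancel₀ h0, add_neg_cancel]
  obtain ⟨c, hc⟩ := Option.isSome_iff_exists.1 (List.find?_isSome.2 hex)
  refine ⟨c, ?_⟩
  unfold Ops.invExp
  rw [hc, Option.getD_some]
  have h1 := List.find?_some hc
  exact Nat.div_mul_cancel (of_decide_eq_true h1)

open Classical in
theorem aroot_one (hq : Fintype.card k = q) (hl : l.Prime) (hlq : l ∣ q - 1) {η x z : k}
    (hη0 : η ≠ 0) (hη : η ^ ((q - 1) / l) ≠ 1) (hz : z ≠ 0) {i : ℕ} (hi : l ^ (i + 1 + 1) ∣ q - 1)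
    (hx : (x * z ^ l) ^ ((q - 1) / l ^ (i + 1)) = 1) :
    aroot_step q l η x z (i + 1) ≠ 0 ∧
      (x * aroot_step q l η x z (i + 1) ^ l) ^ ((q - 1) / l ^ (i + 1 + 1)) = 1 := by
  have : NeZero l := ⟨hl.ne_zero⟩
  have H := Ops.ofRing_hom (B := k)
  rw [← aroot_step_nat H]
  unfold Ops.rootStep
  rw [if_pos hi]
  obtain ⟨m, hm⟩ := hi
  have hl0 := hl.pos
  have e1 : (q - 1) / l ^ (i + 1 + 1) = m := by
    rw [hm, Nat.mul_div_cancel_left _ (pow_pos hl0 _)]
  have e2 : (q - 1) / l ^ (i + 1) = m * l := by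
    rw [hm, pow_succ l (i + 1), mul_assoc, Nat.mul_div_cancel_left _ (pow_pos hl0 _), mul_comm]
  have e3 : (q - 1) / l = l ^ i * l * m := by
    rw [hm, pow_succ' l (i + 1), mul_assoc, Nat.mul_div_cancel_left _ hl0, pow_succ]
  rw [e2, pow_mul] at hx
  obtain ⟨j, hj, hj2⟩ := (aroot_prim hq hl hlq hη0 hη).eq_pow_of_pow_eq_one
    (ξ := ((x * z ^ l) ^ m)⁻¹) (by rw [inv_pow, hx, inv_one])
  have hu : (x * z ^ l) ^ m ≠ 0 := fun h => by
    rw [h, zero_pow hl.ne_zero] at hx; exact zero_ne_one hx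
  have hj3 : (x * (z * η ^ (j * l ^ i)) ^ l) ^ m = 1 := by
    rw [mul_pow z, ← mul_assoc, mul_pow, ← pow_mul, ← pow_mul, ← mul_inv_cancel₀ hu, ← hj2, e3,
      ← pow_mul]
    congr 2
    ring
  have hval : ∀ j : ℕ, (Ops.ofRing k).mul ((Ops.ofRing k).mul z ((Ops.ofRing k).pow η (j * l ^ (i + 1 - 1))))
      ((Ops.ofRing k).sub (Ops.ofRing k).one ((Ops.ofRing k).ind q ((Ops.ofRing k).sub
        ((Ops.ofRing k).pow ((Ops.ofRing k).mul x ((Ops.ofRing k).pow ((Ops.ofRing k).mul z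
          ((Ops.ofRing k).pow η (j * l ^ (i + 1 - 1)))) l)) ((q - 1) / l ^ (i + 1 + 1)))
        (Ops.ofRing k).one))) =
      if (x * (z * η ^ (j * l ^ i)) ^ l) ^ m = 1 then z * η ^ (j * l ^ i) else 0 := by
    intro j
    have a1 := H.ind hq
    have a2 := H.mul
    have a3 := H.sub
    have a4 := H.pow
    have a5 := H.one
    simp only [a1, a2, a3, a4, a5, e1, Nat.add_sub_cancel, sub_eq_zero]
    split_ifs <;> simp
  simp only [hval]
  obtain ⟨h1, r, hr, h2⟩ := H.firstNZ_mem H.self (H.ind hq) (l := (List.range l).map fun j =>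
    if (x * (z * η ^ (j * l ^ i)) ^ l) ^ m = 1 then z * η ^ (j * l ^ i) else 0)
    ⟨_, List.mem_map.2 ⟨j, List.mem_range.2 hj, rfl⟩, by
      rw [if_pos hj3]; exact mul_ne_zero hz (pow_ne_zero _ hη0)⟩
  refine ⟨h1, ?_⟩
  obtain ⟨j', -, rfl⟩ := List.mem_map.1 hr
  rw [h2] at h1
  rw [h2, e1]
  split_ifs at h1 ⊢ with hc
  · exact hc
  · exact absurd rfl h1

theorem aroot_inv (hq : Fintype.card k = q) (hl : l.Prime) (hlq : l ∣ q - 1) {η x : k}
    (hη0 : η ≠ 0) (hη : η ^ ((q - 1) / l) ≠ 1) (hx : x ^ ((q - 1) / l) = 1) {s : ℕ}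
    (hs : ∀ i, l ^ i ∣ q - 1 ↔ i ≤ s) (n : ℕ) :
    (List.range' 1 n).foldl (aroot_step q l η x) 1 ≠ 0 ∧
      (x * (List.range' 1 n).foldl (aroot_step q l η x) 1 ^ l) ^ ((q - 1) / l ^ min (n + 1) s) = 1 := by
  induction n with
  | zero =>
    have h1 : 1 ≤ s := (hs 1).1 (by rwa [pow_one])
    simp [min_eq_left h1, hx]
  | succ n ih =>
    rw [List.range'_1_concat, List.foldl_append, List.foldl_cons, List.foldl_nil, add_comm 1 n]
    by_cases hi : l ^ (n + 1 + 1) ∣ q - 1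
    · have h1 := (hs _).1 hi
      rw [min_eq_left h1]
      rw [min_eq_left (by omega)] at ih
      exact aroot_one hq hl hlq hη0 hη ih.1 hi ih.2
    · have h1 : ¬ n + 1 + 1 ≤ s := fun h => hi ((hs _).2 h)
      rw [aroot_step, if_neg hi, min_eq_right (by omega)]
      rwa [min_eq_right (by omega)] at ih

/-- The root only depends on the interpretations of the arguments
(all steps commute with `φ`; for `firstNZ` use `Ops.Hom.firstNZ` on both sides or unfold the fold). -/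
theorem Ops.Hom.root_nat (h : O.Hom φ) (q l : ℕ) (η x : α) :
    φ (O.root q l η x) = (Ops.ofRing k).root q l (φ η) (φ x) :=
  (aroot_root h q l η x).trans (aroot_root (Ops.ofRing_hom (B := k)) q l (φ η) (φ x)).symm

/-- Write `Q = q - 1 = l^s t`.  Invariant after the steps `1, …, i`: `z ≠ 0` and
`(x z^l)^(Q / l^(min (i+1) s)) = 1`: in step `i` (`i + 1 ≤ s`) `(x z^l)^(Q/l^(i+1))` is an `l`-th root of
unity, and multiplying `z` by `η^(j l^(i-1))` multiplies it by `ζ^j`, `ζ = η^(Q/l)` primitive.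
At the end `(x z^l)^t = 1` (`s ≤ size q`), `coPart q l = t`, `l · invExp l t = 1 + t c`. -/
theorem root_pow (hq : Fintype.card k = q) (hl : l.Prime) (hlq : l ∣ q - 1) {η x : k}
    (hη0 : η ≠ 0) (hη : η ^ ((q - 1) / l) ≠ 1) (hx0 : x ≠ 0) (hx : x ^ ((q - 1) / l) = 1) :
    (Ops.ofRing k).root q l η x ^ l = x := by
  have hq1 : 1 < q := hq ▸ Fintype.one_lt_card
  obtain ⟨s, t, ht, hst⟩ := Nat.exists_eq_pow_mul_and_not_dvd (show q - 1 ≠ 0 by omega) l hl.ne_one
  have hs : ∀ i, l ^ i ∣ q - 1 ↔ i ≤ s := by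
    intro i
    rw [hst, (((Nat.Prime.coprime_iff_not_dvd hl).2 ht).pow_left i).dvd_mul_right,
      Nat.pow_dvd_pow_iff_le_right hl.one_lt]
  have hsz : s ≤ Nat.size q := by
    have h1 : 2 ^ s ≤ q :=
      (Nat.pow_le_pow_left hl.two_le s).trans
        ((Nat.le_of_dvd (by omega) ((hs s).2 le_rfl)).trans (Nat.sub_le _ _))
    exact (Nat.lt_size.2 h1).le
  obtain ⟨h1, h2⟩ := aroot_inv hq hl hlq hη0 hη hx hs (Nat.size q)
  have e1 : Ops.coPart q l = t := by
    rw [Ops.coPart, hst, aroot_coPart hl.pos ht, Nat.sub_eq_zero_of_le hsz, pow_zero, one_mul]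
  have e2 : (q - 1) / l ^ s = t := by rw [hst, Nat.mul_div_cancel_left _ (pow_pos hl.pos _)]
  rw [min_eq_right (by omega), e2] at h2
  obtain ⟨c, hc⟩ := aroot_invExp hl ht
  have h3 := aroot_root (Ops.ofRing_hom (B := k)) q l η x
  rw [h3, e1]
  set z := (List.range' 1 (Nat.size q)).foldl (aroot_step q l η x) 1
  have h4 : z * z ^ (2 * q - 3) = 1 := by
    rw [← pow_succ', show 2 * q - 3 + 1 = (q - 1) * 2 by omega, pow_mul, ← hq,
      FiniteField.pow_card_sub_one_eq_one z h1, one_pow]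
  rw [mul_pow, ← pow_mul, hc, pow_add, pow_mul, h2, one_pow, mul_one, pow_one, mul_assoc, ← mul_pow,
    h4, one_pow, mul_one]

theorem Ops.Hom.root (h : O.Hom φ) (hq : Fintype.card k = q) (hl : l.Prime) (hlq : l ∣ q - 1)
    {η x : α} (hη0 : φ η ≠ 0) (hη : φ η ^ ((q - 1) / l) ≠ 1) (hx0 : φ x ≠ 0)
    (hx : φ x ^ ((q - 1) / l) = 1) : φ (O.root q l η x) ^ l = φ x := by
  rw [h.root_nat, root_pow hq hl hlq hη0 hη hx0 hx]

/-- `η^((q-1)/l)` is a primitive `l`-th root of unity. -/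
theorem isPrimitiveRoot_of_nonres (hq : Fintype.card k = q) (hl : l.Prime) (hlq : l ∣ q - 1) {η : k}
    (hη0 : η ≠ 0) (hη : η ^ ((q - 1) / l) ≠ 1) : IsPrimitiveRoot (η ^ ((q - 1) / l)) l :=
  aroot_prim hq hl hlq hη0 hη

end Crest.Agent.R312
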