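import Crest.Agent.R312.AAlg
import Crest.Agent.R312.ARoot
import Crest.Agent.R312.ADivDefs

/-! # Row 312, part A: correctness of the arithmetic in the coordinate ring -/

set_option autoImplicit false
set_option linter.unusedSectionVars false

noncomputable section

open Polynomial Finset

namespace Crest.Agent.R312

variable {α : Type} {k : Type} [Field k] [Fintype k]

namespace Mdl
variable (M : Mdl k) (φ : α → k)
/-- Interpretation of an element. -/
def toR (g : Relt α) : M.R := ∑ j ∈ range M.l, M.ι (toP φ (g.getD j [])) * M.Y ^ j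
/-- Interpretation of a tuple. -/
def tup (x : Gens α) : ℕ → M.R := fun i => M.toR φ (x.getD i [])
/-- The ideal generated by a list. -/
def idl (G : Gens α) : Ideal M.R := lspan M.R (M.toR φ) G
/-- The subspace spanned by a list. -/
abbrev ksp (G : Gens α) : Submodule k M.R := lspan k (M.toR φ) G
end Mdl

/-- `φ` interprets the environment in the model `M`. -/
structure Pt (E : Env α) (M : Mdl k) (φ : α → k) : Prop where
  hom : E.O.Hom φ
  card : Fintype.card k = E.q
  l_eq : E.l = M.l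
  dvd : E.l ∣ E.q - 1
  η_ne : φ E.η ≠ 0
  η_pow : φ E.η ^ ((E.q - 1) / E.l) = M.z
  F_eq : toP φ E.F = M.F
  Fm_eq : monicP φ E.Fm = M.Fm

theorem aspec1_getD {β : Type} (f : ℕ → β) (d : β) {n j : ℕ} (hj : j < n) :
    ((List.range n).map f).getD j d = f j := by
  simp [List.getD_eq_getElem?_getD, hj]

theorem aspec1_sum {β : Type} [AddCommMonoid β] (f : ℕ → β) (n : ℕ) :
    ((List.range n).map f).sum = ∑ i ∈ range n, f i := by
  induction n with
  | zero => simp
  | succ n ih => rw [List.range_succ, List.map_append, List.sum_append, ih, sum_range_succ]; simp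

theorem aspec1_single {β : Type} (d x : β) (u v : ℕ) :
    (List.replicate u d ++ [x]).getD v d = if v = u then x else d := by
  induction u generalizing v with
  | zero => rcases v with _ | v <;> simp
  | succ u ih =>
    rcases v with _ | v
    · simp [List.replicate_succ]
    · rw [List.replicate_succ, List.cons_append, List.getD_cons_succ, ih]
      simp

theorem aspec1_getD_mem {β : Type} (l : List β) (i : ℕ) (d : β) :
    l.getD i d ∈ l ∨ l.getD i d = d := by
  rcases lt_or_ge i l.length with hi | hi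
  · rw [List.getD_eq_getElem _ _ hi]
    exact Or.inl (List.getElem_mem hi)
  · exact Or.inr (List.getD_eq_default _ _ hi)

theorem aspec1_len {β : Type} {G : List (List (List β))} {g : List (List β)} (hg : g ∈ G) (j : ℕ) :
    (g.getD j []).length ≤ mlen G.flatten := by
  rcases aspec1_getD_mem g j [] with h1 | h1
  · exact length_le_mlen (List.mem_flatten.2 ⟨g, hg, h1⟩)
  · rw [h1]
    exact Nat.zero_le _

namespace Pt

variable {E : Env α} {M : Mdl k} {φ : α → k} (h : Pt E M φ)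
include h

theorem N_eq : E.N = M.N := by
  rw [Env.N, ← monicP_natDegree (φ := φ), h.Fm_eq, M.Fm_natDegree]
theorem ζ_eq : φ E.ζ = M.z := by
  rw [Env.ζ, h.hom.pow, h.η_pow]
theorem η_pow_ne : φ E.η ^ ((E.q - 1) / E.l) ≠ 1 := by
  rw [h.η_pow]
  exact M.hz.ne_one M.hl.one_lt
theorem hom2 {b : k} (hb : b ∈ M.T) : E.O2.Hom (fun x => (toP φ x).eval b) := by
  refine h.hom.quot_eval E.Fm ?_
  rw [h.Fm_eq]
  exact (M.Fm_dvd_iff M.Fm).1 dvd_rfl b hb
theorem co_toR (g : Relt α) {j : ℕ} (hj : j < M.l) : M.co j (M.toR φ g) = toP φ (g.getD j []) := by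
  exact co_sum (fun j => toP φ (g.getD j [])) hj
theorem homRV : E.RV.Hom φ (M.toR φ) := by
  have H := h.hom.polyM.list
  refine ⟨ext_co fun j hj => ?_, fun x y => ext_co fun j hj => ?_, fun c x => ext_co fun j hj => ?_⟩
  · rw [h.co_toR _ hj, map_zero]
    exact congrFun H.zero j
  · rw [map_add, h.co_toR _ hj, h.co_toR _ hj, h.co_toR _ hj]
    exact congrFun (H.add x y) j
  · rw [LinearMap.map_smul_of_tower, h.co_toR _ hj, h.co_toR _ hj]
    exact congrFun (H.smul c x) j
theorem homTV : E.TV.Hom φ (M.tup φ) := by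
  exact h.homRV.list
theorem toR_rmul (g g' : Relt α) : M.toR φ (E.rmul g g') = M.toR φ g * M.toR φ g' := by
  refine ext_co fun m hm => ?_
  rw [h.co_toR _ hm, co_mul _ _ hm, Env.rmul, h.l_eq, aspec1_getD _ _ hm, h.hom.poly.sum,
    List.map_map, aspec1_sum]
  refine sum_congr rfl fun i hi => ?_
  have hi' := mem_range.1 hi
  simp only [Function.comp_apply]
  split_ifs with him
  · rw [h.co_toR _ hi', h.co_toR _ (by omega : m - i < M.l)]
    exact h.hom.poly.mul _ _
  · rw [h.co_toR _ hi', h.co_toR _ (by omega : M.l + m - i < M.l), ← h.F_eq]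
    exact (h.hom.poly.mul _ _).trans (congrArg _ (h.hom.poly.mul _ _))
theorem toR_single (p : List α) : M.toR φ [p] = M.ι (toP φ p) := by
  refine ext_co fun j hj => ?_
  rw [h.co_toR _ hj, co_C]
  rcases j with _ | j
  · simp
  · simp [toP]
theorem toR_nil : M.toR φ [] = 0 := by
  exact h.homRV.zero
theorem homRO : E.RO.Hom (M.toR φ) := by
  refine ⟨h.toR_nil, ?_, h.homRV.add, h.toR_rmul, fun x => ext_co fun j hj => ?_⟩
  · change M.toR φ [[E.O.one]] = 1
    rw [h.toR_single, toP_singleton, h.hom.one, map_one, map_one]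
  · rw [map_neg, h.co_toR _ hj, h.co_toR _ hj, ← h.hom.poly.neg]
    congr 1
    exact List.getD_map x [] (List.map E.O.neg)
theorem toR_rpow (g : Relt α) (n : ℕ) : M.toR φ (E.rpow g n) = M.toR φ g ^ n := by
  rw [Env.rpow, h.homRO.prod, List.map_replicate, List.prod_replicate]
theorem toR_rsig (t : ℕ) (g : Relt α) : M.toR φ (E.rsig t g) = (M.σ ^ t) (M.toR φ g) := by
  refine ext_co fun j hj => ?_
  rw [co_sig_pow, h.co_toR _ hj, h.co_toR _ hj, Env.rsig, h.l_eq, aspec1_getD _ _ hj,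
    h.hom.toP_map_mul, h.hom.pow, h.ζ_eq, map_pow]
theorem toR_rmon (i : ℕ) {j : ℕ} (hj : j < M.l) :
    M.toR φ (E.rmon i j) = M.ι (X ^ i) * M.Y ^ j := by
  refine ext_co fun m hm => ?_
  rw [h.co_toR _ hm, co_C_mul_pow _ hj, Env.rmon, aspec1_single]
  split_ifs
  · exact h.hom.toP_monomial i
  · rfl
open Classical in
theorem nzR (g : Relt α) : φ (E.nzR g) = if M.toR φ g = 0 then 0 else 1 := by
  rw [Env.nzR, h.hom.anyNZ h.card]
  refine if_congr ⟨fun H => ext_co fun j hj => ?_, fun H x hx => ?_⟩ rfl rfl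
  · rw [h.co_toR _ hj, map_zero, toP_eq_zero_iff]
    exact fun x hx => H x (List.mem_flatMap.2 ⟨j, List.mem_range.2 (h.l_eq ▸ hj), hx⟩)
  · obtain ⟨j, hj, hx⟩ := List.mem_flatMap.1 hx
    have hj' : j < M.l := h.l_eq ▸ List.mem_range.1 hj
    refine (toP_eq_zero_iff _).1 ?_ x hx
    rw [← h.co_toR _ hj', H, map_zero]
open Classical in
theorem nzT (x : Gens α) : φ (E.nzT x) = if M.tup φ x = 0 then 0 else 1 := by
  rw [Env.nzT, h.hom.anyNZ h.card]
  refine if_congr ⟨fun H => funext fun i => ?_, fun H y hy => ?_⟩ rfl rfl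
  · rcases aspec1_getD_mem x i [] with h1 | h1
    · have h2 := H _ (List.mem_map_of_mem h1)
      rw [h.nzR] at h2
      change M.toR φ (x.getD i []) = 0
      by_contra h3
      rw [if_neg h3] at h2
      exact one_ne_zero h2
    · change M.toR φ (x.getD i []) = 0
      rw [h1, h.toR_nil]
  · obtain ⟨g, hg, rfl⟩ := List.mem_map.1 hy
    obtain ⟨i, hi, rfl⟩ := List.getElem_of_mem hg
    have h2 : M.toR φ (x.getD i []) = 0 := congrFun H i
    rw [List.getD_eq_getElem _ _ hi] at h2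
    rw [h.nzR, if_pos h2]
open Classical in
theorem nzK (K : List (Gens α)) :
    φ (E.nzK K) = if lspan k (M.tup φ) K = ⊥ then 0 else 1 := by
  rw [Env.nzK, h.hom.anyNZ h.card]
  refine if_congr ?_ rfl rfl
  rw [lspan_eq_bot]
  refine ⟨fun H r hr => ?_, fun H y hy => ?_⟩
  · have h2 := H _ (List.mem_map_of_mem hr)
    rw [h.nzT] at h2
    by_contra h3
    rw [if_neg h3] at h2
    exact one_ne_zero h2
  · obtain ⟨g, hg, rfl⟩ := List.mem_map.1 hy
    rw [h.nzT, if_pos (H g hg)]
theorem ksp_le_wt (G : Gens α) : M.ksp φ G ≤ M.V (E.wt G) := by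
  refine lspan_le.2 fun g hg => ?_
  rw [Env.wt, h.l_eq, h.N_eq]
  refine M.mem_V_of_natDegree fun j hj => ?_
  rw [h.co_toR _ hj]
  exact (natDegree_toP_le _).trans (aspec1_len hg j)
theorem ksp_mons (W : ℕ) : M.ksp φ (E.mons W) = M.V W := by
  rw [M.V_eq_span]
  refine congrArg (Submodule.span k) (Set.ext fun g => ⟨?_, ?_⟩)
  · rintro ⟨r, hr, rfl⟩
    simp only [Env.mons, List.mem_flatMap, List.mem_map, List.mem_filter, List.mem_range,
      decide_eq_true_eq, h.l_eq, h.N_eq] at hr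
    obtain ⟨j, hj, i, ⟨-, hi⟩, rfl⟩ := hr
    exact ⟨i, j, hj, hi, h.toR_rmon i hj⟩
  · rintro ⟨i, j, hj, hi, rfl⟩
    refine ⟨E.rmon i j, ?_, h.toR_rmon i hj⟩
    simp only [Env.mons, List.mem_flatMap, List.mem_map, List.mem_filter, List.mem_range,
      decide_eq_true_eq, h.l_eq, h.N_eq]
    refine ⟨j, hj, i, ⟨?_, hi⟩, rfl⟩
    have := Nat.le_mul_of_pos_left i M.hl.pos
    omega
theorem mem_ksp_pmons (D : ℕ) (g : M.R) :
    g ∈ M.ksp φ (E.pmons D) ↔ ∃ p : k[X], p.natDegree ≤ D ∧ g = M.ι p := by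
  have e : ∀ i, M.toR φ (E.rmon i 0) = M.ι (X ^ i) := fun i => by
    rw [h.toR_rmon i M.hl.pos, pow_zero, mul_one]
  constructor
  · intro hg
    have h1 : M.ksp φ (E.pmons D) ≤
        (degreeLE k D).map (Algebra.linearMap k[X] M.R |>.restrictScalars k) := by
      refine lspan_le.2 fun r hr => ?_
      obtain ⟨i, hi, rfl⟩ := List.mem_map.1 hr
      refine ⟨X ^ i, mem_degreeLE.2 ?_, (e i).symm⟩
      rw [degree_X_pow]
      exact_mod_cast Nat.lt_succ_iff.1 (List.mem_range.1 hi)
    obtain ⟨p, hp, rfl⟩ := h1 hg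
    exact ⟨p, natDegree_le_of_degree_le (mem_degreeLE.1 hp), rfl⟩
  · rintro ⟨p, hp, rfl⟩
    rw [as_sum_range_C_mul_X_pow' p (Nat.lt_succ_of_le hp), map_sum]
    refine Submodule.sum_mem _ fun i hi => ?_
    rw [map_mul, ← M.smul_eq, ← e]
    exact Submodule.smul_mem _ _
      (mem_lspan (List.mem_map_of_mem (List.mem_range.2 (mem_range.1 hi))))
theorem mem_span_tupB (Ls : List (Gens α)) (x : ℕ → M.R) :
    x ∈ lspan k (M.tup φ) (Env.tupB Ls) ↔ ∀ u, x u ∈ M.ksp φ (Ls.getD u []) := by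
  classical
  have e : ∀ (u : ℕ) (g : Relt α),
      M.tup φ (List.replicate u [] ++ [g]) = LinearMap.single k (fun _ : ℕ => M.R) u (M.toR φ g) := by
    intro u g
    funext v
    rw [Mdl.tup, aspec1_single, LinearMap.coe_single, Pi.single_apply]
    split_ifs
    · rfl
    · exact h.toR_nil
  constructor
  · intro hx
    have h1 : lspan k (M.tup φ) (Env.tupB Ls) ≤
        Submodule.pi Set.univ (fun u => M.ksp φ (Ls.getD u [])) := by
      refine lspan_le.2 fun r hr v _ => ?_
      simp only [Env.tupB, List.mem_flatMap, List.mem_map] at hr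
      obtain ⟨u, -, g, hg, rfl⟩ := hr
      rw [e, LinearMap.coe_single, Pi.single_apply]
      split_ifs with huv
      · rw [huv]; exact mem_lspan hg
      · exact Submodule.zero_mem _
    exact fun u => h1 hx u trivial
  · intro hx
    have h1 : x = ∑ u ∈ range Ls.length, LinearMap.single k (fun _ : ℕ => M.R) u (x u) := by
      funext v
      simp only [Finset.sum_apply, LinearMap.coe_single, Pi.single_apply, sum_ite_eq, mem_range]
      split_ifs with hv
      · rfl
      · have h2 := hx v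
        rw [List.getD_eq_default _ _ (not_lt.1 hv),
          show M.ksp φ [] = ⊥ from lspan_eq_bot.2 fun r hr => by simp at hr] at h2
        exact h2
    rw [h1]
    refine Submodule.sum_mem _ fun u hu => ?_
    have h2 : (M.ksp φ (Ls.getD u [])).map (LinearMap.single k (fun _ : ℕ => M.R) u) ≤
        lspan k (M.tup φ) (Env.tupB Ls) := by
      rw [← lspan_map (ψ' := M.tup φ) _ _ (fun g => List.replicate u [] ++ [g]) fun g _ => e u g]
      refine lspan_le.2 fun r hr => mem_lspan ?_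
      exact List.mem_flatMap.2 ⟨u, List.mem_range.2 (mem_range.1 hu), hr⟩
    exact h2 ⟨x u, hx u, rfl⟩
/-- Use `Ops.Hom.kerP` with the functionals `x ↦ (co j (x u)).coeff i` (`j < l` on `idx3`). -/
theorem kerT (us : List (Gens α)) (T : Gens α → Gens α) (𝒯 : (ℕ → M.R) →ₗ[k] (ℕ → M.R))
    (hT : ∀ u ∈ us, M.tup φ (T u) = 𝒯 (M.tup φ u)) :
    lspan k (M.tup φ) (E.kerT us T) = lspan k (M.tup φ) us ⊓ LinearMap.ker 𝒯 := by
  let lam : ℕ × ℕ × ℕ → (ℕ → M.R) →ₗ[k] k := fun i =>
    lcoeff k i.2.2 ∘ₗ (M.co i.2.1).restrictScalars k ∘ₗ LinearMap.proj i.1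
  have hlam : ∀ (i : ℕ × ℕ × ℕ) (y : ℕ → M.R), lam i y = (M.co i.2.1 (y i.1)).coeff i.2.2 :=
    fun _ _ => rfl
  have hmem : ∀ i : ℕ × ℕ × ℕ, i ∈ E.idx3 (us.map T) ↔ i.1 < mlen (us.map T) ∧ i.2.1 < M.l ∧
      i.2.2 < mlen (us.map T).flatten.flatten := by
    rintro ⟨a, b, c⟩
    simp only [Env.idx3, List.mem_product, List.mem_range, h.l_eq]
  have hf : ∀ (i : ℕ × ℕ × ℕ) (r : Gens α), i.2.1 < M.l → φ (E.fn3 i r) = lam i (M.tup φ r) := by
    intro i r hi
    rw [hlam, Mdl.tup, h.co_toR _ hi, h.hom.coeff_toP, Env.fn3]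
  rw [Env.kerT, h.hom.kerP h.card h.homTV h.homTV (lam := lam) _
    (fun i hi r => hf i r ((hmem i).1 hi).2.1) _ 𝒯]
  · congr 1
    refine congrArg (Submodule.span k) (Set.ext fun g => ⟨?_, ?_⟩)
    · rintro ⟨r, hr, rfl⟩
      obtain ⟨u, hu, rfl⟩ := List.mem_map.1 hr
      exact ⟨u, hu, rfl⟩
    · rintro ⟨u, hu, rfl⟩
      exact ⟨(u, T u), List.mem_map_of_mem hu, rfl⟩
  · intro r hr
    obtain ⟨u, hu, rfl⟩ := List.mem_map.1 hr
    exact hT u hu
  · intro y hy H
    funext a
    refine ext_co fun j hj => Polynomial.ext fun c => ?_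
    rw [Pi.zero_apply, map_zero, coeff_zero]
    change lam (a, j, c) y = 0
    by_cases hi : (a, j, c) ∈ E.idx3 (us.map T)
    · exact H _ hi
    refine (lspan_le (S := LinearMap.ker (lam (a, j, c)))).2 (fun r hr => ?_) hy
    obtain ⟨u, hu, rfl⟩ := List.mem_map.1 hr
    have hu' : T u ∈ us.map T := List.mem_map_of_mem hu
    rw [LinearMap.mem_ker, ← hf _ _ hj, Env.fn3, List.getD_eq_default, h.hom.zero]
    rw [hmem] at hi
    rcases lt_or_ge a (mlen (us.map T)) with ha | ha
    · have hc : mlen (us.map T).flatten.flatten ≤ c := not_lt.1 fun hc => hi ⟨ha, hj, hc⟩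
      refine le_trans ?_ hc
      rcases aspec1_getD_mem (T u) a [] with h1 | h1
      · exact aspec1_len (List.mem_flatten.2 ⟨_, hu', h1⟩) j
      · simp only [h1]
        simp
    · simp only [List.getD_eq_default _ _ ((length_le_mlen hu').trans ha)]
      simp
theorem ksp_compress (H : Gens α) : M.ksp φ (E.compress H) = M.ksp φ H := by
  let lam : ℕ × ℕ → M.R →ₗ[k] k := fun i => lcoeff k i.2 ∘ₗ (M.co i.1).restrictScalars k
  have hlam : ∀ (i : ℕ × ℕ) (y : M.R), lam i y = (M.co i.1 y).coeff i.2 := fun _ _ => rfl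
  have hmem : ∀ i : ℕ × ℕ, i ∈ List.range E.l ×ˢ List.range (mlen H.flatten) ↔
      i.1 < M.l ∧ i.2 < mlen H.flatten := by
    rintro ⟨a, b⟩
    simp only [List.mem_product, List.mem_range, h.l_eq]
  have hf : ∀ (i : ℕ × ℕ) (r : Relt α), i.1 < M.l →
      φ ((r.getD i.1 []).getD i.2 E.O.zero) = lam i (M.toR φ r) := by
    intro i r hi
    rw [hlam, h.co_toR _ hi, h.hom.coeff_toP]
  refine h.hom.elim_fst h.card h.homRV (lam := lam) _ (fun i hi r => hf i r ((hmem i).1 hi).1) H ?_
  intro y hy H'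
  refine ext_co fun j hj => Polynomial.ext fun c => ?_
  rw [map_zero, coeff_zero]
  change lam (j, c) y = 0
  rcases lt_or_ge c (mlen H.flatten) with hc | hc
  · exact H' _ ((hmem (j, c)).2 ⟨hj, hc⟩)
  refine (lspan_le (S := LinearMap.ker (lam (j, c)))).2 (fun r hr => ?_) hy
  rw [LinearMap.mem_ker, ← hf _ _ hj, List.getD_eq_default, h.hom.zero]
  exact (aspec1_len hr j).trans hc

end Pt

end Crest.Agent.R312
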