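import Crest.Agent.R312.ASpec1

/-! # Row 312, part A: correctness of the arithmetic of ideals -/

set_option autoImplicit false
set_option linter.unusedSectionVars false

noncomputable section

open Polynomial Finset

namespace Crest.Agent.R312

variable {α : Type} {k : Type} [Field k] [Fintype k]

namespace Pt

variable {E : Env α} {M : Mdl k} {φ : α → k} (h : Pt E M φ)
include h

omit h in
theorem idl_eq_span_ksp (G : Gens α) : M.idl φ G = Ideal.span (M.ksp φ G : Set M.R) := by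
  exact (Submodule.span_span_of_tower k M.R _).symm
omit h in
theorem ksp_le_idl (G : Gens α) {g : M.R} (hg : g ∈ M.ksp φ G) : g ∈ M.idl φ G := by
  rw [idl_eq_span_ksp]
  exact Ideal.subset_span hg
omit h in
theorem idl_ne_bot_iff (G : Gens α) : M.idl φ G ≠ ⊥ ↔ ∃ g ∈ G, M.toR φ g ≠ 0 := by
  have e : M.idl φ G = ⊥ ↔ ∀ r ∈ G, M.toR φ r = 0 := lspan_eq_bot
  rw [Ne, e]
  push Not
  rfl
omit h in
theorem aspec1b_idl (G : Gens α) : M.idl φ G = Ideal.span {x | ∃ r ∈ G, M.toR φ r = x} := rfl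
omit h in
theorem aspec1b_idl_append (G G' : Gens α) : M.idl φ (G ++ G') = M.idl φ G + M.idl φ G' := by
  rw [aspec1b_idl, aspec1b_idl, aspec1b_idl, Ideal.add_eq_sup, ← Ideal.span_union]
  congr 1
  ext x
  simp only [Set.mem_ofPred_eq, List.mem_append, Set.mem_union]
  constructor
  · rintro ⟨r, hr | hr, rfl⟩
    exacts [Or.inl ⟨r, hr, rfl⟩, Or.inr ⟨r, hr, rfl⟩]
  · rintro (⟨r, hr, rfl⟩ | ⟨r, hr, rfl⟩)
    exacts [⟨r, Or.inl hr, rfl⟩, ⟨r, Or.inr hr, rfl⟩]
omit h in
theorem aspec1b_idl_flatMap (L : ℕ → Gens α) (n : ℕ) :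
    M.idl φ ((List.range n).flatMap L) = ∑ i ∈ range n, M.idl φ (L i) := by
  induction n with
  | zero =>
    rw [Finset.range_zero, Finset.sum_empty, List.range_zero, List.flatMap_nil]
    exact lspan_eq_bot.2 fun _ hr => absurd hr List.not_mem_nil
  | succ n ih =>
    rw [List.range_succ, List.flatMap_append, aspec1b_idl_append, ih, Finset.sum_range_succ,
      List.flatMap_singleton]
omit h in
theorem aspec1b_prod_range (f : ℕ → M.R) (n : ℕ) :
    ((List.range n).map f).prod = ∏ j ∈ range n, f j := by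
  induction n with
  | zero => simp
  | succ n ih => rw [List.range_succ, List.map_append, List.prod_append, ih, Finset.prod_range_succ,
      List.map_singleton, List.prod_singleton]
omit h in
theorem aspec1b_prod_Ico (f : ℕ → M.R) (i n : ℕ) :
    ((List.range' i (n - i)).map f).prod = ∏ j ∈ Ico i n, f j := by
  rw [Finset.prod_Ico_eq_prod_range, ← aspec1b_prod_range, List.range'_eq_map_range, List.map_map]
  rfl
theorem aspec1b_idl_compress (H : Gens α) : M.idl φ (E.compress H) = M.idl φ H := by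
  rw [idl_eq_span_ksp, h.ksp_compress, ← idl_eq_span_ksp]
theorem idl_mulI (G G' : Gens α) : M.idl φ (E.mulI G G') = M.idl φ G * M.idl φ G' := by
  rw [Env.mulI, h.aspec1b_idl_compress, aspec1b_idl, aspec1b_idl, aspec1b_idl,
    Ideal.span_mul_span']
  congr 1
  ext x
  simp only [Set.mem_ofPred_eq, List.mem_flatMap, List.mem_map, Set.mem_mul]
  constructor
  · rintro ⟨_, ⟨g, hg, g', hg', rfl⟩, rfl⟩
    exact ⟨_, ⟨g, hg, rfl⟩, _, ⟨g', hg', rfl⟩, (h.toR_rmul g g').symm⟩
  · rintro ⟨_, ⟨g, hg, rfl⟩, _, ⟨g', hg', rfl⟩, rfl⟩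
    exact ⟨_, ⟨g, hg, g', hg', rfl⟩, h.toR_rmul g g'⟩
theorem idl_map_rsig (t : ℕ) (G : Gens α) :
    M.idl φ (G.map (E.rsig t)) = M.cj t (M.idl φ G) := by
  rw [aspec1b_idl, aspec1b_idl, M.cj_span]
  congr 1
  ext x
  simp only [Set.mem_ofPred_eq, List.mem_map, Set.mem_image]
  constructor
  · rintro ⟨_, ⟨g, hg, rfl⟩, rfl⟩
    exact ⟨_, ⟨g, hg, rfl⟩, (h.toR_rsig t g).symm⟩
  · rintro ⟨_, ⟨g, hg, rfl⟩, rfl⟩
    exact ⟨_, ⟨g, hg, rfl⟩, h.toR_rsig t g⟩
theorem idl_map_rmul (g : Relt α) (G : Gens α) :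
    M.idl φ (G.map (E.rmul g)) = Ideal.span {M.toR φ g} * M.idl φ G := by
  rw [aspec1b_idl, aspec1b_idl, Ideal.span_mul_span']
  congr 1
  ext x
  simp only [Set.mem_ofPred_eq, List.mem_map, Set.mem_mul, Set.mem_singleton_iff]
  constructor
  · rintro ⟨_, ⟨g', hg', rfl⟩, rfl⟩
    exact ⟨_, rfl, _, ⟨g', hg', rfl⟩, (h.toR_rmul g g').symm⟩
  · rintro ⟨_, rfl, _, ⟨g', hg', rfl⟩, rfl⟩
    exact ⟨_, ⟨g', hg', rfl⟩, h.toR_rmul g g'⟩
theorem idl_one : M.idl φ [E.rone] = ⊤ := by
  rw [Ideal.eq_top_iff_one]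
  have e : M.toR φ E.rone = 1 := h.homRO.one
  rw [← e]
  exact mem_lspan (List.mem_singleton_self _)
theorem idl_preI (G : Gens α) (i : ℕ) : M.idl φ (E.preI G i) = M.A (M.idl φ G) i := by
  induction i with
  | zero =>
    rw [Mdl.A, Finset.range_zero, Finset.prod_empty, Ideal.one_eq_top]
    exact h.idl_one
  | succ i ih =>
    have e : E.preI G (i + 1) = E.mulI (E.preI G i) (G.map (E.rsig i)) := by
      simp only [Env.preI, List.range_succ, List.foldl_append, List.foldl_cons, List.foldl_nil]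
    rw [e, h.idl_mulI, ih, h.idl_map_rsig, Mdl.A, Mdl.A, Finset.prod_range_succ]
theorem idl_h90 (G : Gens α) (g₁ g₂ : Relt α) :
    M.idl φ (E.h90 G g₁ g₂) = M.H90 (M.idl φ G) (M.toR φ g₁) (M.toR φ g₂) := by
  rw [Env.h90, aspec1b_idl_flatMap, Mdl.H90, h.l_eq]
  refine Finset.sum_congr rfl fun i hi => ?_
  rw [h.idl_map_rmul, h.idl_preI, h.toR_rmul, h.homRO.prod, h.homRO.prod, List.map_map,
    List.map_map]
  have e1 : ((List.range i).map (M.toR φ ∘ fun j => E.rsig j g₁)).prod =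
      ∏ j ∈ range i, (M.σ ^ j) (M.toR φ g₁) := by
    rw [← aspec1b_prod_range]
    congr 1
    exact List.map_congr_left fun j _ => h.toR_rsig j g₁
  have e2 : ((List.range' i (M.l - i)).map (M.toR φ ∘ fun j => E.rsig j g₂)).prod =
      ∏ j ∈ Ico i M.l, (M.σ ^ j) (M.toR φ g₂) := by
    rw [← aspec1b_prod_Ico]
    congr 1
    exact List.map_congr_left fun j _ => h.toR_rsig j g₂
  rw [e1, e2]

/-- The linear map whose kernel is computed by `colonT`. -/
def aspec1b_T (M : Mdl k) (s : M.R) (n : ℕ) (c : ℕ → M.R) : (ℕ → M.R) →ₗ[k] (ℕ → M.R) where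
  toFun x u := if u < n then x 0 * c u - s * x (u + 1) else 0
  map_add' x y := by
    funext u
    simp only [Pi.add_apply]
    split_ifs
    · ring
    · rw [add_zero]
  map_smul' a x := by
    funext u
    simp only [Pi.smul_apply, RingHom.id_apply, M.smul_eq]
    split_ifs
    · ring
    · rw [mul_zero]

theorem aspec1b_colonT (s : Relt α) (G ms : Gens α) (x : ℕ → M.R) :
    x ∈ lspan k (M.tup φ) (E.colonT s G ms) ↔
      (∀ u, x u ∈ M.ksp φ ((ms :: G.map fun _ => E.mons (E.wt ms + E.wt G)).getD u [])) ∧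
        ∀ u < G.length, x 0 * M.toR φ (G.getD u []) = M.toR φ s * x (u + 1) := by
  rw [Env.colonT, h.kerT _ _
    (aspec1b_T M (M.toR φ s) G.length fun u => M.toR φ (G.getD u [])), Submodule.mem_inf,
    h.mem_span_tupB, LinearMap.mem_ker]
  · refine and_congr_right fun _ => ⟨fun hx u hu => ?_, fun hx => funext fun u => ?_⟩
    · have h1 : (if u < G.length then x 0 * M.toR φ (G.getD u []) - M.toR φ s * x (u + 1) else 0)
          = 0 := congrFun hx u
      rwa [if_pos hu, sub_eq_zero] at h1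
    · change (if u < G.length then x 0 * M.toR φ (G.getD u []) - M.toR φ s * x (u + 1) else 0) = 0
      split_ifs with hu
      · exact sub_eq_zero.2 (hx u hu)
      · rfl
  · intro y _
    funext u
    change M.toR φ (List.getD _ u []) = if u < G.length then
      M.toR φ (y.getD 0 []) * M.toR φ (G.getD u []) - M.toR φ s * M.toR φ (y.getD (u + 1) []) else 0
    split_ifs with hu
    · rw [List.getD_eq_getElem _ _ (by simpa using hu), List.getElem_map, List.getElem_range,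
        h.homRO.sub, h.toR_rmul, h.toR_rmul]
    · rw [List.getD_eq_default _ _ (by simpa using hu), h.toR_nil]

/-- The tuples found by `colonT`. -/
theorem colonT_mem (s : Relt α) (G ms : Gens α) {x : Gens α} (hx : x ∈ E.colonT s G ms) {u : ℕ}
    (hu : u < G.length) :
    M.tup φ x 0 * M.toR φ (G.getD u []) = M.toR φ s * M.tup φ x (u + 1) := by
  exact ((h.aspec1b_colonT s G ms _).1 (mem_lspan hx)).2 u hu
/-- The quotients `h g / s` have weight `≤ wt ms + wt G` by `mem_V_of_mul_mem`. -/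
theorem mem_ksp_colon {s : Relt α} (hs : M.toR φ s ≠ 0) (G ms : Gens α) (g : M.R) :
    g ∈ M.ksp φ (E.colon s G ms) ↔
      g ∈ M.ksp φ ms ∧ ∀ u ∈ M.idl φ G, M.toR φ s ∣ g * u := by
  have e : M.ksp φ (E.colon s G ms) =
      (lspan k (M.tup φ) (E.colonT s G ms)).map (LinearMap.proj 0 : (ℕ → M.R) →ₗ[k] M.R) := by
    rw [Env.colon, h.ksp_compress]
    exact lspan_map _ _ _ fun _ _ => rfl
  rw [e, Submodule.mem_map]
  constructor
  · rintro ⟨x, hx, rfl⟩
    obtain ⟨h1, h2⟩ := (h.aspec1b_colonT s G ms x).1 hx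
    refine ⟨h1 0, fun u hu => ?_⟩
    have hle : M.idl φ G ≤ Submodule.comap (LinearMap.mulLeft M.R (x 0)) (Ideal.span {M.toR φ s}) := by
      refine lspan_le.2 fun r hr => ?_
      obtain ⟨i, hi, rfl⟩ := List.getElem_of_mem hr
      have h3 := h2 i hi
      rw [List.getD_eq_getElem _ _ hi] at h3
      exact Ideal.mem_span_singleton.2 ⟨_, h3⟩
    exact Ideal.mem_span_singleton.1 (hle hu)
  · rintro ⟨h1, h2⟩
    have h3 : ∀ u, u < G.length → ∃ t, g * M.toR φ (G.getD u []) = M.toR φ s * t := by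
      intro u hu
      refine h2 _ (mem_lspan ?_)
      rw [List.getD_eq_getElem _ _ hu]
      exact List.getElem_mem hu
    choose! t ht using h3
    refine ⟨fun u => Nat.casesOn u g fun u => if u < G.length then t u else 0,
      (h.aspec1b_colonT s G ms _).2 ⟨fun u => ?_, fun u hu => ?_⟩, rfl⟩
    · cases u with
      | zero => exact h1
      | succ u =>
        change (if u < G.length then t u else 0) ∈ _
        split_ifs with hu
        · rw [List.getD_cons_succ, List.getD_eq_getElem _ _ (by simpa using hu), List.getElem_map,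
            h.ksp_mons]
          refine M.mem_V_of_mul_mem hs ?_
          rw [← ht u hu]
          refine M.mul_mem_V (h.ksp_le_wt ms h1) (h.ksp_le_wt G (mem_lspan ?_))
          rw [List.getD_eq_getElem _ _ hu]
          exact List.getElem_mem hu
        · exact Submodule.zero_mem _
    · change g * _ = _ * (if u < G.length then t u else 0)
      rw [if_pos hu]
      exact ht u hu
theorem s0_spec {G : Gens α} (hG : M.idl φ G ≠ ⊥) :
    M.toR φ (E.s0 G) ≠ 0 ∧ M.toR φ (E.s0 G) ∈ M.ksp φ G := by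
  obtain ⟨h1, r, hr, h2⟩ := h.hom.firstNZ_mem h.homRV (nz := E.nzR)
    (fun x => by convert h.nzR x) ((idl_ne_bot_iff G).1 hG)
  refine ⟨h1, ?_⟩
  change M.toR φ (E.O.firstNZ E.RV E.nzR G) ∈ _
  rw [h2]
  exact mem_lspan hr
/-- If `I J = (s)` and `J` contains a nonzero polynomial of degree `≤ W`, the colon generates `J`. -/
theorem idl_colon {s : Relt α} (hs : M.toR φ s ≠ 0) {G : Gens α} {J : Ideal M.R}
    (hJ : M.idl φ G * J = Ideal.span {M.toR φ s}) {p : k[X]} (hp : p ≠ 0) (hpJ : M.ι p ∈ J) {W : ℕ}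
    (hW : p.natDegree ≤ W) : M.idl φ (E.colon s G (E.mons (E.gw W))) = J := by
  rw [idl_eq_span_ksp, ← M.span_inter_V hp hpJ hW]
  congr 1
  ext g
  rw [SetLike.mem_coe, h.mem_ksp_colon hs, h.ksp_mons, Set.mem_ofPred_eq,
    M.mem_iff_of_mul_eq_span hs hJ, Env.gw, h.l_eq, h.N_eq]
  exact and_comm
/-- If `s ∈ I` has weight `≤ W` the colon generates `s I⁻¹` (which contains `s`, hence `nm s`). -/
theorem idl_mul_colon {s : Relt α} (hs : M.toR φ s ≠ 0) {G : Gens α} (hsG : M.toR φ s ∈ M.idl φ G)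
    {W : ℕ} (hW : M.toR φ s ∈ M.V W) :
    M.idl φ G * M.idl φ (E.colon s G (E.mons (E.gw W))) = Ideal.span {M.toR φ s} := by
  obtain ⟨J, hJ⟩ := M.exists_mul_eq_span hsG
  have h1 : M.ι (M.nm (M.toR φ s)) ∈ J :=
    (M.mem_iff_of_mul_eq_span hs hJ _).2 fun u _ =>
      (dvd_C_nm M.Cz_pow M.Cz_prim (M.toR φ s)).mul_right u
  rw [h.idl_colon hs hJ (M.nm_ne_zero hs) h1 (M.natDegree_nm_le hW), hJ]
theorem idl_mul_cinv {G : Gens α} (hG : M.idl φ G ≠ ⊥) :
    M.idl φ G * M.idl φ (E.cinv G) = Ideal.span {M.toR φ (E.s0 G)} := by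
  obtain ⟨h1, h2⟩ := h.s0_spec hG
  exact h.idl_mul_colon h1 (ksp_le_idl G h2) (h.ksp_le_wt G h2)
/-- Intersecting the ideal with a subspace. -/
theorem mem_ksp_colon_cinv {G : Gens α} (hG : M.idl φ G ≠ ⊥) (ms : Gens α) (g : M.R) :
    g ∈ M.ksp φ (E.colon (E.s0 G) (E.cinv G) ms) ↔ g ∈ M.ksp φ ms ∧ g ∈ M.idl φ G := by
  obtain ⟨h1, -⟩ := h.s0_spec hG
  rw [h.mem_ksp_colon h1,
    ← M.mem_iff_of_mul_eq_span h1 ((mul_comm _ _).trans (h.idl_mul_cinv hG))]

end Pt

end Crest.Agent.R312
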