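import Crest.Agent.R312.ASpec1b

/-! # Row 312, part A: correctness of the arithmetic of ideal classes -/

set_option autoImplicit false
set_option linter.unusedSectionVars false

noncomputable section

open Polynomial Finset

namespace Crest.Agent.R312

variable {α : Type} {k : Type} [Field k] [Fintype k]

theorem aspec2_z_add (M : Mdl k) (a b : ZMod M.l) :
    M.z ^ (a + b).val = M.z ^ a.val * M.z ^ b.val := by
  rw [ZMod.val_add, ← pow_eq_pow_mod _ M.hz.pow_eq_one, pow_add]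

theorem aspec2_idl_pair (M : Mdl k) (φ : α → k) (g g' : Relt α) :
    M.idl φ [g, g'] = Ideal.span {M.toR φ g, M.toR φ g'} := by
  unfold Mdl.idl lspan
  show Ideal.span _ = _
  congr 1
  ext x
  simp [eq_comm]

theorem aspec2_exists_ne {M : Mdl k} {φ : α → k} {L : Gens α} {g : M.R} (hg : g ∈ M.ksp φ L)
    (h0 : g ≠ 0) : ∃ r ∈ L, M.toR φ r ≠ 0 := by
  by_contra hc
  push Not at hc
  have : M.ksp φ L = ⊥ := lspan_eq_bot.2 hc
  rw [this] at hg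
  exact h0 ((Submodule.mem_bot k).1 hg)

/-- The obstruction of the ideal `I` is given by the function `o`. -/
def Mdl.ObV (M : Mdl k) (I : Ideal M.R) (o : k → ZMod M.l) : Prop :=
  ∃ ψ, M.IsPsi I ψ ∧ ∀ b ∈ M.T, ψ.eval b ^ ((Fintype.card k - 1) / M.l) = M.z ^ (o b).val

/-- The obstruction is additive and well defined up to constants
(`IsPsi.mul`; `Eqv.psi_rel`; a nonzero `x` has `x^((q-1)/l) = z^j` for some `j`). -/
theorem Mdl.ObV.mul {M : Mdl k} {I J : Ideal M.R} {o o' : k → ZMod M.l} (h : M.ObV I o)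
    (h' : M.ObV J o') : M.ObV (I * J) (o + o') := by
  obtain ⟨ψ, hψ, e⟩ := h
  obtain ⟨χ, hχ, e'⟩ := h'
  refine ⟨ψ * χ, hψ.mul hχ, fun b hb => ?_⟩
  rw [eval_mul, mul_pow, e b hb, e' b hb, Pi.add_apply, aspec2_z_add]
theorem Mdl.obV_top (M : Mdl k) : M.ObV ⊤ 0 := by
  exact ⟨1, M.isPsi_top, fun b _ => by simp⟩
theorem Mdl.ObV.eqv {M : Mdl k} (hd : M.l ∣ Fintype.card k - 1) {I J : Ideal M.R}
    {o o' : k → ZMod M.l} (h : M.ObV I o) (h' : M.ObV J o') (hI : M.Cop I) (hJ : M.Cop J)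
    (e : M.Eqv I J) : ∃ κ, ∀ b ∈ M.T, o b = κ + o' b := by
  obtain ⟨ψ, hψ, e1⟩ := h
  obtain ⟨χ, hχ, e2⟩ := h'
  obtain ⟨c, hc, hr⟩ := e.psi_rel hI hJ hψ hχ
  have hle : M.l * ((Fintype.card k - 1) / M.l) = Fintype.card k - 1 := Nat.mul_div_cancel' hd
  have hc1 : (c ^ ((Fintype.card k - 1) / M.l)) ^ M.l = 1 := by
    rw [← pow_mul, mul_comm, hle, FiniteField.pow_card_sub_one_eq_one c hc]
  obtain ⟨j, hj, ej⟩ := M.hz.eq_pow_of_pow_eq_one hc1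
  refine ⟨(j : ZMod M.l), fun b hb => ?_⟩
  obtain ⟨u, hu, eu⟩ := hr b hb
  have e3 := e1 b hb
  rw [eu, mul_pow, mul_pow, ← pow_mul, hle, FiniteField.pow_card_sub_one_eq_one u hu, mul_one,
    e2 b hb, ← ej] at e3
  apply ZMod.val_injective
  refine M.hz.pow_inj (ZMod.val_lt _) (ZMod.val_lt _) ?_
  rw [← e3, aspec2_z_add, ZMod.val_natCast, ← pow_eq_pow_mod _ M.hz.pow_eq_one]

namespace Pt

variable {E : Env α} {M : Mdl k} {φ : α → k} (h : Pt E M φ)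
include h

/-- The first nonzero element of `I ∩ span (ms D)`, `D` increasing. -/
theorem aspec2_first {G : Gens α} (hG : M.idl φ G ≠ ⊥) (ms : ℕ → Gens α) {n D : ℕ} (hD : D < n)
    {g : M.R} (h0 : g ≠ 0) (hg : g ∈ M.ksp φ (ms D)) (hgG : g ∈ M.idl φ G) :
    M.toR φ (E.s0 ((List.range n).flatMap fun D => E.colon (E.s0 G) (E.cinv G) (ms D))) ≠ 0 ∧
    M.toR φ (E.s0 ((List.range n).flatMap fun D => E.colon (E.s0 G) (E.cinv G) (ms D))) ∈
      M.idl φ G ∧ ∃ D' ≤ D,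
    M.toR φ (E.s0 ((List.range n).flatMap fun D => E.colon (E.s0 G) (E.cinv G) (ms D))) ∈
      M.ksp φ (ms D') := by
  have hl := aspec2_exists_ne ((h.mem_ksp_colon_cinv hG (ms D) g).2 ⟨hg, hgG⟩) h0
  obtain ⟨h1, D', hD', r, hr, e⟩ := h.hom.firstNZ_flatMap h.homRV h.nzR
    (fun D => E.colon (E.s0 G) (E.cinv G) (ms D)) hD hl
  have h2 := (h.mem_ksp_colon_cinv hG (ms D') _).1 (mem_lspan hr)
  unfold Env.s0 at *
  rw [← e] at h2
  exact ⟨h1, h2.2, D', hD', h2.1⟩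

/-- `ι ψ₀ ∣ s0`, so `l deg ψ₀ ≤ wt H` (`mem_V_of_mul_mem`); the first nonzero element
(`firstNZ_flatMap`, `mem_ksp_colon_cinv`) is a multiple of `ψ₀` of degree `≤ deg ψ₀`. -/
theorem isPsi_psi {G : Gens α} (hG : M.idl φ G ≠ ⊥) : M.IsPsi (M.idl φ G) (toP φ (E.psi G)) := by
  obtain ⟨ψ, hψ⟩ := M.exists_isPsi hG
  have hψ0 := hψ.ne_zero hG
  have hH : M.idl φ (E.preI G E.l) = Ideal.span {M.ι ψ} := by
    rw [h.idl_preI, h.l_eq]; exact hψ
  have hH0 : M.idl φ (E.preI G E.l) ≠ ⊥ := by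
    rw [hH, Ne, Ideal.span_singleton_eq_bot]; exact M.ι_ne_zero hψ0
  obtain ⟨s1, s2⟩ := h.s0_spec hH0
  have s3 := Pt.ksp_le_idl _ s2
  rw [hH, Ideal.mem_span_singleton'] at s3
  obtain ⟨t, ht⟩ := s3
  have ht0 : t ≠ 0 := by rintro rfl; rw [zero_mul] at ht; exact s1 ht.symm
  have s4 : M.ι ψ ∈ M.V (E.wt (E.preI G E.l)) :=
    M.mem_V_of_mul_mem ht0 (by rw [ht]; exact h.ksp_le_wt _ s2)
  rw [M.ι_mem_V_iff] at s4
  have hD : ψ.natDegree < E.wt (E.preI G E.l) + 1 :=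
    Nat.lt_succ_of_le ((Nat.le_mul_of_pos_left _ M.hl.pos).trans s4)
  obtain ⟨g0, g1, D', hD', g2⟩ := h.aspec2_first hH0 E.pmons hD (M.ι_ne_zero hψ0)
    ((h.mem_ksp_pmons _ _).2 ⟨ψ, le_rfl, rfl⟩) (by rw [hH]; exact Ideal.mem_span_singleton_self _)
  obtain ⟨p, hp, ep⟩ := (h.mem_ksp_pmons _ _).1 g2
  have e : toP φ (E.psi G) = p := by
    unfold Env.psi
    rw [← h.co_toR _ M.hl.pos, ep, co_C, if_pos rfl]
  rw [ep] at g0 g1
  rw [hH, Ideal.mem_span_singleton, C_dvd_C_iff] at g1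
  obtain ⟨c, hc⟩ := g1
  have hp0 : p ≠ 0 := by rintro rfl; exact g0 (map_zero _)
  have hc0 : c ≠ 0 := by rintro rfl; exact hp0 (by rw [hc, mul_zero])
  have hdeg : c.natDegree = 0 := by
    have := natDegree_mul hψ0 hc0
    rw [← hc] at this
    omega
  rw [e, hc, eq_C_of_natDegree_eq_zero hdeg, mul_comm]
  refine hψ.C_mul fun h0 => hc0 ?_
  rw [eq_C_of_natDegree_eq_zero hdeg, h0, map_zero]
theorem small_spec {G : Gens α} (hG : M.idl φ G ≠ ⊥) {ψ : k[X]} (hψ : M.IsPsi (M.idl φ G) ψ) :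
    M.toR φ (E.small G) ≠ 0 ∧ M.toR φ (E.small G) ∈ M.idl φ G ∧
      M.toR φ (E.small G) ∈ M.V (ψ.natDegree + M.l * M.N) := by
  obtain ⟨s, hs, hs0, hsV⟩ := hψ.exists_small hG
  obtain ⟨s1, s2⟩ := h.s0_spec hG
  have key : ∃ g : M.R, g ≠ 0 ∧ g ∈ M.idl φ G ∧
      g ∈ M.V (min (ψ.natDegree + M.l * M.N) (E.wt G)) := by
    rcases le_total (ψ.natDegree + M.l * M.N) (E.wt G) with hle | hle
    · exact ⟨s, hs0, hs, by rwa [min_eq_left hle]⟩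
    · exact ⟨_, s1, Pt.ksp_le_idl _ s2, by rw [min_eq_right hle]; exact h.ksp_le_wt _ s2⟩
  obtain ⟨g, g0, g1, g2⟩ := key
  obtain ⟨a0, a1, D', hD', a2⟩ := h.aspec2_first hG E.mons (n := E.wt G + 1)
    (Nat.lt_succ_of_le (min_le_right _ _)) g0 (by rw [h.ksp_mons]; exact g2) g1
  rw [h.ksp_mons] at a2
  exact ⟨a0, a1, M.V_mono (hD'.trans (min_le_left _ _)) a2⟩
theorem neg_spec {G : Gens α} (hG : M.idl φ G ≠ ⊥) :
    ∃ s, s ≠ 0 ∧ M.idl φ G * M.idl φ (E.neg G) = Ideal.span {s} := by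
  obtain ⟨ψ, hψ⟩ := M.exists_isPsi hG
  obtain ⟨s0, s1, s2⟩ := h.small_spec hG hψ
  obtain ⟨J, hJ⟩ := M.exists_mul_eq_span s1
  have hJ0 : J ≠ ⊥ := by
    rintro rfl
    rw [Ideal.mul_bot, eq_comm, Ideal.span_singleton_eq_bot] at hJ
    exact s0 hJ
  obtain ⟨χ, hχ⟩ := M.exists_isPsi hJ0
  have hd := M.natDegree_psi_le_of_mul s0 hψ hχ hJ s2
  have := h.idl_colon s0 hJ (hχ.ne_zero hJ0) hχ.mem (W := E.l * E.N)
    (by rw [h.l_eq, h.N_eq]; omega)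
  refine ⟨_, s0, ?_⟩
  unfold Env.neg
  rw [this, hJ]
theorem ob_eval (G : Gens α) {b : k} (hb : b ∈ M.T) :
    (toP φ (E.ob G)).eval b = (toP φ (E.psi G)).eval b ^ ((Fintype.card k - 1) / M.l) := by
  have := (h.hom2 hb).pow (E.psi G) ((E.q - 1) / E.l)
  rw [h.card, ← h.l_eq]
  exact this
theorem idl_tors {ε : List α} {Z : Finset k} (hZ : Z ⊆ M.T)
    (hε : ∀ b ∈ M.T, (toP φ ε).eval b = 1 ↔ b ∈ Z) :
    M.idl φ (E.tors ε) = ∏ b ∈ Z, M.P b := by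
  unfold Env.tors
  rw [aspec2_idl_pair, h.toR_rmon 0 M.hl.one_lt, h.toR_single, h.hom.poly.sub, toP_singleton,
    h.hom.one, pow_zero, map_one, map_one, one_mul, pow_one]
  refine M.span_Y_eq_prod hZ fun b hb => ?_
  rw [← hε b hb, eval_sub, eval_one, sub_eq_zero, eq_comm]
theorem natDegree_psi_tors {ε : List α} {Z : Finset k} (hZ : Z ⊆ M.T)
    (hε : ∀ b ∈ M.T, (toP φ ε).eval b = 1 ↔ b ∈ Z) :
    (toP φ (E.psi (E.tors ε))).natDegree = Z.card := by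
  have e := h.idl_tors hZ hε
  have h0 : M.idl φ (E.tors ε) ≠ ⊥ := by
    have := M.isDedekindDomain
    rw [e]
    exact Finset.prod_ne_zero_iff.2 fun b _ => M.P_ne_bot b
  have h1 := h.isPsi_psi h0
  have h2 : M.IsPsi (∏ b ∈ Z, M.P b) (∏ b ∈ Z, (X - C b)) :=
    Mdl.IsPsi.prod Z fun b hb => M.isPsi_P (hZ hb)
  rw [e] at h1
  rw [h1.natDegree_eq h2, natDegree_prod_of_monic _ _ fun b _ => monic_X_sub_C b]
  simp
theorem idl_QG : M.idl φ E.QG = M.Q := by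
  unfold Env.QG
  rw [aspec2_idl_pair, h.homRO.sub, h.toR_rmon 1 M.hl.pos, h.toR_rmon 0 M.hl.one_lt]
  have : M.toR φ E.rone = 1 := h.homRO.one
  rw [this]
  simp [Mdl.Q]

end Pt

end Crest.Agent.R312
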