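import Crest.Agent.R312.ASpec2

/-! # Row 312, part A: correctness of the normal form -/

set_option autoImplicit false
set_option linter.unusedSectionVars false

noncomputable section

open Polynomial Finset

namespace Crest.Agent.R312

variable {α : Type} {k : Type} [Field k] [Fintype k]

namespace Pt

variable {E : Env α} {M : Mdl k} {φ : α → k} (h : Pt E M φ)
include h

theorem aspec2b_fold (I : Ideal M.R) {b : k} (hb : b ∈ M.T) (L : List (Relt α × List α))
    (hL : ∀ p ∈ L, M.toR φ p.1 ∈ I) (st : Relt α × List α)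
    (hst : st = L.foldl (fun (st : Relt α × List α) p =>
      (E.RV.add st.1 (E.rmul [E.O2.mul (E.O2.sub E.O2.one st.2) (E.O2.ind E.q p.2)] p.1),
        E.O2.add st.2 (E.O2.mul (E.O2.sub E.O2.one st.2) (E.O2.ind E.q p.2)))) ([], [])) :
    M.toR φ st.1 ∈ I ∧
      (((toP φ st.2).eval b = 0 ∧ (∀ p ∈ L, (toP φ p.2).eval b = 0) ∧ M.toR φ st.1 ∈ M.P b * I) ∨
        ((toP φ st.2).eval b = 1 ∧ ∃ p ∈ L, (toP φ p.2).eval b ≠ 0 ∧
          M.toR φ st.1 - M.toR φ p.1 ∈ M.P b * I)) := by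
  classical
  induction L using List.reverseRecOn generalizing st with
  | nil =>
    subst hst
    refine ⟨?_, Or.inl ⟨?_, ?_, ?_⟩⟩
    · simp [h.toR_nil]
    · simp [toP]
    · simp
    · simp [h.toR_nil]
  | append_singleton L p ih =>
    rw [List.foldl_append, List.foldl_cons, List.foldl_nil] at hst
    obtain ⟨h1, h2⟩ := ih (fun p hp => hL p (List.mem_append_left _ hp)) _ rfl
    generalize List.foldl _ _ L = st0 at hst h1 h2
    have hg : M.toR φ p.1 ∈ I := hL p (by simp)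
    have H := h.hom2 hb
    set c := E.O2.mul (E.O2.sub E.O2.one st0.2) (E.O2.ind E.q p.2) with hc
    have ec : (toP φ c).eval b =
        (1 - (toP φ st0.2).eval b) * if (toP φ p.2).eval b = 0 then 0 else 1 := by
      have e1 := H.mul (E.O2.sub E.O2.one st0.2) (E.O2.ind E.q p.2)
      have e2 := H.sub E.O2.one st0.2
      have e3 := H.ind h.card p.2
      have e4 := H.one
      rw [hc, e1, e2, e3, e4]
    have ew : M.toR φ st.1 = M.toR φ st0.1 + M.ι (toP φ c) * M.toR φ p.1 := by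
      rw [hst]
      simp only
      rw [h.homRV.add, h.toR_rmul, h.toR_single]
    have ef : (toP φ st.2).eval b = (toP φ st0.2).eval b + (toP φ c).eval b := by
      rw [hst]
      exact H.add _ _
    have hP : ∀ {x : M.R}, M.ev b x = 0 → x * M.toR φ p.1 ∈ M.P b * I := fun hx =>
      Ideal.mul_mem_mul ((M.mem_P b _).2 (Or.inl hx)) hg
    refine ⟨ew ▸ I.add_mem h1 (I.mul_mem_left _ hg), ?_⟩
    rcases h2 with ⟨f0, hall, hw⟩ | ⟨f1, p', hp', hp0, hw⟩
    · by_cases ht : (toP φ p.2).eval b = 0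
      · rw [if_pos ht, mul_zero] at ec
        refine Or.inl ⟨by rw [ef, f0, ec, add_zero], ?_, ?_⟩
        · intro p' hp'
          rcases List.mem_append.1 hp' with hp' | hp'
          · exact hall p' hp'
          · rw [List.mem_singleton.1 hp']; exact ht
        · rw [ew]
          exact Ideal.add_mem _ hw (hP (by rw [M.ev_ι, ec]))
      · rw [if_neg ht, f0, sub_zero, mul_one] at ec
        refine Or.inr ⟨by rw [ef, f0, ec, zero_add], p, by simp, ht, ?_⟩
        have e : M.toR φ st.1 - M.toR φ p.1 =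
            M.toR φ st0.1 + (M.ι (toP φ c) - 1) * M.toR φ p.1 := by rw [ew]; ring
        rw [e]
        exact Ideal.add_mem _ hw (hP (by rw [M.ev_sub, M.ev_ι, ec, M.apsi_ev_one, sub_self]))
    · rw [f1, sub_self, zero_mul] at ec
      refine Or.inr ⟨by rw [ef, f1, ec, add_zero], p', List.mem_append_left _ hp', hp0, ?_⟩
      have e : M.toR φ st.1 - M.toR φ p'.1 =
          (M.toR φ st0.1 - M.toR φ p'.1) + M.ι (toP φ c) * M.toR φ p.1 := by rw [ew]; ring
      rw [e]
      exact Ideal.add_mem _ hw (hP (by rw [M.ev_ι, ec]))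

omit h in
theorem aspec2b_cancel {b : k} (hb : b ∈ M.T) {s t : M.R} (hs : s ≠ 0)
    (ht : s * t ∈ M.P b * Ideal.span {s}) : M.ev b t = 0 := by
  rw [mul_comm (M.P b), Ideal.mem_span_singleton_mul] at ht
  obtain ⟨z, hz, e⟩ := ht
  rw [← mul_left_cancel₀ hs e]
  exact ((M.mem_P b z).1 hz).resolve_right (not_not.2 hb)

theorem aspec2b_cinv (G : Gens α) : M.idl φ (E.cinv G) =
    M.idl φ ((E.colonT (E.s0 G) G (E.mons (E.gw (E.wt G)))).map fun x => x.getD 0 []) := by
  rw [idl_eq_span_ksp, idl_eq_span_ksp, Env.cinv, Env.colon, h.ksp_compress]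

/-- Fix `b ∈ T`.  Invariant of the fold: the flag evaluates to `0` or `1` at `b`; if `0`, all the
processed quotients vanish at `b` and `w ∈ (X-b) I`; if `1`, there is a processed pair `(g, t)` with
`t(b) ≠ 0` and `w - g ∈ (X-b) I`.  Some quotient does not vanish at `b`, as otherwise
`(s0) = I · I' ⊆ s0 P_b`. -/
theorem wgen_spec {G : Gens α} (hG : M.idl φ G ≠ ⊥) :
    M.toR φ (E.wgen G) ∈ M.idl φ G ∧
      ∀ J, M.idl φ G * J = Ideal.span {M.toR φ (E.wgen G)} → M.Cop J := by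
  classical
  obtain ⟨hs0, -⟩ := h.s0_spec hG
  have hI := h.idl_mul_cinv hG
  rw [h.aspec2b_cinv] at hI
  set K := E.colonT (E.s0 G) G (E.mons (E.gw (E.wt G))) with hK
  set L : List (Relt α × List α) := K.flatMap fun x =>
    (List.range G.length).map fun u => (G.getD u [], (x.getD (u + 1) []).getD 0 []) with hL
  have hmem : ∀ u < G.length, M.toR φ (G.getD u []) ∈ M.idl φ G := fun u hu =>
    mem_lspan (by rw [List.getD_eq_getElem _ _ hu]; exact List.getElem_mem hu)
  have hev : ∀ (b : k) (x : Gens α) (u : ℕ),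
      M.ev b (M.tup φ x (u + 1)) = (toP φ ((x.getD (u + 1) []).getD 0 [])).eval b := by
    intro b x u
    rw [Mdl.ev, Mdl.tup, h.co_toR _ M.hl.pos]
  have hLm : ∀ p ∈ L, ∃ x ∈ K, ∃ u < G.length,
      p = (G.getD u [], (x.getD (u + 1) []).getD 0 []) := by
    intro p hp
    obtain ⟨x, hx, hp⟩ := List.mem_flatMap.1 hp
    obtain ⟨u, hu, rfl⟩ := List.mem_map.1 hp
    exact ⟨x, hx, u, List.mem_range.1 hu, rfl⟩
  have hLI : ∀ p ∈ L, M.toR φ p.1 ∈ M.idl φ G := by
    intro p hp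
    obtain ⟨x, -, u, hu, rfl⟩ := hLm p hp
    exact hmem u hu
  have key := fun b (hb : b ∈ M.T) => h.aspec2b_fold (M.idl φ G) hb L hLI _ rfl
  obtain ⟨b₀, hb₀⟩ := M.T_nonempty
  refine ⟨(key b₀ hb₀).1, fun J hJ b hb => ?_⟩
  rcases (key b hb).2 with ⟨-, hall, -⟩ | ⟨-, p, hp, hp0, hw⟩
  · exfalso
    have hle : M.idl φ G * M.idl φ (K.map fun x => x.getD 0 []) ≤
        M.P b * Ideal.span {M.toR φ (E.s0 G)} := by
      rw [Mdl.idl, Mdl.idl, lspan, lspan, Ideal.submodule_span_eq, Ideal.submodule_span_eq,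
        Ideal.span_mul_span, Ideal.span_le]
      intro y hy
      obtain ⟨_, ⟨g, hg, rfl⟩, _, ⟨r, hr, rfl⟩, rfl⟩ := hy
      obtain ⟨x, hx, rfl⟩ := List.mem_map.1 hr
      obtain ⟨u, hu, rfl⟩ := List.getElem_of_mem hg
      have e := h.colonT_mem _ _ _ hx hu
      rw [List.getD_eq_getElem _ _ hu] at e
      have e0 : M.ev b (M.tup φ x (u + 1)) = 0 := by
        rw [hev]
        exact hall (G.getD u [], (x.getD (u + 1) []).getD 0 [])
          (List.mem_flatMap.2 ⟨x, hx, List.mem_map.2 ⟨u, List.mem_range.2 hu, rfl⟩⟩)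
      change M.toR φ G[u] * M.tup φ x 0 ∈ M.P b * Ideal.span {M.toR φ (E.s0 G)}
      rw [mul_comm (M.toR φ _), e, mul_comm (M.toR φ _)]
      exact Ideal.mul_mem_mul ((M.mem_P b _).2 (Or.inl e0)) (Ideal.mem_span_singleton_self _)
    rw [hI] at hle
    have := aspec2b_cancel (t := 1) hb hs0
      (by rw [mul_one]; exact hle (Ideal.mem_span_singleton_self _))
    rw [M.apsi_ev_one] at this
    exact one_ne_zero this
  · by_contra hn
    push Not at hn
    have hJP : J ≤ M.P b := fun g hg => (M.mem_P b g).2 (Or.inl (hn g hg))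
    have hw1 : M.toR φ (E.wgen G) ∈ M.P b * M.idl φ G := by
      rw [mul_comm]
      exact Ideal.mul_mono_right hJP (hJ ▸ Ideal.mem_span_singleton_self _)
    obtain ⟨x, hx, u, hu, rfl⟩ := hLm p hp
    have hg : M.toR φ (G.getD u []) ∈ M.P b * M.idl φ G := by
      have hw' : M.toR φ (E.wgen G) - M.toR φ (G.getD u []) ∈ M.P b * M.idl φ G := hw
      have := Ideal.sub_mem _ hw1 hw'
      rwa [show ∀ a c : M.R, a - (a - c) = c from fun a c => by ring] at this
    have hd : M.tup φ x 0 ∈ M.idl φ (K.map fun x => x.getD 0 []) :=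
      mem_lspan (List.mem_map.2 ⟨x, hx, rfl⟩)
    have h3 := Ideal.mul_mem_mul hg hd
    rw [mul_assoc, hI, mul_comm (M.toR φ _), h.colonT_mem _ _ _ hx hu] at h3
    exact hp0 (by rw [← hev]; exact aspec2b_cancel hb hs0 h3)
theorem cneg_spec {G : Gens α} (hG : M.idl φ G ≠ ⊥) :
    M.Cop (M.idl φ (E.cneg G)) ∧
      ∃ s, s ≠ 0 ∧ M.idl φ G * M.idl φ (E.cneg G) = Ideal.span {s} := by
  obtain ⟨h1, h2⟩ := h.wgen_spec hG
  have h0 : M.toR φ (E.wgen G) ≠ 0 := fun e =>
    (h2 ⊥ (by rw [e, Ideal.mul_bot, Ideal.span_singleton_zero])).ne_bot rfl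
  have h3 := h.idl_mul_colon h0 h1 (h.ksp_le_wt [E.wgen G] (mem_lspan (List.mem_singleton_self _)))
  exact ⟨h2 _ h3, _, h0, h3⟩
theorem nrm_spec {G : Gens α} (hG : M.idl φ G ≠ ⊥) :
    M.Cop (M.idl φ (E.nrm G)) ∧ M.Eqv (M.idl φ G) (M.idl φ (E.nrm G)) := by
  obtain ⟨s, hs, e⟩ := h.neg_spec hG
  have h0 : M.idl φ (E.neg G) ≠ ⊥ := fun e' => hs (by
    rwa [e', Ideal.mul_bot, eq_comm, Ideal.span_singleton_eq_bot] at e)
  obtain ⟨h1, s', hs', e'⟩ := h.cneg_spec h0
  exact ⟨h1, M.eqv_of_inv hs hs' e e'⟩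
theorem aspec2b_foldl (L : List (Gens α)) (hL : ∀ G ∈ L, M.idl φ G ≠ ⊥) {G₀ : Gens α}
    (hG : M.Cop (M.idl φ G₀)) : M.Cop (M.idl φ (L.foldl E.addI G₀)) ∧
      M.Eqv (M.idl φ G₀ * (L.map (M.idl φ)).prod) (M.idl φ (L.foldl E.addI G₀)) := by
  induction L using List.reverseRecOn with
  | nil => exact ⟨hG, by simpa using Mdl.Eqv.refl M _⟩
  | append_singleton L G ih =>
    obtain ⟨h1, h2⟩ := ih fun G hG => hL G (List.mem_append_left _ hG)
    rw [List.foldl_append, List.foldl_cons, List.foldl_nil]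
    have h0 : M.idl φ (E.mulI (L.foldl E.addI G₀) G) ≠ ⊥ := by
      rw [h.idl_mulI]
      exact mul_ne_zero h1.ne_bot (hL G (by simp))
    obtain ⟨h3, h4⟩ := h.nrm_spec h0
    refine ⟨h3, Mdl.Eqv.trans ?_ h4⟩
    rw [h.idl_mulI, List.map_append, List.prod_append, List.map_singleton, List.prod_singleton,
      ← mul_assoc]
    exact h2.mul (Mdl.Eqv.refl M _)
theorem comb_spec {G₀ : Gens α} (hG : M.Cop (M.idl φ G₀)) (c : List ℕ) {Gs : List (Gens α)}
    (hGs : ∀ G ∈ Gs, M.idl φ G ≠ ⊥) :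
    M.Cop (M.idl φ (E.comb G₀ c Gs)) ∧
      M.Eqv (M.idl φ G₀ * ∏ i ∈ range Gs.length, M.idl φ (Gs.getD i []) ^ (c.getD i 0 % M.l))
        (M.idl φ (E.comb G₀ c Gs)) := by
  have e : ∀ n, (((List.range n).flatMap fun i =>
      List.replicate (c.getD i 0 % E.l) (Gs.getD i [])).map (M.idl φ)).prod =
      ∏ i ∈ range n, M.idl φ (Gs.getD i []) ^ (c.getD i 0 % M.l) := by
    intro n
    induction n with
    | zero => simp
    | succ n ih =>
      rw [List.range_succ, List.flatMap_append, List.map_append, List.prod_append, ih,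
        prod_range_succ, List.flatMap_singleton, List.map_replicate, List.prod_replicate, h.l_eq]
  rw [← e]
  refine h.aspec2b_foldl _ (fun G hG' => ?_) hG
  obtain ⟨i, hi, hG'⟩ := List.mem_flatMap.1 hG'
  rw [List.eq_of_mem_replicate hG', List.getD_eq_getElem _ _ (List.mem_range.1 hi)]
  exact hGs _ (List.getElem_mem _)

end Pt

end Crest.Agent.R312
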