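import Crest.Agent.R312.ASpec1

/-! # Row 312, part A: exceptions; correctness of the division -/

set_option autoImplicit false
set_option linter.unusedSectionVars false

noncomputable section

open Polynomial Finset

namespace Crest.Agent.R312

variable {α : Type} {k : Type} [Field k] [Fintype k] {A : Type}

/-- A family of interpretations for which `isZ` tests simultaneous vanishing. -/
structure Fam (E : Env α) (M : A → Mdl k) (φ : A → α → k) : Prop where
  pt : ∀ a, Pt E (M a) (φ a)
  isZ : ∀ x, E.isZ x = true ↔ ∀ a, φ a x = 0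
  ne : Nonempty A

/-- A nonzero zero divisor. -/
def Split (φ : A → α → k) (x : α) : Prop := (∃ a, φ a x = 0) ∧ ∃ a, φ a x ≠ 0

open Classical in
/-- The cells are the indicator functions of the fibres of a surjective labelling of `T`. -/
structure Lab (M : Mdl k) (φ : α → k) (cells : List (List α)) (lab : k → ℕ) : Prop where
  lt : ∀ b ∈ M.T, lab b < cells.length
  surj : ∀ Z < cells.length, ∃ b ∈ M.T, lab b = Z
  eval : ∀ Z < cells.length, ∀ b ∈ M.T,
    (toP φ (cells.getD Z [])).eval b = if lab b = Z then 1 else 0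

/-- A meaningful exception. -/
def ExcOK (M : A → Mdl k) (φ : A → α → k) (n : ℕ) : Exc α → Prop
  | Sum.inl x => Split φ x
  | Sum.inr cells => n < cells.length ∧ ∀ a, ∃ lab, Lab (M a) (φ a) cells lab

/-- Either a meaningful exception or a value satisfying `Q`. -/
def Res (M : A → Mdl k) (φ : A → α → k) (n : ℕ) {β : Type} (r : Exc α ⊕ β) (Q : β → Prop) : Prop :=
  match r with
  | Sum.inl e => ExcOK M φ n e
  | Sum.inr b => Q b

theorem aspec3_mapS_cons {ε β γ : Type} (f : β → ε ⊕ γ) (x : β) (l : List β) :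
    mapS f (x :: l) = bindS (f x) fun b => bindS (mapS f l) fun bs => Sum.inr (b :: bs) := by
  unfold mapS bindS
  rw [List.map_cons]
  cases f x with
  | inl e => rfl
  | inr b =>
    simp only [List.findSome?_cons, Sum.getLeft?_inr, List.filterMap_cons, Sum.getRight?_inr,
      Sum.elim_inr]
    cases (l.map f).findSome? Sum.getLeft? <;> rfl

theorem aspec3_foldr_le (l : List ℕ) (n : ℕ) : l.foldr max 0 ≤ n ↔ ∀ i ∈ l, i ≤ n := by
  induction l with
  | nil => simp
  | cons a l ih => simp [ih]

section Res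

variable {M : A → Mdl k} {φ : A → α → k} {n : ℕ} {β γ : Type}

theorem Res.inr {b : β} {Q : β → Prop} (h : Q b) : Res M φ n (Sum.inr b) Q := h
theorem Res.mono {r : Exc α ⊕ β} {Q Q' : β → Prop} (h : Res M φ n r Q) (hQ : ∀ b, Q b → Q' b) :
    Res M φ n r Q' := by
  cases r with
  | inl e => exact h
  | inr b => exact hQ b h
/-- The value may be assumed to be the result. -/
theorem Res.mono' {r : Exc α ⊕ β} {Q Q' : β → Prop} (h : Res M φ n r Q)
    (hQ : ∀ b, r = Sum.inr b → Q b → Q' b) : Res M φ n r Q' := by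
  cases r with
  | inl e => exact h
  | inr b => exact hQ b rfl h
theorem Res.bind {r : Exc α ⊕ β} {f : β → Exc α ⊕ γ} {Q : β → Prop} {Q' : γ → Prop}
    (h : Res M φ n r Q) (hf : ∀ b, r = Sum.inr b → Q b → Res M φ n (f b) Q') :
    Res M φ n (bindS r f) Q' := by
  cases r with
  | inl e => exact h
  | inr b => exact hf b rfl h
theorem Res.mapS {f : β → Exc α ⊕ γ} {Q : β → γ → Prop} {l : List β}
    (h : ∀ x ∈ l, Res M φ n (f x) (Q x)) : Res M φ n (mapS f l) (List.Forall₂ Q l) := by
  induction l with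
  | nil => exact List.Forall₂.nil
  | cons x l ih =>
    rw [aspec3_mapS_cons]
    exact (h x List.mem_cons_self).bind fun b _ hb =>
      (ih fun y hy => h y (List.mem_cons_of_mem _ hy)).bind fun bs _ hbs =>
        Res.inr (List.Forall₂.cons hb hbs)
theorem Res.iterS {f : β → Exc α ⊕ β} {Q : ℕ → β → Prop} {x : β} (h0 : Q 0 x) (m : ℕ)
    (hf : ∀ i < m, ∀ y, Q i y → Res M φ n (f y) (Q (i + 1))) : Res M φ n (iterS f m x) (Q m) := by
  induction m with
  | zero => exact h0
  | succ m ih =>
    rw [R312.iterS, Function.iterate_succ_apply']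
    exact (ih fun i hi => hf i (by omega)).bind fun y _ hy => hf m (by omega) y hy

end Res

theorem Lab.length_le {M : Mdl k} {φ : α → k} {cells : List (List α)} {lab : k → ℕ}
    (h : Lab M φ cells lab) : cells.length ≤ M.N := by
  classical
  rw [← Finset.card_range cells.length]
  refine le_trans (Finset.card_le_card fun Z hZ => ?_) (Finset.card_image_le (s := M.T) (f := lab))
  obtain ⟨b, hb, rfl⟩ := h.surj Z (Finset.mem_range.1 hZ)
  exact Finset.mem_image_of_mem _ hb
theorem Lab.length_pos {M : Mdl k} {φ : α → k} {cells : List (List α)} {lab : k → ℕ}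
    (h : Lab M φ cells lab) : 0 < cells.length := by
  obtain ⟨b, hb⟩ := M.T_nonempty
  exact (Nat.zero_le _).trans_lt (h.lt b hb)

namespace Fam

variable {E : Env α} {M : A → Mdl k} {φ : A → α → k} (h : Fam E M φ)
include h

theorem bad_iff (x : α) : E.bad x = true ↔ Split φ x := by
  have h1 : ∀ a, φ a (E.O.sub (E.O.ind E.q x) E.O.one) = 0 ↔ φ a x ≠ 0 := fun a => by
    rw [(h.pt a).hom.sub, (h.pt a).hom.ind (h.pt a).card, (h.pt a).hom.one]
    split_ifs with h2 <;> simp [h2]
  simp only [Env.bad, Bool.and_eq_true, Bool.not_eq_true', ← Bool.not_eq_true, h.isZ, h1, Split,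
    not_forall, not_not, and_comm]
theorem guard {n : ℕ} {β : Type} {xs : List α} {r : Exc α ⊕ β} {Q : β → Prop}
    (hr : (∀ x ∈ xs, ∀ a, (E.isZ x = true ↔ φ a x = 0)) → Res M φ n r Q) :
    Res M φ n (E.guard xs r) Q := by
  unfold Env.guard
  cases hx : xs.find? E.bad with
  | some x => exact (h.bad_iff x).1 (List.find?_some hx)
  | none =>
    refine hr fun x hx' a => ⟨fun h1 => (h.isZ x).1 h1 a, fun h1 => (h.isZ x).2 fun a' => ?_⟩
    by_contra h2
    exact List.find?_eq_none.1 hx x hx' ((h.bad_iff x).2 ⟨⟨a, h1⟩, a', h2⟩)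
omit h in
theorem degB_eq {φ : α → k} (hφ : E.O.Hom φ) {p : List α}
    (hp : ∀ x ∈ p, (E.isZ x = true ↔ φ x = 0)) : E.degB p = (toP φ p).natDegree := by
  refine eq_of_forall_ge_iff fun n => ?_
  rw [Env.degB, aspec3_foldr_le, natDegree_le_iff_coeff_eq_zero]
  simp only [List.mem_filter, List.mem_range, hφ.coeff_toP, Bool.not_eq_true',
    ← Bool.not_eq_true]
  constructor
  · intro h1 i hi
    rcases lt_or_ge i p.length with h2 | h2
    · by_contra h3
      refine absurd (h1 i ⟨h2, fun h4 => h3 ((hp _ ?_).1 h4)⟩) (not_le.2 hi)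
      rw [List.getD_eq_getElem _ _ h2]
      exact List.getElem_mem _
    · rw [List.getD_eq_default _ _ h2, hφ.zero]
  · rintro h1 i ⟨h2, h3⟩
    by_contra h4
    refine h3 ((hp _ ?_).2 (h1 i (not_le.1 h4)))
    rw [List.getD_eq_getElem _ _ h2]
    exact List.getElem_mem _

end Fam

end Crest.Agent.R312
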