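import Crest.Agent.R312.ASpec2
import Crest.Agent.R312.ADiv1

/-! # Row 312, part A: the zero divisor of the cyclic algebra -/

set_option autoImplicit false
set_option linter.unusedSectionVars false

noncomputable section

open Polynomial Finset

namespace Crest.Agent.R312

variable {α : Type} {k : Type} [Field k] [Fintype k] {A : Type}

theorem aspec3b_getD {β : Type} (n : ℕ) (f : ℕ → β) (i : ℕ) (d : β) :
    ((List.range n).map f).getD i d = if i < n then f i else d := by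
  split_ifs with hi
  · simp [List.getD_eq_getElem?_getD, hi]
  · simp [List.getD_eq_getElem?_getD, hi]

theorem aspec3b_sum {β : Type} [AddCommMonoid β] (n : ℕ) (f : ℕ → β) :
    ((List.range n).map f).sum = ∑ i ∈ range n, f i := rfl

/-- The polynomial in the local conditions. -/
def aspec3b_L (M : Mdl k) (β : ℕ → k[X]) (t m : ℕ) : (ℕ → M.R) →ₗ[k] k[X] :=
  ∑ i ∈ range M.l, LinearMap.mulLeft k (C (M.z ^ (i * t)) * β i) ∘ₗ
    (M.co m).restrictScalars k ∘ₗ LinearMap.proj i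

/-- The local conditions as a linear map. -/
def aspec3b_T (M : Mdl k) (β : ℕ → k[X]) : (ℕ → M.R) →ₗ[k] (ℕ → M.R) :=
  LinearMap.pi fun t => ∑ m ∈ range M.l, LinearMap.mulRight k (M.Y ^ m) ∘ₗ
    (Algebra.linearMap k[X] M.R).restrictScalars k ∘ₗ
      if m + t + 1 < M.l then modByMonicHom M.Fm ∘ₗ aspec3b_L M β t m else 0

theorem aspec3b_T_apply (M : Mdl k) (β : ℕ → k[X]) (x : ℕ → M.R) (t : ℕ) :
    aspec3b_T M β x t = ∑ m ∈ range M.l, M.ι (if m + t + 1 < M.l then
      (∑ i ∈ range M.l, C (M.z ^ (i * t)) * β i * M.co m (x i)) %ₘ M.Fm else 0) * M.Y ^ m := by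
  simp only [aspec3b_T, LinearMap.pi_apply, LinearMap.sum_apply]
  refine Finset.sum_congr rfl fun m _ => ?_
  split_ifs
  · have : aspec3b_L M β t m x = ∑ i ∈ range M.l, C (M.z ^ (i * t)) * β i * M.co m (x i) := by
      rw [aspec3b_L, LinearMap.sum_apply]; rfl
    rw [← this]
    rfl
  · simp

theorem aspec3b_ker (M : Mdl k) {β : ℕ → k[X]} {β' : k → k}
    (hβ : ∀ b ∈ M.T, ∀ i, (β i).eval b = β' b ^ i) (x : ℕ → M.R) :
    aspec3b_T M β x = 0 ↔ M.LocCond β' x := by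
  have key : ∀ t m, (∑ i ∈ range M.l, C (M.z ^ (i * t)) * β i * M.co m (x i)) %ₘ M.Fm = 0 ↔
      ∀ b ∈ M.T, ∑ i ∈ range M.l, M.z ^ (i * t) * β' b ^ i * (M.co m (x i)).eval b = 0 := by
    intro t m
    rw [modByMonic_eq_zero_iff_dvd M.Fm_monic, M.Fm_dvd_iff]
    refine forall₂_congr fun b hb => ?_
    simp only [eval_finsetSum, eval_mul, eval_C, hβ b hb]
  constructor
  · intro h0 b hb t m hm
    have h1 := congrArg (M.co m) (congrFun h0 t)
    rw [aspec3b_T_apply, co_sum _ (by omega : m < M.l), if_pos hm, Pi.zero_apply, map_zero] at h1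
    exact (key t m).1 h1 b hb
  · intro h0
    funext t
    rw [aspec3b_T_apply]
    refine Finset.sum_eq_zero fun m _ => ?_
    split_ifs with hm
    · rw [(key t m).2 fun b hb => h0 b hb t m hm, map_zero, zero_mul]
    · rw [map_zero, zero_mul]

namespace Pt

variable {E : Env α} {M : Mdl k} {φ : α → k} (h : Pt E M φ)
include h

theorem beta_spec {ψ : List α} {j₀ : ℕ} {b : k} (hb : b ∈ M.T) (h0 : (toP φ ψ).eval b ≠ 0)
    (hψ : (toP φ ψ).eval b ^ ((Fintype.card k - 1) / M.l) = M.z ^ j₀) :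
    (toP φ (E.beta ψ (E.O.pow E.η j₀))).eval b ^ M.l * (toP φ ψ).eval b = φ E.η ^ j₀ := by
  have h2 := h.hom2 hb
  have e1 : (toP φ [E.η]).eval b = φ E.η := by rw [toP_singleton, eval_C]
  have e2 : (toP φ (E.O2.mul [E.O.pow E.η j₀] (E.O2.pinv E.q ψ))).eval b =
      φ E.η ^ j₀ * ((toP φ ψ).eval b)⁻¹ := by
    rw [h2.mul, h2.pinv h.card, toP_singleton, eval_C, h.hom.pow]
  have hz : M.z ≠ 0 := M.hz.ne_zero M.hl.ne_zero
  have h3 := h2.root (η := [E.η]) (x := E.O2.mul [E.O.pow E.η j₀] (E.O2.pinv E.q ψ)) h.card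
    (h.l_eq ▸ M.hl) h.dvd (by rw [e1]; exact h.η_ne) (by rw [e1]; exact h.η_pow_ne)
    (by rw [e2]; exact mul_ne_zero (pow_ne_zero _ h.η_ne) (inv_ne_zero h0))
    (by
      rw [e2, mul_pow, inv_pow, ← pow_mul, mul_comm j₀, pow_mul, h.η_pow, ← h.card, h.l_eq, hψ]
      exact mul_inv_cancel₀ (pow_ne_zero _ hz))
  rw [e2] at h3
  rw [← h.l_eq, Env.beta, h3, inv_mul_cancel_right₀ h0]

theorem aspec3b_locT (β : List α) (x : Gens α) : M.tup φ (E.locT β x) =
    aspec3b_T M (fun i => toP φ (E.O2.pow β i)) (M.tup φ x) := by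
  funext t
  rw [aspec3b_T_apply, Mdl.tup, Env.locT, aspec3b_getD, h.l_eq]
  split_ifs with ht
  · refine Finset.sum_congr rfl fun m hm => ?_
    rw [aspec3b_getD, if_pos (mem_range.1 hm)]
    congr 2
    split_ifs with hmt
    · rw [h.hom.prem, h.Fm_eq, h.hom.poly.sum, List.map_map, aspec3b_sum]
      congr 1
      refine Finset.sum_congr rfl fun i _ => ?_
      rw [Function.comp_apply, h.hom.toP_map_mul, h.hom.pow, h.ζ_eq, Mdl.tup,
        h.co_toR _ (mem_range.1 hm), mul_assoc]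
      congr 1
      exact h.hom.poly.mul _ _
    · rfl
  · rw [h.toR_nil]
    refine (Finset.sum_eq_zero fun m _ => ?_).symm
    rw [if_neg (by omega), map_zero, zero_mul]

/-- The kernel of the local conditions: apply `Pt.kerT` with the linear map
`x ↦ (t ↦ ∑_{m < l} [m+t+1<l] ι ((∑_i C (z^(i t)) * β_i * co m (x i)) %ₘ Fm) Y^m)`,
`β_i = toP φ (O2.pow β i)`; `mem_span_tupB`, `mem_ksp_colon` + `IsPsi.mem_A_iff`, `exists_rho`. -/
theorem rho_spec {G : Gens α} (hG : M.idl φ G ≠ ⊥) {ψ : List α}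
    (hψ : M.IsPsi (M.idl φ G) (toP φ ψ)) (β : List α) :
    (∀ i < M.l, M.tup φ (E.rho G ψ (toP φ ψ).natDegree β) i ∈ M.A (M.idl φ G) i ∧
      M.tup φ (E.rho G ψ (toP φ ψ).natDegree β) i ∈ M.V (M.W0 + i * (toP φ ψ).natDegree)) ∧
    M.LocCond (fun b => (toP φ β).eval b) (M.tup φ (E.rho G ψ (toP φ ψ).natDegree β)) ∧
    ∃ i < M.l, M.tup φ (E.rho G ψ (toP φ ψ).natDegree β) i ≠ 0 := by
  classical
  set d := (toP φ ψ).natDegree
  have hψ0 : M.toR φ [ψ] ≠ 0 := by rw [h.toR_single]; exact M.ι_ne_zero (hψ.ne_zero hG)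
  set K := E.kerT (Env.tupB ((List.range E.l).map fun i =>
    E.colon [ψ] ((E.preI G (E.l - i)).map (E.rsig i)) (E.mons (E.W0 + i * d)))) (E.locT β) with hK
  have hW : E.W0 = M.W0 := by rw [Env.W0, h.N_eq, h.l_eq, Mdl.W0]
  have key : ∀ x, x ∈ lspan k (M.tup φ) K ↔
      ((∀ i < M.l, x i ∈ M.A (M.idl φ G) i ∧ x i ∈ M.V (M.W0 + i * d)) ∧ ∀ i, M.l ≤ i → x i = 0) ∧
        M.LocCond (fun b => (toP φ β).eval b) x := by
    intro x
    rw [hK, h.kerT _ _ _ fun u _ => h.aspec3b_locT β u, Submodule.mem_inf, LinearMap.mem_ker,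
      aspec3b_ker M (β' := fun b => (toP φ β).eval b) fun b hb i => (h.hom2 hb).pow β i,
      h.mem_span_tupB]
    refine and_congr_left' ?_
    have hlt : ∀ i < M.l, (x i ∈ M.ksp φ (((List.range E.l).map fun i =>
        E.colon [ψ] ((E.preI G (E.l - i)).map (E.rsig i)) (E.mons (E.W0 + i * d))).getD i []) ↔
        x i ∈ M.A (M.idl φ G) i ∧ x i ∈ M.V (M.W0 + i * d)) := fun i hi => by
      rw [aspec3b_getD, h.l_eq, if_pos hi, h.mem_ksp_colon hψ0, h.ksp_mons, h.idl_map_rsig,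
        h.idl_preI, h.toR_single, hW, hψ.mem_A_iff hG hi.le, and_comm]
    have hge : ∀ i, M.l ≤ i → (x i ∈ M.ksp φ (((List.range E.l).map fun i =>
        E.colon [ψ] ((E.preI G (E.l - i)).map (E.rsig i)) (E.mons (E.W0 + i * d))).getD i []) ↔
        x i = 0) := fun i hi => by
      rw [aspec3b_getD, h.l_eq, if_neg hi.not_gt, Mdl.ksp, lspan_eq_bot.2 (by simp),
        Submodule.mem_bot]
    exact ⟨fun H => ⟨fun i hi => (hlt i hi).1 (H i), fun i hi => (hge i hi).1 (H i)⟩,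
      fun H i => (lt_or_ge i M.l).elim (fun hi => (hlt i hi).2 (H.1 i hi))
        fun hi => (hge i hi).2 (H.2 i hi)⟩
  obtain ⟨g, g1, g2, g3, i, -, g4⟩ := M.exists_rho hG hψ fun b => (toP φ β).eval b
  have hex : ∃ r ∈ K, M.tup φ r ≠ 0 := by
    by_contra hc
    push Not at hc
    have := (key g).2 ⟨⟨g1, g2⟩, g3⟩
    rw [lspan_eq_bot.2 hc, Submodule.mem_bot] at this
    exact g4 (congrFun this i)
  obtain ⟨a1, r, hr, a2⟩ := h.hom.firstNZ_mem h.homTV (nz := E.nzT)
    (fun x => by convert h.nzT x) hex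
  have e : M.tup φ (E.rho G ψ d β) = M.tup φ r := a2
  have a3 := (key _).1 (mem_lspan hr)
  rw [e]
  refine ⟨a3.1.1, a3.2, ?_⟩
  by_contra hc
  push Not at hc
  exact a1 (a2.trans (funext fun i => (lt_or_ge i M.l).elim (hc i) (a3.1.2 i)))

theorem vmat_spec (ψ : List α) (c : α) (ρ : Gens α) {j m : ℕ} (hj : j < M.l) (hm : m < M.l) :
    M.tup φ ((E.vmat ψ c ρ).getD j []) m = M.vrow (toP φ ψ) (φ c) (M.tup φ ρ) j m := by
  rw [Env.vmat, aspec3b_getD, h.l_eq, if_pos hj, Mdl.tup, aspec3b_getD, if_pos hm, Mdl.vrow]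
  split_ifs
  · rw [h.toR_rmul, h.toR_single, h.toR_rsig, Mdl.tup]
  · rw [h.homRV.smul, h.toR_rsig, M.smul_eq, Mdl.tup]

theorem mem_span_relK (v : List (Gens α)) (r : ℕ) (x : ℕ → M.R) :
    x ∈ lspan k (M.tup φ) (E.relK v r) ↔
      (∀ i ≤ r, x i ∈ M.V (M.relD (E.wt v.flatten))) ∧ (∀ i, r < i → x i = 0) ∧
        M.IsRel (fun i => M.tup φ (v.getD i [])) (r + 1) x := by
  let 𝒯 : (ℕ → M.R) →ₗ[k] (ℕ → M.R) := LinearMap.pi fun m => if m < M.l then
    ∑ i ∈ range (r + 1), LinearMap.mulRight k (M.tup φ (v.getD i []) m) ∘ₗ LinearMap.proj i else 0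
  have hT : ∀ y m, 𝒯 y m =
      if m < M.l then ∑ i ∈ range (r + 1), y i * M.tup φ (v.getD i []) m else 0 := fun y m => by
    simp only [𝒯, LinearMap.pi_apply]
    split_ifs
    · simp [LinearMap.sum_apply]
    · rfl
  have hD : E.relD (E.wt v.flatten) = M.relD (E.wt v.flatten) := by
    rw [Env.relD, h.N_eq, h.l_eq, Mdl.relD]
  rw [Env.relK, h.kerT _ _ 𝒯, Submodule.mem_inf, LinearMap.mem_ker, h.mem_span_tupB, ← and_assoc]
  · refine and_congr ?_ ⟨fun H m hm => ?_, fun H => funext fun m => ?_⟩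
    · have hle : ∀ i ≤ r, (List.replicate (r + 1) (E.mons (E.relD (E.wt v.flatten)))).getD i [] =
          E.mons (E.relD (E.wt v.flatten)) := fun i hi => by
        simp [List.getD_eq_getElem?_getD, List.getElem?_replicate, Nat.lt_succ_of_le hi]
      have hgt : ∀ i, r < i →
          (List.replicate (r + 1) (E.mons (E.relD (E.wt v.flatten)))).getD i [] = [] :=
        fun i hi => List.getD_eq_default _ _ (by simpa using hi)
      have hb : M.ksp φ [] = ⊥ := lspan_eq_bot.2 (by simp)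
      refine ⟨fun H => ⟨fun i hi => ?_, fun i hi => ?_⟩, fun H i => ?_⟩
      · have := H i
        rwa [hle i hi, h.ksp_mons, hD] at this
      · have := H i
        rwa [hgt i hi, hb, Submodule.mem_bot] at this
      · rcases le_or_gt i r with hi | hi
        · rw [hle i hi, h.ksp_mons, hD]; exact H.1 i hi
        · rw [hgt i hi, hb, Submodule.mem_bot]; exact H.2 i hi
    · have := congrFun H m
      rwa [hT, if_pos hm] at this
    · rw [hT]
      split_ifs with hm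
      exacts [H m hm, rfl]
  · intro u _
    funext m
    rw [hT, Mdl.tup, aspec3b_getD, h.l_eq]
    split_ifs
    · rw [h.homRO.sum, List.map_map, aspec3b_sum]
      exact Finset.sum_congr rfl fun i _ => h.toR_rmul _ _
    · exact h.toR_nil

end Pt

end Crest.Agent.R312
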