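import Crest.Agent.R312.ASpec2b
import Crest.Agent.R312.ASpec3
import Crest.Agent.R312.ASpec3b
import Crest.Agent.R312.ADiv2
import Crest.Agent.R312.ADiv3

/-! # Row 312, part A: correctness of the division -/

set_option autoImplicit false
set_option linter.unusedSectionVars false

noncomputable section

open Polynomial Finset

namespace Crest.Agent.R312

variable {α : Type} {k : Type} [Field k] [Fintype k] {A : Type}

theorem aspec3c_rel_congr {M : Mdl k} {w w' : ℕ → ℕ → M.R}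
    (hw : ∀ j < M.l, ∀ m < M.l, w j m = w' j m) {r : ℕ} (hr : r ≤ M.l) (x : ℕ → M.R) :
    M.IsRel w r x ↔ M.IsRel w' r x := by
  unfold Mdl.IsRel
  refine forall₂_congr fun m hm => ?_
  rw [sum_congr rfl fun i hi => by rw [hw i ((mem_range.1 hi).trans_le hr) m hm]]

theorem aspec3c_rel_mono {M : Mdl k} {w : ℕ → ℕ → M.R} {r r' : ℕ} (hr : r + 1 ≤ r')
    {x : ℕ → M.R} (h0 : ∀ i, r < i → x i = 0) (hx : M.IsRel w (r + 1) x) : M.IsRel w r' x := by
  intro m hm
  rw [← hx m hm]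
  refine (sum_subset (range_subset_range.2 hr) fun i _ hi => ?_).symm
  rw [h0 i (by simpa using hi), zero_mul]

theorem aspec3c_getD {β : Type} (v : List (List (List β))) (i m : ℕ) :
    (v.getD i []).getD m [] = [] ∨ (v.getD i []).getD m [] ∈ v.flatten := by
  rcases lt_or_ge i v.length with hi | hi
  · rw [List.getD_eq_getElem _ _ hi]
    rcases lt_or_ge m v[i].length with hm | hm
    · rw [List.getD_eq_getElem _ _ hm]
      exact Or.inr (List.mem_flatten.2 ⟨_, List.getElem_mem hi, List.getElem_mem hm⟩)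
    · exact Or.inl (List.getD_eq_default _ _ hm)
  · rw [List.getD_eq_default _ _ hi]
    exact Or.inl rfl

namespace Pt

variable {E : Env α} {M : Mdl k} {φ : α → k} (h : Pt E M φ)
include h

theorem aspec3c_mem_V (v : List (Gens α)) (i m : ℕ) :
    M.tup φ (v.getD i []) m ∈ M.V (E.wt v.flatten) := by
  unfold Mdl.tup
  rcases aspec3c_getD v i m with e | e
  · rw [e, h.toR_nil]; exact zero_mem _
  · exact h.ksp_le_wt _ (mem_lspan e)

/-- The rank computed by the algorithm. -/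
theorem aspec3c_rk {ψ : k[X]} {c : k} {g : ℕ → M.R} {v : List (Gens α)}
    (hv : ∀ j < M.l, ∀ m < M.l, M.tup φ (v.getD j []) m = M.vrow ψ c g j m)
    (hZ : ∀ r < M.l, (E.isZ (E.nzK (E.relK v r)) = true ↔ φ (E.nzK (E.relK v r)) = 0))
    {r : ℕ} (hr : r < M.l) (hind : ∀ x, M.IsRel (M.vrow ψ c g) r x → ∀ i < r, x i = 0)
    (hdep : ∃ x, M.IsRel (M.vrow ψ c g) (r + 1) x ∧ ∃ i ≤ r, x i ≠ 0) :
    E.rk v = r ∧ lspan k (M.tup φ) (E.relK v r) ≠ ⊥ := by
  classical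
  have h1 : lspan k (M.tup φ) (E.relK v r) ≠ ⊥ := by
    obtain ⟨x, k1, k2, k3, i, -, k4⟩ := M.exists_rel (v := fun i => M.tup φ (v.getD i []))
      (W := E.wt v.flatten) hr (fun i _ m _ => h.aspec3c_mem_V v i m)
      (fun x hx => hind x ((aspec3c_rel_congr hv hr.le x).1 hx))
      (hdep.imp fun x hx => ⟨(aspec3c_rel_congr hv hr x).2 hx.1, hx.2⟩)
    intro e
    have k5 := (h.mem_span_relK v r x).2 ⟨k1, k2, k3⟩
    rw [e, Submodule.mem_bot] at k5
    exact k4 (congrFun k5 i)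
  have h2 : ∀ j < r, lspan k (M.tup φ) (E.relK v j) = ⊥ := by
    intro j hj
    refine (Submodule.eq_bot_iff _).2 fun x hx => ?_
    obtain ⟨-, k2, k3⟩ := (h.mem_span_relK v j x).1 hx
    have k4 := hind x ((aspec3c_rel_congr hv hr.le x).1 (aspec3c_rel_mono hj k2 k3))
    funext i
    rcases lt_or_ge i r with hi | hi
    · exact k4 i hi
    · exact k2 i (hj.trans_le hi)
  refine ⟨?_, h1⟩
  have h3 : (List.range E.l).find? (fun r => !E.isZ (E.nzK (E.relK v r))) = some r := by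
    refine List.find?_range_eq_some.2 ⟨?_, List.mem_range.2 (h.l_eq ▸ hr), fun j hj => ?_⟩
    · have := hZ r hr
      rw [h.nzK, if_neg h1] at this
      simpa using this
    · have := hZ j (hj.trans hr)
      rw [h.nzK, if_pos (h2 j hj)] at this
      simpa using this
  rw [Env.rk, h3, Option.getD_some]

theorem invL_spec {r : ℕ} (hr1 : 1 ≤ r) (hr : r < M.l) :
    r * E.invL r = 1 + M.l * ((r * E.invL r - 1) / E.l) := by
  have hc : Nat.Coprime r M.l :=
    ((Nat.Prime.coprime_iff_not_dvd M.hl).2 (Nat.not_dvd_of_pos_of_lt hr1 hr)).symm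
  obtain ⟨m, hm, hm1⟩ := Nat.exists_mul_mod_eq_one_of_coprime hc M.hl.one_lt
  have h1 : r * E.invL r % M.l = 1 := by
    unfold Env.invL
    rw [h.l_eq]
    cases e : (List.range M.l).find? fun s => decide (r * s % M.l = 1) with
    | none =>
      exact absurd (by simpa using hm1) (List.find?_eq_none.1 e m (List.mem_range.2 hm))
    | some s => simpa using List.find?_some e
  have h2 := Nat.div_add_mod (r * E.invL r) M.l
  rw [h1] at h2
  have h3 : r * E.invL r - 1 = M.l * (r * E.invL r / M.l) := by omega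
  rw [h.l_eq, h3, Nat.mul_div_cancel_left _ M.hl.pos]
  omega

/-- `norm_rel`, `norm_rel_pow`, `hilbert90`, `eqv_div`, `neg_spec`, `nrm_spec`. -/
theorem div2_spec {G : Gens α} {ψ : List α} (hψ : M.IsPsi (M.idl φ G) (toP φ ψ))
    (hψ0 : toP φ ψ ≠ 0) {c : k} (hc : c ≠ 0) {g : ℕ → M.R} {v : List (Gens α)}
    (hv : ∀ j < M.l, ∀ m < M.l, M.tup φ (v.getD j []) m = M.vrow (toP φ ψ) c g j m) {r : ℕ}
    (hr1 : 1 ≤ r) (hr : r < M.l)
    (hind : ∀ x, M.IsRel (M.vrow (toP φ ψ) c g) r x → ∀ i < r, x i = 0)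
    (hK : lspan k (M.tup φ) (E.relK v r) ≠ ⊥) :
    M.Cop (M.idl φ (E.div2 G ψ v r)) ∧
      M.Eqv (M.idl φ G * M.idl φ (E.div2 G ψ v r)) (M.cj 1 (M.idl φ (E.div2 G ψ v r))) := by
  classical
  obtain ⟨h1, y, hy, h2⟩ := h.hom.firstNZ_mem h.homTV (nz := E.nzT)
    (fun x => by convert h.nzT x) (l := E.relK v r) (by
      by_contra hc
      exact hK (lspan_eq_bot.2 fun y hy => by_contra fun e => hc ⟨y, hy, e⟩))
  obtain ⟨-, k2, k3⟩ := (h.mem_span_relK v r (M.tup φ (E.O.firstNZ E.TV E.nzT (E.relK v r)))).1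
    (by rw [h2]; exact mem_lspan hy)
  set w := E.O.firstNZ E.TV E.nzT (E.relK v r) with hw
  have k4 : ∃ i ≤ r, M.tup φ w i ≠ 0 := by
    by_contra hc
    refine h1 (funext fun i => ?_)
    rcases le_or_gt i r with hi | hi
    · exact by_contra fun e => hc ⟨i, hi, e⟩
    · exact k2 i hi
  obtain ⟨n0, nr, e, he, hn⟩ := M.norm_rel hψ0 hc g hr1 hr hind
    ((aspec3c_rel_congr hv hr _).1 k3) k4
  have hn' := M.norm_rel_pow (h.invL_spec hr1 hr) hn
  have g1 : M.tup φ w 0 ^ E.invL r * M.ι (toP φ ψ) ^ ((r * E.invL r - 1) / E.l) ≠ 0 :=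
    mul_ne_zero (pow_ne_zero _ n0) (pow_ne_zero _ (M.ι_ne_zero hψ0))
  have g2 : M.tup φ w r ^ E.invL r ≠ 0 := pow_ne_zero _ nr
  obtain ⟨hH, hrel⟩ := M.hilbert90 hψ g2 (pow_ne_zero _ he) hn'
  have hid : M.idl φ (E.h90 G (E.rmul (E.rpow (w.getD 0 []) (E.invL r))
      (E.rpow [ψ] ((r * E.invL r - 1) / E.l))) (E.rpow (w.getD r []) (E.invL r))) =
      M.H90 (M.idl φ G)
        (M.tup φ w 0 ^ E.invL r * M.ι (toP φ ψ) ^ ((r * E.invL r - 1) / E.l))
        (M.tup φ w r ^ E.invL r) := by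
    rw [h.idl_h90, h.toR_rmul, h.toR_rpow, h.toR_rpow, h.toR_rpow, h.toR_single]
    rfl
  obtain ⟨s, hs, hneg⟩ := h.neg_spec (hid ▸ hH)
  unfold Env.div2
  rw [← hw]
  set H := E.h90 G (E.rmul (E.rpow (w.getD 0 []) (E.invL r))
      (E.rpow [ψ] ((r * E.invL r - 1) / E.l))) (E.rpow (w.getD r []) (E.invL r)) with hHe
  have hne : M.idl φ (E.neg H) ≠ ⊥ := by
    intro e0
    rw [e0, Ideal.mul_bot] at hneg
    exact hs (Ideal.span_singleton_eq_bot.1 hneg.symm)
  obtain ⟨c1, c2⟩ := h.nrm_spec hne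
  refine ⟨c1, M.eqv_div g1 g2 hrel ?_⟩
  rw [← hid]
  refine ((Mdl.Eqv.refl M _).mul c2.symm).trans ?_
  rw [hneg, ← Ideal.mul_top (Ideal.span {s})]
  exact M.eqv_span_mul hs ⊤

end Pt

/-- `det_vrow`, `exists_rank`, `exists_rel`: at each point the rank `r₀` is the first `r` with
`relK v r` not spanning `⊥`, which is `rk v` once the guard is passed. -/
theorem Fam.divI {E : Env α} {M : A → Mdl k} {φ : A → α → k} (h : Fam E M φ) {n : ℕ} {G : Gens α}
    {j₀ : ℕ} (hG : ∀ a, (M a).Cop ((M a).idl (φ a) G))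
    (hj : ∀ a, ∀ b ∈ (M a).T,
      (toP (φ a) (E.psi G)).eval b ^ ((Fintype.card k - 1) / (M a).l) = (M a).z ^ j₀) :
    Res M φ n (E.divI G j₀) fun G' => ∀ a, (M a).Cop ((M a).idl (φ a) G') ∧
      (M a).Eqv ((M a).idl (φ a) G * (M a).idl (φ a) G') ((M a).cj 1 ((M a).idl (φ a) G')) := by
  unfold Env.divI
  refine h.guard fun h1 => h.guard fun h2 => Res.inr fun a => ?_
  have pt := h.pt a
  have hb := (hG a).ne_bot
  have hψ := pt.isPsi_psi hb
  have hψ0 := hψ.ne_zero hb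
  have hc : φ a (E.O.pow E.η j₀) = φ a E.η ^ j₀ := pt.hom.pow _ _
  have hc0 : φ a (E.O.pow E.η j₀) ≠ 0 := hc ▸ pow_ne_zero _ pt.η_ne
  have hd : E.degB (E.psi G) = (toP (φ a) (E.psi G)).natDegree :=
    Fam.degB_eq pt.hom fun x hx => h1 x hx a
  obtain ⟨r1, r2, r3⟩ := pt.rho_spec hb hψ (E.beta (E.psi G) (E.O.pow E.η j₀))
  rw [← hd] at r2 r3
  have hv : ∀ j < (M a).l, ∀ m < (M a).l, (M a).tup (φ a) ((E.div1 G j₀).getD j []) m =
      (M a).vrow (toP (φ a) (E.psi G)) (φ a (E.O.pow E.η j₀)) ((M a).tup (φ a)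
        (E.rho G (E.psi G) (E.degB (E.psi G)) (E.beta (E.psi G) (E.O.pow E.η j₀)))) j m :=
    fun j hj m hm => pt.vmat_spec _ _ _ hj hm
  have hdet := (M a).det_vrow hψ hc0
    (fun b hb' => (pt.beta_spec hb' (hψ.eval_ne_zero (hG a) hb') (hj a b hb')).trans hc.symm)
    (by rw [hd]; exact r1) r2
  obtain ⟨r, hr1, hr, hind, hdep⟩ := (M a).exists_rank hψ0 _ r3 hdet
  obtain ⟨e, hK⟩ := pt.aspec3c_rk hv (fun r hr => h2 _ (List.mem_map.2
    ⟨r, List.mem_range.2 (pt.l_eq ▸ hr), rfl⟩) a) hr hind hdep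
  rw [e]
  exact pt.div2_spec hψ hψ0 hc0 hv hr1 hr hind hK

end Crest.Agent.R312
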