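import Crest.Agent.R312.ASpec3

/-! # Row 312, part A: reading the obstruction on the cells -/

set_option autoImplicit false
set_option linter.unusedSectionVars false

noncomputable section

open Polynomial Finset

namespace Crest.Agent.R312

variable {α : Type} {k : Type} [Field k] [Fintype k] {A : Type}

open Classical in
theorem Pt.e2_eval {E : Env α} {M : Mdl k} {φ : α → k} (h : Pt E M φ) (ω ε : List α) (j : ℕ)
    {b : k} (hb : b ∈ M.T) : (toP φ (E.e2 ω ε j)).eval b =
      if (toP φ ω).eval b = M.z ^ j then (toP φ ε).eval b else 0 := by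
  have h2 := h.hom2 hb
  have e1 := h2.mul ε (E.O2.sub E.O2.one (E.O2.ind E.q (E.O2.sub ω [E.O.pow E.ζ j])))
  have e2 := h2.sub E.O2.one (E.O2.ind E.q (E.O2.sub ω [E.O.pow E.ζ j]))
  have e3 := h2.ind h.card (E.O2.sub ω [E.O.pow E.ζ j])
  have e4 := h2.sub ω [E.O.pow E.ζ j]
  have e5 := h2.one
  rw [toP_singleton, eval_C, h.hom.pow, h.ζ_eq] at e4
  rw [Env.e2, e1, e2, e3, e4, e5]
  by_cases hj : (toP φ ω).eval b = M.z ^ j
  · simp [hj]
  · simp [hj, sub_eq_zero]

/-- `e2` is reduced modulo `Fm`, so it is zero iff it vanishes on `T`. -/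
theorem Pt.anyNZ_e2 {E : Env α} {M : Mdl k} {φ : α → k} (h : Pt E M φ) (ω ε : List α) (j : ℕ) :
    φ (E.O.anyNZ E.q (E.e2 ω ε j)) = 0 ↔ ∀ b ∈ M.T, (toP φ (E.e2 ω ε j)).eval b = 0 := by
  classical
  rw [h.hom.anyNZ h.card]
  have e : toP φ (E.e2 ω ε j) = _ := h.hom.toP_quot_mul E.Fm _ _
  rw [h.Fm_eq] at e
  have hd : (toP φ (E.e2 ω ε j)).degree < M.Fm.degree := by
    rw [e]
    exact degree_modByMonic_lt _ M.Fm_monic
  rw [← M.Fm_dvd_iff]
  constructor
  · intro h0
    have : ∀ x ∈ E.e2 ω ε j, φ x = 0 := by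
      by_contra hn
      rw [if_neg hn] at h0
      exact one_ne_zero h0
    rw [(toP_eq_zero_iff _).2 this]
    exact dvd_zero _
  · intro h0
    rw [if_pos ((toP_eq_zero_iff _).1 (eq_zero_of_dvd_of_degree_lt h0 hd))]

namespace Fam

variable {E : Env α} {M : A → Mdl k} {φ : A → α → k} (h : Fam E M φ)
include h

/-- After the guard, the pair `(Z, j)` is kept iff some `b` has `lab b = Z`, `ω(b) = z^j`.  The kept
pairs label `T` again (`refine`: for the new labelling take the index in the `flatMap`, e.g. prove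
first that for each `b` exactly one member of the new list has value `1`, the others `0`, and every
member has value `1` somewhere).  Every cell has at least one kept `j`; if the number of cells does not
increase each cell has exactly one. -/
theorem readW {cells : List (List α)} {lab : A → k → ℕ} (hc : ∀ a, Lab (M a) (φ a) cells (lab a))
    {ω : List α} (hω : ∀ a, ∀ b ∈ (M a).T, (toP (φ a) ω).eval b ^ (M a).l = 1) :
    Res M φ cells.length (E.readW cells ω) fun js => js.length = cells.length ∧
      ∀ a, ∀ b ∈ (M a).T, (toP (φ a) ω).eval b = (M a).z ^ js.getD (lab a b) 0 := by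
  classical
  refine h.guard fun hg => ?_
  let keep : List α → ℕ → Bool := fun ε j => !E.isZ (E.O.anyNZ E.q (E.e2 ω ε j))
  have hJ : ∀ a b, ∃ j, b ∈ (M a).T → j < E.l ∧ (toP (φ a) ω).eval b = (M a).z ^ j := by
    intro a b
    by_cases hb : b ∈ (M a).T
    · obtain ⟨j, hj, e⟩ := (M a).hz.eq_pow_of_pow_eq_one (hω a b hb)
      exact ⟨j, fun _ => ⟨(h.pt a).l_eq ▸ hj, e.symm⟩⟩
    · exact ⟨0, fun hb' => absurd hb' hb⟩
  choose J hJ using hJ
  have hJu : ∀ a, ∀ b ∈ (M a).T, ∀ j < E.l, ((toP (φ a) ω).eval b = (M a).z ^ j ↔ J a b = j) := by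
    intro a b hb j hj
    rw [(hJ a b hb).2]
    exact ⟨fun e => (M a).hz.pow_inj ((h.pt a).l_eq ▸ (hJ a b hb).1) ((h.pt a).l_eq ▸ hj) e,
      fun e => by rw [e]⟩
  have hev : ∀ a, ∀ Z < cells.length, ∀ j < E.l, ∀ b ∈ (M a).T,
      (toP (φ a) (E.e2 ω (cells.getD Z []) j)).eval b =
        if (lab a b, J a b) = (Z, j) then 1 else 0 := by
    intro a Z hZ j hj b hb
    rw [(h.pt a).e2_eval _ _ _ hb, (hc a).eval Z hZ b hb, hJu a b hb j hj]
    by_cases h1 : J a b = j <;> by_cases h2 : lab a b = Z <;> simp [h1, h2]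
  have hkeep : ∀ a, ∀ Z < cells.length, ∀ j < E.l,
      (keep (cells.getD Z []) j = true ↔ ∃ b ∈ (M a).T, (lab a b, J a b) = (Z, j)) := by
    intro a Z hZ j hj
    have hm : cells.getD Z [] ∈ cells := by
      rw [List.getD_eq_getElem _ _ hZ]
      exact List.getElem_mem _
    have := hg (E.O.anyNZ E.q (E.e2 ω (cells.getD Z []) j))
      (List.mem_flatMap.2 ⟨_, hm, List.mem_map.2 ⟨j, List.mem_range.2 hj, rfl⟩⟩) a
    rw [(h.pt a).anyNZ_e2] at this
    simp only [keep, Bool.not_eq_true', ← Bool.not_eq_true, this]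
    push Not
    refine exists_congr fun b => and_congr_right fun hb => ?_
    rw [hev a Z hZ j hj b hb]
    simp
  let P : List (ℕ × ℕ) := (List.range cells.length ×ˢ List.range E.l).filter
    fun p => keep (cells.getD p.1 []) p.2
  have hP : ∀ p, p ∈ P ↔ p.1 < cells.length ∧ p.2 < E.l ∧ keep (cells.getD p.1 []) p.2 = true := by
    rintro ⟨Z, j⟩
    simp only [P, List.mem_filter, List.mem_product, List.mem_range, and_assoc]
  have hPn : P.Nodup := (List.nodup_range.product List.nodup_range).filter _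
  have href : E.refine ω cells = P.map fun p => E.e2 ω (cells.getD p.1 []) p.2 := by
    have hcells : cells = (List.range cells.length).map fun Z => cells.getD Z [] := by
      refine List.ext_getElem (by simp) fun i h1 h2 => ?_
      simp [List.getD_eq_getElem?_getD, h1]
    rw [Env.refine]
    conv_lhs => rw [hcells, List.flatMap_map]
    simp only [P, SProd.sprod, List.product, List.filter_flatMap, List.map_flatMap,
      List.filter_map, List.map_map]
    rfl
  have hmem : ∀ a, ∀ b ∈ (M a).T, (lab a b, J a b) ∈ P := fun a b hb =>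
    (hP _).2 ⟨(hc a).lt b hb, (hJ a b hb).1,
      (hkeep a _ ((hc a).lt b hb) _ (hJ a b hb).1).2 ⟨b, hb, rfl⟩⟩
  have hlen : (E.refine ω cells).length = P.length := by rw [href, List.length_map]
  split_ifs with hlt
  · refine ⟨hlt, fun a => ⟨fun b => P.idxOf (lab a b, J a b), fun b hb => ?_, fun Z hZ => ?_,
      fun Z hZ b hb => ?_⟩⟩
    · rw [hlen]
      exact List.idxOf_lt_length_of_mem (hmem a b hb)
    · rw [hlen] at hZ
      obtain ⟨h1, h2, h3⟩ := (hP _).1 (List.getElem_mem hZ)
      obtain ⟨b, hb, e⟩ := (hkeep a _ h1 _ h2).1 h3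
      exact ⟨b, hb, by rw [e]; exact hPn.idxOf_getElem Z hZ⟩
    · have hZ' : Z < P.length := hlen ▸ hZ
      obtain ⟨h1, h2, -⟩ := (hP _).1 (List.getElem_mem hZ')
      have e : (E.refine ω cells).getD Z [] = E.e2 ω (cells.getD P[Z].1 []) P[Z].2 := by
        rw [href, List.getD_eq_getElem _ _ (by rwa [List.length_map]), List.getElem_map]
      rw [e, hev a _ h1 _ h2 b hb]
      refine if_congr ⟨fun e' => ?_, fun e' => ?_⟩ rfl rfl
      · rw [e']
        exact hPn.idxOf_getElem Z hZ'
      · subst e'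
        exact (List.getElem_idxOf _).symm
  · refine ⟨List.length_map _, fun a b hb => ?_⟩
    have hinj : Set.InjOn Prod.fst (P.toFinset : Set (ℕ × ℕ)) := by
      refine Finset.card_image_iff.1 (le_antisymm Finset.card_image_le ?_)
      rw [List.toFinset_card_of_nodup hPn, ← hlen]
      refine (not_lt.1 hlt).trans ((Finset.card_range _).symm.le.trans (Finset.card_le_card ?_))
      intro Z hZ
      obtain ⟨b', hb', e⟩ := (hc a).surj Z (Finset.mem_range.1 hZ)
      exact Finset.mem_image.2 ⟨_, List.mem_toFinset.2 (hmem a b' hb'), e⟩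
    have hZ := (hc a).lt b hb
    rw [List.getD_eq_getElem _ _ (by rwa [List.length_map]), List.getElem_map,
      ← List.getD_eq_getElem _ [] hZ, (hJ a b hb).2]
    congr 1
    change _ = ((List.range E.l).find? (keep (cells.getD (lab a b) []))).getD 0
    rcases hf : (List.range E.l).find? (keep (cells.getD (lab a b) [])) with _ | j
    · exact absurd ((hP _).1 (hmem a b hb)).2.2
        (List.find?_eq_none.1 hf _ (List.mem_range.2 (hJ a b hb).1))
    · have hj : (lab a b, j) ∈ P := (hP _).2
        ⟨hZ, List.mem_range.1 (List.mem_of_find?_eq_some hf), List.find?_some hf⟩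
      exact congrArg Prod.snd (hinj (List.mem_toFinset.2 (hmem a b hb) :) (List.mem_toFinset.2 hj :)
        rfl)

end Fam

end Crest.Agent.R312
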