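import Crest.Agent.R312.ASpec4
import Crest.Agent.R312.ASpec3c

/-! # Row 312, part A: division of combinations -/

set_option autoImplicit false
set_option linter.unusedSectionVars false

noncomputable section

open Polynomial Finset

namespace Crest.Agent.R312

variable {α : Type} {k : Type} [Field k] [Fintype k] {A : Type}

private theorem aspec4b_zpow (M : Mdl k) (j : ℕ) : M.z ^ ((j : ZMod M.l)).val = M.z ^ j := by
  rw [ZMod.val_natCast, ← pow_eq_pow_mod j M.hz.pow_eq_one]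

private theorem aspec4b_pow {M : Mdl k} {I : Ideal M.R} {o : k → ZMod M.l} (hI : M.Cop I)
    (h : M.ObV I o) (n : ℕ) : M.Cop (I ^ n) ∧ M.ObV (I ^ n) (n • o) := by
  induction n with
  | zero =>
    rw [pow_zero, zero_smul, Ideal.one_eq_top]
    exact ⟨M.cop_top, M.obV_top⟩
  | succ n ih =>
    rw [pow_succ, succ_nsmul]
    exact ⟨ih.1.mul hI, ih.2.mul h⟩

private theorem aspec4b_prod {M : Mdl k} (s : Finset ℕ) {I : ℕ → Ideal M.R}
    {o : ℕ → k → ZMod M.l} (h : ∀ i ∈ s, M.Cop (I i) ∧ M.ObV (I i) (o i)) :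
    M.Cop (∏ i ∈ s, I i) ∧ M.ObV (∏ i ∈ s, I i) (∑ i ∈ s, o i) := by
  induction s using Finset.induction_on with
  | empty =>
    rw [Finset.prod_empty, Finset.sum_empty, Ideal.one_eq_top]
    exact ⟨M.cop_top, M.obV_top⟩
  | insert i s hi ih =>
    rw [Finset.prod_insert hi, Finset.sum_insert hi]
    have h1 := h i (Finset.mem_insert_self _ _)
    have h2 := ih fun j hj => h j (Finset.mem_insert_of_mem hj)
    exact ⟨h1.1.mul h2.1, h1.2.mul h2.2⟩

private theorem aspec4b_dvd {E : Env α} {M : Mdl k} {φ : α → k} (h : Pt E M φ) :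
    M.l ∣ Fintype.card k - 1 := by
  rw [h.card, ← h.l_eq]
  exact h.dvd

private theorem aspec4b_cast {l l' : ℕ} (e : l = l') {n : ℕ} {u : ℕ → ℕ} {c : ℕ → ℕ}
    {v : ℕ → ℕ → ℕ} {N : ℕ} {κ : ZMod l}
    (h : ∀ Z < N, ((u Z : ℕ) : ZMod l) + ∑ i ∈ range n, ((c i : ℕ) : ZMod l) *
      ((v i Z : ℕ) : ZMod l) = κ) :
    ∃ κ' : ZMod l', ∀ Z < N, ((u Z : ℕ) : ZMod l') + ∑ i ∈ range n, (c i % l) •
      ((v i Z : ℕ) : ZMod l') = κ' := by
  subst e
  refine ⟨κ, fun Z hZ => ?_⟩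
  rw [← h Z hZ]
  simp only [nsmul_eq_mul, ZMod.natCast_mod]

namespace Fam

variable {E : Env α} {M : A → Mdl k} {φ : A → α → k} (h : Fam E M φ)
include h

theorem readOb {cells : List (List α)} {lab : A → k → ℕ} (hc : ∀ a, Lab (M a) (φ a) cells (lab a))
    {G : Gens α} (hG : ∀ a, (M a).Cop ((M a).idl (φ a) G)) :
    Res M φ cells.length (E.readOb cells G) fun js => js.length = cells.length ∧
      (∀ a, ∀ b ∈ (M a).T, (toP (φ a) (E.psi G)).eval b ^ ((Fintype.card k - 1) / (M a).l) =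
        (M a).z ^ js.getD (lab a b) 0) ∧
      ∀ a, (M a).ObV ((M a).idl (φ a) G) fun b => ((js.getD (lab a b) 0 : ℕ) : ZMod (M a).l) := by
  have hψ := fun a => (h.pt a).isPsi_psi (hG a).ne_bot
  have hω : ∀ a, ∀ b ∈ (M a).T, (toP (φ a) (E.ob G)).eval b ^ (M a).l = 1 := by
    intro a b hb
    rw [(h.pt a).ob_eval G hb, ← pow_mul, Nat.div_mul_cancel (aspec4b_dvd (h.pt a))]
    exact FiniteField.pow_card_sub_one_eq_one _ ((hψ a).eval_ne_zero (hG a) hb)
  refine (h.readW hc hω).mono fun js hjs => ?_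
  have h2 : ∀ a, ∀ b ∈ (M a).T,
      (toP (φ a) (E.psi G)).eval b ^ ((Fintype.card k - 1) / (M a).l) =
        (M a).z ^ js.getD (lab a b) 0 := fun a b hb => by
    rw [← (h.pt a).ob_eval G hb, hjs.2 a b hb]
  exact ⟨hjs.1, h2, fun a => ⟨_, hψ a, fun b hb => by rw [h2 a b hb, aspec4b_zpow]⟩⟩


/-- If the obstruction of an equivalent ideal is constant then `js[lab b] ≡ js[0] (mod l)` for all
`b` (`ObV.eqv`, the cell `0` is not empty). -/
theorem divC {cells : List (List α)} {lab : A → k → ℕ} (hc : ∀ a, Lab (M a) (φ a) cells (lab a))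
    {G : Gens α} (hG : ∀ a, (M a).Cop ((M a).idl (φ a) G))
    (hob : ∀ a, ∃ I o κ, (M a).Cop I ∧ (M a).Eqv I ((M a).idl (φ a) G) ∧ (M a).ObV I o ∧
      ∀ b ∈ (M a).T, o b = κ) :
    Res M φ cells.length (E.divC cells G) fun G' => ∀ a, (M a).Cop ((M a).idl (φ a) G') ∧
      (M a).Eqv ((M a).idl (φ a) G * (M a).idl (φ a) G') ((M a).cj 1 ((M a).idl (φ a) G')) := by
  refine (h.readOb hc hG).bind fun js _ hjs => h.divI hG fun a b hb => ?_
  obtain ⟨I, o, κ, hI, e, ho, hκ⟩ := hob a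
  obtain ⟨κ', hκ'⟩ := ho.eqv (aspec4b_dvd (h.pt a)) (hjs.2.2 a) hI (hG a) e
  obtain ⟨b₀, hb₀, hl⟩ := (hc a).surj 0 (hc a).length_pos
  have h1 := hκ' b hb
  have h2 := hκ' b₀ hb₀
  rw [hκ b hb] at h1
  rw [hκ b₀ hb₀, hl, h1, add_right_inj] at h2
  have h3 : js.headD 0 = js.getD 0 0 := by cases js <;> rfl
  rw [hjs.2.1 a b hb, h3, ← aspec4b_zpow, h2, aspec4b_zpow]


/-- Division of a combination whose obstruction is constant
(`comb_spec`, `ObV.mul`, `obV_top`, `Cop.mul`; note `(M a).l = E.l`). -/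
theorem divC_comb {cells : List (List α)} {lab : A → k → ℕ}
    (hc : ∀ a, Lab (M a) (φ a) cells (lab a)) {G₀ : Gens α} {Gs : List (Gens α)} {o₀ : List ℕ}
    {obs : List (List ℕ)} {c : List ℕ}
    (h₀ : ∀ a, (M a).Cop ((M a).idl (φ a) G₀) ∧
      (M a).ObV ((M a).idl (φ a) G₀) fun b => ((o₀.getD (lab a b) 0 : ℕ) : ZMod (M a).l))
    (hGs : ∀ i < Gs.length, ∀ a, (M a).Cop ((M a).idl (φ a) (Gs.getD i [])) ∧
      (M a).ObV ((M a).idl (φ a) (Gs.getD i []))
        fun b => (((obs.getD i []).getD (lab a b) 0 : ℕ) : ZMod (M a).l))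
    {κ : ZMod E.l} (hrel : ∀ Z < cells.length, ((o₀.getD Z 0 : ℕ) : ZMod E.l) +
      ∑ i ∈ range Gs.length, ((c.getD i 0 : ℕ) : ZMod E.l) *
        (((obs.getD i []).getD Z 0 : ℕ) : ZMod E.l) = κ) :
    Res M φ cells.length (E.divC cells (E.comb G₀ c Gs)) fun G' => ∀ a,
      (M a).Cop ((M a).idl (φ a) G') ∧
      (M a).Eqv (((M a).idl (φ a) G₀ * ∏ i ∈ range Gs.length,
          (M a).idl (φ a) (Gs.getD i []) ^ (c.getD i 0 % E.l)) * (M a).idl (φ a) G')
        ((M a).cj 1 ((M a).idl (φ a) G')) := by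
  have hne : ∀ a, ∀ G ∈ Gs, (M a).idl (φ a) G ≠ ⊥ := by
    intro a G hG
    obtain ⟨i, hi, rfl⟩ := List.getElem_of_mem hG
    have := (hGs i hi a).1.ne_bot
    rwa [List.getD_eq_getElem _ _ hi] at this
  have hcomb := fun a => (h.pt a).comb_spec (h₀ a).1 c (hne a)
  simp only [← fun a => (h.pt a).l_eq] at hcomb
  refine (h.divC hc (fun a => (hcomb a).1) fun a => ?_).mono fun G' hG' a =>
    ⟨(hG' a).1, ((hcomb a).2.mul (Mdl.Eqv.refl _ _)).trans (hG' a).2⟩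
  have hp := aspec4b_prod (range Gs.length) fun i hi =>
    aspec4b_pow (hGs i (Finset.mem_range.1 hi) a).1 (hGs i (Finset.mem_range.1 hi) a).2
      (c.getD i 0 % E.l)
  obtain ⟨κ', hκ'⟩ := aspec4b_cast (h.pt a).l_eq (u := fun Z => o₀.getD Z 0)
    (c := fun i => c.getD i 0) (v := fun i Z => (obs.getD i []).getD Z 0) hrel
  refine ⟨_, _, κ', (h₀ a).1.mul hp.1, (hcomb a).2, (h₀ a).2.mul hp.2, fun b hb => ?_⟩
  rw [← hκ' _ ((hc a).lt b hb), Pi.add_apply, Finset.sum_apply]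
  rfl


end Fam

end Crest.Agent.R312
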