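import Crest.Agent.R312.ASpec4b
import Crest.Agent.R312.AChain
import Crest.Agent.R312.AChainL

/-! # Row 312, part A: the division chains -/

set_option autoImplicit false
set_option linter.unusedSectionVars false

noncomputable section

open Polynomial Finset

namespace Crest.Agent.R312

variable {α : Type} {k : Type} [Field k] [Fintype k] {A : Type}
  {E : Env α} {M : A → Mdl k} {φ : A → α → k} {P : Type} [AddCommGroup P] {s : AddMonoid.End P}
  {cl : (a : A) → Ideal (M a).R → P}

/-- The invariant of the list of chain tops. -/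
structure TopsOK (E : Env α) (M : A → Mdl k) (φ : A → α → k) (s : AddMonoid.End P)
    (cl : (a : A) → Ideal (M a).R → P) (nc : ℕ) (lab : A → k → ℕ) (tops : List (Top α)) : Prop where
  len : tops.length = nc - 1
  cop : ∀ t ∈ tops, ∀ a, (M a).Cop ((M a).idl (φ a) t.1)
  soc : ∀ t ∈ tops, ∀ a, ((s - 1) ^ t.2.1) (cl a ((M a).idl (φ a) t.1)) =
    tau (M a) (cl a) fun b => ((t.2.2.getD (lab a b) 0 : ℕ) : ZMod (M a).l)
  ind : Indep E.l nc (tops.map fun t => t.2.2)

theorem aspec5_cast {l l' : ℕ} (e : l = l') {x y : ℕ} (h : (x : ZMod l') = y) :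
    (x : ZMod l) = y := by
  subst e
  exact h

theorem aspec5_unitV (i j : ℕ) : (unitV i).getD j 0 = if j = i then 1 else 0 := by
  induction i generalizing j with
  | zero => cases j <;> simp [unitV]
  | succ i ih =>
    cases j with
    | zero => simp [unitV, List.replicate_succ]
    | succ j =>
      have := ih j
      simp only [unitV] at this
      simp only [unitV, List.replicate_succ, List.cons_append, List.getD_cons_succ, this,
        Nat.add_right_cancel_iff]

theorem aspec5_le_max {l : List ℕ} {x : ℕ} (hx : x ∈ l) : x ≤ l.foldr max 0 := by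
  induction l with
  | nil => simp at hx
  | cons a l ih =>
    rw [List.foldr_cons]
    rcases List.mem_cons.1 hx with rfl | h
    · exact le_max_left _ _
    · exact (ih h).trans (le_max_right _ _)

theorem aspec5_max_mem {l : List ℕ} (hl : l ≠ []) : l.foldr max 0 ∈ l := by
  induction l with
  | nil => exact absurd rfl hl
  | cons a l ih =>
    rw [List.foldr_cons]
    rcases le_total (l.foldr max 0) a with h | h
    · rw [max_eq_left h]
      exact List.mem_cons_self
    · rw [max_eq_right h]
      by_cases h0 : l = []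
      · subst h0
        simp only [List.foldr_nil, nonpos_iff_eq_zero] at h
        simp [h]
      · exact List.mem_cons_of_mem _ (ih h0)

theorem aspec5_sum_set (l : List ℕ) {i : ℕ} (hi : i < l.length) :
    (l.set i (l.getD i 0 + 1)).sum = l.sum + 1 := by
  induction l generalizing i with
  | nil => simp at hi
  | cons a l ih =>
    cases i with
    | zero => simp; omega
    | succ i =>
      rw [List.getD_cons_succ, List.set_cons_succ, List.sum_cons, List.sum_cons,
        ih (by simpa using hi)]
      omega

theorem aspec5_getD_map {β γ : Type} (f : β → γ) (l : List β) {i : ℕ} (hi : i < l.length) (d : β)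
    (d' : γ) : (l.map f).getD i d' = f (l.getD i d) := by
  rw [List.getD_eq_getElem _ _ (by simpa using hi), List.getD_eq_getElem _ _ hi, List.getElem_map]

theorem aspec5_getD_mem {β : Type} (l : List β) {i : ℕ} (hi : i < l.length) (d : β) :
    l.getD i d ∈ l := by
  rw [List.getD_eq_getElem _ _ hi]
  exact List.getElem_mem hi

theorem aspec5_le_emax (E : Env α) (tops : List (Top α)) (c : List ℕ) {i : ℕ}
    (hi : i < tops.length) (hc : c.getD i 0 % E.l ≠ 0) :
    (tops.getD i ([], 0, [])).2.1 ≤ E.emax tops c :=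
  aspec5_le_max (List.mem_map.2 ⟨i, List.mem_filter.2 ⟨List.mem_range.2 hi, by simpa using hc⟩, rfl⟩)

theorem aspec5_imax (E : Env α) (tops : List (Top α)) (c : List ℕ)
    (hc : ∃ i < tops.length, c.getD i 0 % E.l ≠ 0) :
    E.imax tops c < tops.length ∧ c.getD (E.imax tops c) 0 % E.l ≠ 0 ∧
      (tops.getD (E.imax tops c) ([], 0, [])).2.1 = E.emax tops c := by
  obtain ⟨i, hi, hci⟩ := hc
  have h1 : E.emax tops c ∈ ((List.range tops.length).filter
      fun i => decide (c.getD i 0 % E.l ≠ 0)).map fun i => (tops.getD i ([], 0, [])).2.1 :=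
    aspec5_max_mem (List.ne_nil_of_mem (List.mem_map.2
      ⟨i, List.mem_filter.2 ⟨List.mem_range.2 hi, by simpa using hci⟩, rfl⟩))
  obtain ⟨j, hj, hje⟩ := List.mem_map.1 h1
  obtain ⟨hj1, hj2⟩ := List.mem_filter.1 hj
  unfold Env.imax
  cases hf : (List.range tops.length).find? fun i =>
      decide (c.getD i 0 % E.l ≠ 0 ∧ (tops.getD i ([], 0, [])).2.1 = E.emax tops c) with
  | none =>
    exact absurd (decide_eq_true ⟨of_decide_eq_true hj2, hje⟩) (List.find?_eq_none.1 hf j hj1)
  | some i₀ =>
    have h2 := List.find?_some hf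
    exact ⟨List.mem_range.1 (List.mem_of_find?_eq_some hf), of_decide_eq_true h2⟩

theorem Pt.pow_clB_le {E : Env α} {M : Mdl k} {φ : α → k} (h : Pt E M φ) :
    Fintype.card k ^ M.clB * Fintype.card k ^ M.clB ≤ 2 ^ E.B := by
  have h1 : Fintype.card k ^ M.clB ≤ (2 ^ Nat.size E.q) ^ M.clB :=
    Nat.pow_le_pow_left (by rw [h.card]; exact (Nat.lt_size_self _).le) _
  refine (Nat.mul_le_mul h1 h1).trans (le_of_eq ?_)
  rw [← pow_add, ← pow_mul, Env.B, Mdl.clB, h.l_eq, h.N_eq]
  congr 1
  ring

theorem Pt.B_pos {E : Env α} {M : Mdl k} {φ : α → k} (h : Pt E M φ) : 0 < E.B := by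
  have h1 : 0 < Nat.size E.q := Nat.size_pos.2 (by rw [← h.card]; exact Fintype.card_pos)
  have h2 : 0 < E.l := by rw [h.l_eq]; exact M.hl.pos
  unfold Env.B
  positivity

namespace Fam

variable (h : Fam E M φ) (hs : ∀ a, Sem (M a) s (cl a)) {cells : List (List α)} {lab : A → k → ℕ}
  (hc : ∀ a, Lab (M a) (φ a) cells (lab a))
include h hs hc

/-- The socle is not zero (`Sem.tors`, `Indep`, all cells are inhabited), so `nil_index` bounds the
height. -/
theorem height_lt {tops : List (Top α)} (ht : TopsOK E M φ s cl cells.length lab tops) :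
    ∀ t ∈ tops, t.2.1 < E.B := by
  intro t htm
  by_contra hB
  obtain ⟨a⟩ := h.ne
  obtain ⟨d, hd⟩ := Nat.exists_eq_add_of_le' (not_lt.1 hB)
  have hfin := (hs a).finite_grp
  have hq : 0 < Fintype.card k ^ (M a).clB := pow_pos Fintype.card_pos _
  have h1 : ((s - 1) ^ E.B) (cl a ((M a).idl (φ a) t.1)) = 0 := by
    refine nil_index (s - 1) (hs a).grp (hs a).grp_stable
      ((hs a).card_grp.trans ((Nat.le_mul_self _).trans (h.pt a).pow_clB_le))
      ⟨_, (ht.cop t htm a).ne_bot, rfl⟩ (j := t.2.1 + 1) ?_
    rw [pow_succ', AddMonoid.End.coe_mul, Function.comp_apply, ht.soc t htm a]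
    exact (hs a).lam_tau _
  have h2 := ht.soc t htm a
  rw [hd, pow_add, AddMonoid.End.coe_mul, Function.comp_apply, h1, map_zero] at h2
  have h3 := (hs a).tors _ h2.symm
  obtain ⟨b₀, hb₀⟩ := (M a).T_nonempty
  obtain ⟨i, hi, rfl⟩ := List.getElem_of_mem htm
  have hl : E.l.Prime := by rw [(h.pt a).l_eq]; exact (M a).hl
  have : Fact E.l.Prime := ⟨hl⟩
  have h4 := ht.ind (fun j => if j = i then 1 else 0) ((tops[i].2.2.getD (lab a b₀) 0 : ℕ))
    (fun Z hZ => ?_) i (by simpa using hi)
  · simp at h4
  · obtain ⟨b, hb, rfl⟩ := (hc a).surj Z hZ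
    rw [Finset.sum_eq_single i (fun j _ hj => by simp [hj]) (fun hj => by simp [hi] at hj),
      aspec5_getD_map _ _ hi ([], 0, []), List.getD_eq_getElem _ _ hi]
    simp only [if_true, one_mul]
    exact aspec5_cast (h.pt a).l_eq (h3 b hb b₀ hb₀)

theorem initT : TopsOK E M φ s cl cells.length lab (E.initT cells) := by
  classical
  have key : ∀ i < cells.length - 1, ∀ a, (M a).idl (φ a) (E.tors (cells.getD (i + 1) [])) =
      ∏ b ∈ (M a).T.filter (fun b => lab a b = i + 1), (M a).P b := by
    intro i hi a
    refine (h.pt a).idl_tors (Finset.filter_subset _ _) fun b hb => ?_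
    rw [(hc a).eval (i + 1) (by omega) b hb, Finset.mem_filter]
    by_cases e : lab a b = i + 1 <;> simp [e, hb]
  have hne : ∀ i < cells.length - 1, ∀ a,
      (M a).idl (φ a) (E.tors (cells.getD (i + 1) [])) ≠ ⊥ := by
    intro i hi a
    rw [key i hi a]
    exact Finset.prod_ne_zero_iff.2 fun b _ => (M a).P_ne_bot b
  refine ⟨by simp [Env.initT], fun t ht a => ?_, fun t ht a => ?_, ?_⟩
  · obtain ⟨i, hi, rfl⟩ := List.mem_map.1 ht
    exact ((h.pt a).nrm_spec (hne i (List.mem_range.1 hi) a)).1
  · obtain ⟨i, hi, rfl⟩ := List.mem_map.1 ht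
    have hi' := List.mem_range.1 hi
    simp only [pow_zero, AddMonoid.End.coe_one, id]
    rw [← (hs a).eqv _ _ (hne i hi' a) ((h.pt a).nrm_spec (hne i hi' a)).2, key i hi' a,
      (hs a).cl_prod_P (Finset.filter_subset _ _)]
    refine Sem.tau_congr fun b hb => ?_
    rw [aspec5_unitV]
    by_cases e : lab a b = i + 1 <;> simp [e, hb]
  · have := indep_unit E.l cells.length
    rwa [Env.initT, List.map_map]

/-- One step either leaves the tops unchanged, and then there is no relation, or increases the sum
of the heights by one (`rel_some`, `divC_comb` with `G₀ = [rone]`, `o₀ = []`, `Sem.div`,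
`Indep.set`; the tops of smaller height are killed by `λ^emax`). -/
theorem stepT {tops : List (Top α)} (ht : TopsOK E M φ s cl cells.length lab tops) :
    Res M φ cells.length (E.stepT cells tops) fun tops' =>
      TopsOK E M φ s cl cells.length lab tops' ∧
      ((tops' = tops ∧ ∀ obs, mapS (E.readOb cells) (tops.map Prod.fst) = Sum.inr obs →
          rel E.l cells.length obs = none) ∨
        ((∃ obs, mapS (E.readOb cells) (tops.map Prod.fst) = Sum.inr obs ∧
            rel E.l cells.length obs ≠ none) ∧
          (tops'.map fun t => t.2.1).sum = (tops.map fun t => t.2.1).sum + 1)) := by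
  obtain ⟨a₀⟩ := h.ne
  have hl : E.l.Prime := by rw [(h.pt a₀).l_eq]; exact (M a₀).hl
  unfold Env.stepT
  refine Res.bind (Res.mapS (Q := fun G js => ∀ a, (M a).ObV ((M a).idl (φ a) G)
    fun b => ((js.getD (lab a b) 0 : ℕ) : ZMod (M a).l)) fun G hG => ?_) fun obs hobs hF => ?_
  · obtain ⟨t, htm, rfl⟩ := List.mem_map.1 hG
    exact (h.readOb hc (ht.cop t htm)).mono fun js hjs => hjs.2.2
  cases hrel : rel E.l cells.length obs with
  | none =>
    refine Res.inr ⟨ht, Or.inl ⟨rfl, fun obs' h' => ?_⟩⟩
    rw [hobs] at h'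
    rw [← Sum.inr.inj h', hrel]
  | some c =>
    obtain ⟨hex, κ, hκ⟩ := rel_some hl hrel
    have hlen : obs.length = tops.length := by rw [← hF.length_eq, List.length_map]
    rw [hlen] at hex hκ
    obtain ⟨hi₀, hc₀, he₀⟩ := aspec5_imax E tops c hex
    have hcop : ∀ i < tops.length, ∀ a,
        (M a).Cop ((M a).idl (φ a) ((tops.map Prod.fst).getD i [])) := by
      intro i hi a
      rw [aspec5_getD_map _ _ hi ([], 0, [])]
      exact ht.cop _ (aspec5_getD_mem _ hi _) a
    refine Res.bind (h.divC_comb hc (G₀ := [E.rone]) (Gs := tops.map Prod.fst) (o₀ := [])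
      (obs := obs) (c := c) (fun a => ?_) (fun i hi a => ?_) (κ := κ) fun Z hZ => ?_)
      fun G' _ hG' => Res.inr ⟨⟨?_, fun t htm a => ?_, fun t htm a => ?_, ?_⟩,
        Or.inr ⟨⟨obs, hobs, by rw [hrel]; exact Option.some_ne_none c⟩, ?_⟩⟩
    · rw [(h.pt a).idl_one]
      refine ⟨(M a).cop_top, ?_⟩
      have := (M a).obV_top
      convert this using 1
      funext b
      simp
    · have hi' : i < tops.length := by simpa using hi
      refine ⟨hcop i hi' a, ?_⟩
      have := (List.forall₂_iff_get.1 hF).2 i hi (by omega) a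
      rw [List.getD_eq_getElem _ _ hi, List.getD_eq_getElem obs _ (by omega)]
      exact this
    · rw [List.length_map, hκ Z hZ]
      simp
    · rw [List.length_set, ht.len]
    · rcases List.mem_or_eq_of_mem_set htm with htm | rfl
      · exact ht.cop t htm a
      · exact (hG' a).1
    · rcases List.mem_or_eq_of_mem_set htm with htm | rfl
      · exact ht.soc t htm a
      have hne : ∀ i ∈ range (tops.map Prod.fst).length,
          (M a).idl (φ a) ((tops.map Prod.fst).getD i []) ^ (c.getD i 0 % E.l) ≠ ⊥ :=
        fun i hi => pow_ne_zero _ (hcop i (by simpa using hi) a).ne_bot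
      have h1 := (hG' a).2
      rw [(h.pt a).idl_one, Ideal.top_mul] at h1
      have h2 := (hs a).div (Finset.prod_ne_zero_iff.2 hne) (hG' a).1.ne_bot h1
      rw [(hs a).prod _ hne, List.length_map] at h2
      simp only
      rw [pow_succ, AddMonoid.End.coe_mul, Function.comp_apply, h2, map_sum]
      have h3 : ∀ i ∈ range tops.length, ((s - 1) ^ E.emax tops c)
          (cl a ((M a).idl (φ a) ((tops.map Prod.fst).getD i []) ^ (c.getD i 0 % E.l))) =
          ((if (tops.getD i ([], 0, [])).2.1 = E.emax tops c then c.getD i 0 else 0) % E.l) •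
            tau (M a) (cl a) fun b =>
              (((tops.getD i ([], 0, [])).2.2.getD (lab a b) 0 : ℕ) : ZMod (M a).l) := by
        intro i hi
        have hi' := mem_range.1 hi
        have h4 := ht.soc _ (aspec5_getD_mem _ hi' ([], 0, [])) a
        rw [(hs a).pow (hcop i hi' a).ne_bot, map_nsmul, aspec5_getD_map _ _ hi' ([], 0, [])]
        split_ifs with e
        · rw [← e, h4]
        · rw [Nat.zero_mod, zero_smul]
          by_cases hci : c.getD i 0 % E.l = 0
          · rw [hci, zero_smul]
          · obtain ⟨d, hd⟩ := Nat.exists_eq_add_of_lt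
              (lt_of_le_of_ne (aspec5_le_emax E tops c hi' hci) e)
            rw [hd, show (tops.getD i ([], 0, [])).2.1 + d + 1 =
              d + (1 + (tops.getD i ([], 0, [])).2.1) by ring, pow_add, pow_add, pow_one,
              AddMonoid.End.coe_mul, Function.comp_apply, AddMonoid.End.coe_mul,
              Function.comp_apply, h4, (hs a).lam_tau, map_zero, smul_zero]
      rw [Finset.sum_congr rfl h3, ← (hs a).tau_sum]
      refine Sem.tau_congr fun b hb => ?_
      rw [Env.newW, (h.pt a).l_eq, lin_getD _ _ ((hc a).lt b hb), List.length_map]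
      refine Finset.sum_congr rfl fun i hi => ?_
      have hi' := mem_range.1 hi
      rw [ZMod.natCast_mod, aspec5_getD_map _ tops hi' ([], 0, []),
        aspec5_getD_map _ (List.range tops.length) (by simpa using hi') 0,
        List.getD_eq_getElem (List.range tops.length) _ (by simpa using hi'), List.getElem_range]
    · rw [List.map_set]
      refine ht.ind.set hl (by simpa using hi₀) ?_
      rw [aspec5_getD_map _ (List.range tops.length) (by simpa using hi₀) 0,
        List.getD_eq_getElem (List.range tops.length) _ (by simpa using hi₀), List.getElem_range,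
        if_pos he₀]
      exact hc₀
    · rw [List.map_set, ← aspec5_sum_set _ (i := E.imax tops c) (by simpa using hi₀),
        aspec5_getD_map _ _ hi₀ ([], 0, []), he₀]

/-- Invariant after `i` steps: no relation, or sum of the heights `≥ i`. -/
theorem chains : Res M φ cells.length (iterS (E.stepT cells) (cells.length * E.B) (E.initT cells))
    fun tops => TopsOK E M φ s cl cells.length lab tops ∧
      ∀ obs, mapS (E.readOb cells) (tops.map Prod.fst) = Sum.inr obs →
        rel E.l cells.length obs = none := by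
  obtain ⟨a₀⟩ := h.ne
  refine (Res.iterS (Q := fun i tops => TopsOK E M φ s cl cells.length lab tops ∧
    ((∀ obs, mapS (E.readOb cells) (tops.map Prod.fst) = Sum.inr obs →
      rel E.l cells.length obs = none) ∨ i ≤ (tops.map fun t => t.2.1).sum))
    ⟨h.initT hs hc, Or.inr (Nat.zero_le _)⟩ _ fun i _ y hy => ?_).mono fun tops ht => ⟨ht.1, ?_⟩
  · refine (h.stepT hs hc hy.1).mono fun y' hy' => ⟨hy'.1, ?_⟩
    rcases hy'.2 with ⟨rfl, h1⟩ | ⟨⟨obs, h1, h2⟩, h3⟩
    · exact Or.inl h1
    · rcases hy.2 with h4 | h4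
      · exact absurd (h4 obs h1) h2
      · exact Or.inr (by omega)
  · refine ht.2.resolve_right (not_le.2 ?_)
    have h1 : (tops.map fun t => t.2.1).sum ≤ (tops.map fun t => t.2.1).length • E.B := by
      refine List.sum_le_card_nsmul _ _ fun x hx => ?_
      obtain ⟨t, htm, rfl⟩ := List.mem_map.1 hx
      exact (h.height_lt hs hc ht.1 t htm).le
    rw [List.length_map, ht.1.len, smul_eq_mul] at h1
    exact lt_of_le_of_lt h1 (Nat.mul_lt_mul_of_pos_right
      (Nat.sub_lt (hc a₀).length_pos one_pos) (h.pt a₀).B_pos)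

end Fam

end Crest.Agent.R312
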