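import Crest.Agent.R312.ASpec5

/-! # Row 312, part A: the division of the point `Q` -/

set_option autoImplicit false
set_option linter.unusedSectionVars false

noncomputable section

open Polynomial Finset

namespace Crest.Agent.R312

variable {α : Type} {k : Type} [Field k] [Fintype k] {A : Type}
  {E : Env α} {M : A → Mdl k} {φ : A → α → k} {P : Type} [AddCommGroup P] {s : AddMonoid.End P}
  {cl : (a : A) → Ideal (M a).R → P}

theorem aspec5b_sum_range {β : Type} [AddCommMonoid β] (f : ℕ → β) (n : ℕ) :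
    ((List.range n).map f).sum = ∑ i ∈ range n, f i := by
  induction n with
  | zero => simp
  | succ n ih => rw [List.range_succ, List.map_append, List.sum_append, ih, sum_range_succ]; simp

theorem aspec5b_foldr (l : List ℕ) (a : ℕ) : a ≤ l.foldr max a ∧ (∀ x ∈ l, x ≤ l.foldr max a) ∧
    (l.foldr max a = a ∨ l.foldr max a ∈ l) := by
  induction l with
  | nil => simp
  | cons y l ih =>
    obtain ⟨h1, h2, h3⟩ := ih
    rw [List.foldr_cons]
    refine ⟨h1.trans (le_max_right _ _), fun x hx => ?_, ?_⟩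
    · rcases List.mem_cons.1 hx with rfl | hx
      · exact le_max_left _ _
      · exact (h2 x hx).trans (le_max_right _ _)
    · rcases max_cases y (l.foldr max a) with h | h
      · rw [h.1]; exact Or.inr List.mem_cons_self
      · rw [h.1]; exact h3.imp id (List.mem_cons_of_mem _)

theorem aspec5b_forall₂ {β γ : Type} {R : β → γ → Prop} {l₁ : List β} {l₂ : List γ}
    (h : List.Forall₂ R l₁ l₂) (d₁ : β) (d₂ : γ) {i : ℕ} (hi : i < l₁.length) :
    R (l₁.getD i d₁) (l₂.getD i d₂) := by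
  induction h generalizing i with
  | nil => simp at hi
  | cons h _ ih =>
    cases i with
    | zero => simpa using h
    | succ i => simpa using ih (by simpa using hi)

theorem aspec5b_getD_mem {β : Type} {l : List β} (d : β) {i : ℕ} (hi : i < l.length) :
    l.getD i d ∈ l := by
  rw [List.getD_eq_getElem _ _ hi]
  exact List.getElem_mem hi

theorem aspec5b_coefS (es : List ℕ) (tbl : List (List ℕ)) (m : ℕ) {i : ℕ} (hi : i < es.length) :
    (Env.coefS es tbl m).getD i 0 =
      if m ≤ es.getD i 0 + 1 then (tbl.getD (es.getD i 0 + 1 - m) []).getD i 0 else 0 := by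
  unfold Env.coefS
  rw [List.getD_eq_getElem _ _ (by simpa using hi)]
  simp

theorem aspec5b_mOrd (E : Env α) (es : List ℕ) (tbl : List (List ℕ)) :
    1 ≤ E.mOrd es tbl ∧
    (∀ m ≤ E.B, E.mOrd es tbl < m → ∀ i < es.length, (Env.coefS es tbl m).getD i 0 % E.l = 0) ∧
    (2 ≤ E.mOrd es tbl →
      ∃ i < es.length, (Env.coefS es tbl (E.mOrd es tbl)).getD i 0 % E.l ≠ 0) := by
  have hlen : ∀ m, (Env.coefS es tbl m).length = es.length := fun m => by simp [Env.coefS]
  obtain ⟨h1, h2, h3⟩ := aspec5b_foldr ((List.range (E.B + 1)).filter fun s =>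
    decide (2 ≤ s) && (Env.coefS es tbl s).any fun x => decide (x % E.l ≠ 0)) 1
  change 1 ≤ E.mOrd es tbl at h1
  change ∀ x ∈ _, x ≤ E.mOrd es tbl at h2
  change E.mOrd es tbl = 1 ∨ E.mOrd es tbl ∈ _ at h3
  refine ⟨h1, fun m hm hlt i hi => ?_, fun hm => ?_⟩
  · by_contra hne
    refine absurd (h2 m ?_) (not_le.2 hlt)
    rw [List.mem_filter, List.mem_range, Bool.and_eq_true, List.any_eq_true]
    exact ⟨by omega, decide_eq_true (by omega), _,
      aspec5b_getD_mem 0 (by rw [hlen]; exact hi), decide_eq_true hne⟩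
  · rcases h3 with h3 | h3
    · omega
    rw [List.mem_filter, Bool.and_eq_true, List.any_eq_true] at h3
    obtain ⟨x, hx, hx'⟩ := h3.2.2
    obtain ⟨i, hi, rfl⟩ := List.getElem_of_mem hx
    refine ⟨i, hlen _ ▸ hi, ?_⟩
    rw [List.getD_eq_getElem _ _ hi]
    exact of_decide_eq_true hx'

namespace Fam

variable (h : Fam E M φ) (hs : ∀ a, Sem (M a) s (cl a)) {cells : List (List α)} {lab : A → k → ℕ}
  (hc : ∀ a, Lab (M a) (φ a) cells (lab a))
include h hs hc

/-- Repeated division of the point `Q` (`relQ_spec`, `divC_comb`, `Sem.div`). -/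
theorem qphase {Gs : List (Gens α)} {obs : List (List ℕ)} (hlen : Gs.length = cells.length - 1)
    (hlen' : obs.length = Gs.length) (hind : Indep E.l cells.length obs)
    (hGs : ∀ i < Gs.length, ∀ a, (M a).Cop ((M a).idl (φ a) (Gs.getD i [])) ∧
      (M a).ObV ((M a).idl (φ a) (Gs.getD i []))
        fun b => (((obs.getD i []).getD (lab a b) 0 : ℕ) : ZMod (M a).l)) (n : ℕ) :
    Res M φ cells.length (iterS (E.stepQ cells Gs obs) n (E.QG, [])) fun st =>
      st.2.length = n ∧ ∀ a, (M a).Cop ((M a).idl (φ a) st.1) ∧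
        cl a (M a).Q + ∑ j ∈ range n, ((s - 1) ^ j) (∑ i ∈ range Gs.length,
          ((st.2.getD j []).getD i 0 % E.l) • cl a ((M a).idl (φ a) (Gs.getD i []))) =
        ((s - 1) ^ n) (cl a ((M a).idl (φ a) st.1)) := by
  obtain ⟨a₀⟩ := h.ne
  have hl : E.l.Prime := (h.pt a₀).l_eq ▸ (M a₀).hl
  refine Res.iterS (Q := fun n (st : Gens α × List (List ℕ)) => st.2.length = n ∧
    ∀ a, (M a).Cop ((M a).idl (φ a) st.1) ∧
    cl a (M a).Q + ∑ j ∈ range n, ((s - 1) ^ j) (∑ i ∈ range Gs.length,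
      ((st.2.getD j []).getD i 0 % E.l) • cl a ((M a).idl (φ a) (Gs.getD i []))) =
    ((s - 1) ^ n) (cl a ((M a).idl (φ a) st.1))) ⟨rfl, fun a => ?_⟩ n fun m _ st hst => ?_
  · rw [(h.pt a).idl_QG]
    exact ⟨(M a).cop_Q, by simp⟩
  obtain ⟨hm, hst⟩ := hst
  refine Res.bind (h.readOb hc fun a => (hst a).1) fun oq _ hoq => ?_
  obtain ⟨κ, hκ⟩ := relQ_spec E hl (hc a₀).length_pos oq (hlen'.trans hlen) hind
  rw [hlen'] at hκ
  refine Res.bind (h.divC_comb hc (fun a => ⟨(hst a).1, hoq.2.2 a⟩) hGs hκ) fun G' _ hG' => ?_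
  refine Res.inr ⟨by simp [hm], fun a => ⟨(hG' a).1, ?_⟩⟩
  have hne : ∀ i ∈ range Gs.length, (M a).idl (φ a) (Gs.getD i []) ≠ ⊥ := fun i hi =>
    (hGs i (mem_range.1 hi) a).1.ne_bot
  have hne' : ∀ i ∈ range Gs.length, (M a).idl (φ a) (Gs.getD i []) ^
      ((E.relQ cells.length oq obs).getD i 0 % E.l) ≠ ⊥ := fun i hi => pow_ne_zero _ (hne i hi)
  have h1 := (hs a).div (mul_ne_zero (hst a).1.ne_bot (prod_ne_zero_iff.2 hne'))
    (hG' a).1.ne_bot (hG' a).2
  rw [(hs a).mul _ _ (hst a).1.ne_bot (prod_ne_zero_iff.2 hne'), (hs a).prod _ hne',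
    sum_congr rfl fun i hi => (hs a).pow (hne i hi) _] at h1
  have h2 : ((s - 1) ^ (m + 1)) (cl a ((M a).idl (φ a) G')) =
      ((s - 1) ^ m) ((s - 1) (cl a ((M a).idl (φ a) G'))) := by rw [pow_succ]; rfl
  dsimp only
  rw [h2, h1, map_add, ← (hst a).2, sum_range_succ, add_assoc]
  congr 2
  · refine sum_congr rfl fun j hj => ?_
    rw [List.getD_append _ _ _ _ (hm ▸ mem_range.1 hj)]
  · rw [List.getD_append_right _ _ _ _ hm.le, hm, Nat.sub_self, List.getD_cons_zero]

omit hs in
/-- The values of `omega0`; the sizes of the cells are read off from `natDegree_psi_tors`. -/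
theorem omega0_eval (hg : ∀ x ∈ cells.flatMap fun ε => E.psi (E.tors ε), ∀ a,
      (E.isZ x = true ↔ φ a x = 0)) (wv : List ℕ) (m : ℕ) (a : A) {b : k} (hb : b ∈ (M a).T) :
    (toP (φ a) (E.omega0 cells wv m)).eval b =
      (M a).z ^ (((wv.getD (lab a b) 0 : ℕ) : ZMod (M a).l) +
        ∑ b' ∈ (M a).T, ((wv.getD (lab a b') 0 : ℕ) : ZMod (M a).l) +
        if m = 1 then 1 else 0).val := by
  classical
  have hp := h.pt a
  have h2 := hp.hom2 hb
  have hdeg : ∀ Z ∈ range cells.length, E.degB (E.psi (E.tors (cells.getD Z []))) =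
      ((M a).T.filter fun b' => lab a b' = Z).card := by
    intro Z hZ
    rw [mem_range] at hZ
    rw [degB_eq hp.hom fun x hx => hg x (List.mem_flatMap.2 ⟨_, aspec5b_getD_mem [] hZ, hx⟩) a]
    refine hp.natDegree_psi_tors (filter_subset _ _) fun b' hb' => ?_
    rw [(hc a).eval Z hZ b' hb', mem_filter]
    by_cases e : lab a b' = Z <;> simp [e, hb']
  have hsum : ((List.range cells.length).map fun Z' =>
      wv.getD Z' 0 * E.degB (E.psi (E.tors (cells.getD Z' [])))).sum =
      ∑ b' ∈ (M a).T, wv.getD (lab a b') 0 := by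
    rw [aspec5b_sum_range, ← sum_fiberwise_of_maps_to (g := lab a) (t := range cells.length)
      fun b' hb' => mem_range.2 ((hc a).lt b' hb')]
    refine sum_congr rfl fun Z hZ => ?_
    rw [hdeg Z hZ, sum_congr rfl fun b' hb' => by rw [(mem_filter.1 hb').2], sum_const,
      smul_eq_mul, mul_comm]
  unfold Env.omega0
  rw [hsum]
  refine (h2.sum _).trans ?_
  rw [List.map_map, aspec5b_sum_range,
    sum_eq_single_of_mem (lab a b) (mem_range.2 ((hc a).lt b hb))]
  · rw [Function.comp_apply, h2.mul, (hc a).eval _ ((hc a).lt b hb) b hb, if_pos rfl, mul_one,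
      toP_singleton, eval_C, hp.hom.pow, hp.ζ_eq, pow_eq_pow_mod _ (M a).hz.pow_eq_one,
      ← ZMod.val_natCast]
    congr 2
    push_cast
    rfl
  · intro Z hZ hne
    rw [Function.comp_apply, h2.mul, (hc a).eval _ (mem_range.1 hZ) b hb, if_neg (Ne.symm hne),
      mul_zero]

/-- `chains`, `qphase` with `n = B`, `socle_eq`, `socle_kill` (coefficients `tbl j i % l`),
definition of `mOrd`: all coefficients of order `> m` vanish modulo `l`, and if `m ≥ 2` some
coefficient of order `m` does not, so the socle is not constant by `Indep`. -/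
theorem core : Res M φ cells.length (E.core cells) fun r => 1 ≤ r.1 ∧ ∀ a,
    ∃ (Ξ : P) (J : Ideal (M a).R) (w : k → ZMod (M a).l), J ≠ ⊥ ∧
      cl a (M a).Q + Ξ = ((s - 1) ^ E.B) (cl a J) ∧ ((s - 1) ^ E.B) Ξ = 0 ∧
      ((s - 1) ^ (r.1 - 1)) Ξ = tau (M a) (cl a) w ∧
      (2 ≤ r.1 → ∃ b ∈ (M a).T, ∃ b' ∈ (M a).T, w b ≠ w b') ∧
      ∀ b ∈ (M a).T, (toP (φ a) r.2).eval b =
        (M a).z ^ (w b + ∑ b' ∈ (M a).T, w b' + if r.1 = 1 then 1 else 0).val := by
  obtain ⟨a₀⟩ := h.ne
  have hl : E.l.Prime := (h.pt a₀).l_eq ▸ (M a₀).hl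
  unfold Env.core
  refine Res.bind (h.chains hs hc) fun tops _ ht => ?_
  obtain ⟨ht, hrel⟩ := ht
  refine Res.bind (Res.mapS fun G hG => h.readOb hc (G := G) fun a => ?_) fun obs hobs hF => ?_
  · obtain ⟨t, htm, rfl⟩ := List.mem_map.1 hG
    exact ht.cop t htm a
  have hlen : (tops.map Prod.fst).length = tops.length := List.length_map _
  have hG : ∀ i, (tops.map Prod.fst).getD i [] = (tops.getD i ([], 0, [])).1 := fun i =>
    List.getD_map tops ([], 0, []) Prod.fst
  have he : ∀ i, (tops.map fun t => t.2.1).getD i 0 = (tops.getD i ([], 0, [])).2.1 := fun i =>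
    List.getD_map tops ([], 0, []) fun t => t.2.1
  have hw : ∀ i, (tops.map fun t => t.2.2).getD i [] = (tops.getD i ([], 0, [])).2.2 := fun i =>
    List.getD_map tops ([], 0, []) fun t => t.2.2
  refine Res.bind (h.qphase hs hc (hlen.trans ht.len) hF.length_eq.symm
    (rel_none hl (hrel obs hobs)) (fun i hi a => ⟨?_, (aspec5b_forall₂ hF [] [] hi).2.2 a⟩) E.B)
    fun st _ hst => ?_
  · rw [hG]
    exact ht.cop _ (aspec5b_getD_mem _ (hlen ▸ hi)) a
  refine h.guard fun hg => ?_
  apply Res.inr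
  obtain ⟨m1, m2, m3⟩ := aspec5b_mOrd E (tops.map fun t => t.2.1) st.2
  rw [List.length_map] at m2 m3
  unfold Env.fin0
  dsimp only
  set m := E.mOrd (tops.map fun t => t.2.1) st.2 with hm
  set c := Env.coefS (tops.map fun t => t.2.1) st.2 m with hcdef
  refine ⟨m1, fun a => ?_⟩
  have hx : ∀ i < tops.length, ((s - 1) ^ (tops.getD i ([], 0, [])).2.1)
      (cl a ((M a).idl (φ a) ((tops.map Prod.fst).getD i []))) = tau (M a) (cl a) fun b =>
        (((tops.getD i ([], 0, [])).2.2.getD (lab a b) 0 : ℕ) : ZMod (M a).l) := fun i hi => by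
    rw [hG]
    exact ht.soc _ (aspec5b_getD_mem _ hi) a
  have hB : ∀ i < tops.length, (tops.getD i ([], 0, [])).2.1 < E.B := fun i hi =>
    h.height_lt hs hc ht _ (aspec5b_getD_mem _ hi)
  have hlin : ∀ Z < cells.length,
      (((lin E.l cells.length c (tops.map fun t => t.2.2)).getD Z 0 : ℕ) : ZMod (M a).l) =
        ∑ i ∈ range tops.length, ((c.getD i 0 : ℕ) : ZMod (M a).l) *
          (((tops.getD i ([], 0, [])).2.2.getD Z 0 : ℕ) : ZMod (M a).l) := by
    intro Z hZ
    rw [show lin E.l = lin (M a).l by rw [(h.pt a).l_eq], lin_getD _ _ hZ, List.length_map]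
    simp only [hw]
  refine ⟨_, _, fun b => (((lin E.l cells.length c (tops.map fun t => t.2.2)).getD (lab a b) 0 : ℕ) :
    ZMod (M a).l), (hst.2 a).1.ne_bot, (hst.2 a).2, ?_, ?_, fun hm2 => ?_, fun b hb => ?_⟩
  · rw [hlen]
    exact socle_kill (s - 1) _ _ _ (fun j i => (st.2.getD j []).getD i 0 % E.l) hx
      (fun i _ => (hs a).lam_tau _) hB
  · rw [hlen, socle_eq (s - 1) m1 _ _ _ (fun j i => (st.2.getD j []).getD i 0 % E.l) hx
      (fun i _ => (hs a).lam_tau _) hB fun i hi j _ hj => ?_, ← (hs a).tau_sum]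
    · refine Sem.tau_congr fun b hb => ?_
      rw [hlin _ ((hc a).lt b hb)]
      refine sum_congr rfl fun i hi => ?_
      rw [hcdef, aspec5b_coefS _ _ _ (by simpa using hi), he]
      congr 1
      split_ifs
      · rw [(h.pt a).l_eq, ZMod.natCast_mod]
      · rfl
    · have h1 := m2 ((tops.getD i ([], 0, [])).2.1 + 1 - j) (by have := hB i hi; omega)
        (by omega) i hi
      rw [aspec5b_coefS _ _ _ (by simpa using hi), he, if_pos (Nat.sub_le _ _),
        Nat.sub_sub_self (by omega)] at h1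
      exact h1
  · obtain ⟨i, hi, hne⟩ := m3 hm2
    by_contra hcon
    obtain ⟨b₀, hb₀⟩ := (M a).T_nonempty
    have hind : Indep (M a).l cells.length (tops.map fun t => t.2.2) := (h.pt a).l_eq ▸ ht.ind
    have h1 := hind (fun i => ((c.getD i 0 : ℕ) : ZMod (M a).l))
      (((lin E.l cells.length c (tops.map fun t => t.2.2)).getD (lab a b₀) 0 : ℕ) : ZMod (M a).l)
      (fun Z hZ => ?_) i (by simpa using hi)
    · rw [ZMod.natCast_eq_zero_iff, ← (h.pt a).l_eq] at h1
      exact hne (Nat.mod_eq_zero_of_dvd h1)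
    · obtain ⟨b, hb, rfl⟩ := (hc a).surj Z hZ
      simp only [List.length_map, hw]
      rw [← hlin _ hZ]
      by_contra hne'
      exact hcon ⟨b, hb, b₀, hb₀, hne'⟩
  · have h1 := omega0_eval h hc hg (lin E.l cells.length c (tops.map fun t => t.2.2)) m a hb
    beta_reduce
    convert h1

end Fam

end Crest.Agent.R312
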