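import Crest.Agent.R312.ASpec5b

/-! # Row 312, part A: canonicity and the final zero divisor -/

set_option autoImplicit false
set_option linter.unusedSectionVars false

noncomputable section

open Polynomial Finset

namespace Crest.Agent.R312

variable {α : Type} {k : Type} [Field k] [Fintype k]

theorem aspec6_card {P : Type} [AddCommGroup P] (H H' : AddSubgroup P) [Finite H] [Finite H'] :
    Finite ↥(H ⊔ H') ∧ Nat.card ↥(H ⊔ H') ≤ Nat.card H * Nat.card H' := by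
  let f : H × H' → ↥(H ⊔ H') := fun x =>
    ⟨x.1 + x.2, add_mem (AddSubgroup.mem_sup_left x.1.2) (AddSubgroup.mem_sup_right x.2.2)⟩
  have hf : Function.Surjective f := by
    rintro ⟨x, hx⟩
    obtain ⟨y, hy, z, hz, rfl⟩ := AddSubgroup.mem_sup.1 hx
    exact ⟨(⟨y, hy⟩, ⟨z, hz⟩), rfl⟩
  exact ⟨Finite.of_surjective f hf, (Nat.card_le_card_of_surjective f hf).trans_eq (Nat.card_prod _ _)⟩

open Classical in
/-- the extension of `w` to `S` -/
def aspec6_v (G : Glb k) (a : k) (w : k → ZMod G.l) (e : ZMod G.l) : k → ZMod G.l :=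
  fun b => if b = a then -(∑ b' ∈ G.S.erase a, w (b' - a)⁻¹ + e) else w (b - a)⁻¹

open Classical in
theorem aspec6_sum (G : Glb k) {a : k} (ha : a ∈ G.S) {β : Type} [AddCommMonoid β] (f : k → β) :
    ∑ c ∈ (G.mdl a ha).T, f c = ∑ b ∈ G.S.erase a, f (b - a)⁻¹ :=
  sum_image fun _ _ _ _ h => sub_left_injective (inv_injective h)

open Classical in
theorem aspec6_tau (G : Glb k) {P : Type} [AddCommGroup P] (τ : (k → ZMod G.l) →+ P)
    (hτ : ∀ w w', (∀ b ∈ G.S, w b = w' b) → τ w = τ w') {a : k} (ha : a ∈ G.S)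
    (cl : Ideal (G.mdl a ha).R → P) (hP : ∀ b ∈ G.S, b ≠ a → cl ((G.mdl a ha).P (b - a)⁻¹) =
      τ (Pi.single b 1) - τ (Pi.single a 1)) (w : k → ZMod G.l) (e : ZMod G.l) :
    tau (G.mdl a ha) cl w - τ (Pi.single a e) = τ (aspec6_v G a w e) := by
  have := G.app_neZero
  have h1 : tau (G.mdl a ha) cl w =
      τ (∑ b ∈ G.S.erase a, (w (b - a)⁻¹).val • (Pi.single b 1 - Pi.single a 1)) := by
    rw [tau, aspec6_sum, map_sum]
    refine sum_congr rfl fun b hb => ?_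
    rw [hP b (mem_of_mem_erase hb) (ne_of_mem_erase hb), map_nsmul, map_sub]
    rfl
  rw [h1, ← map_sub]
  refine hτ _ _ fun b hb => ?_
  simp only [Pi.sub_apply, Finset.sum_apply, Pi.smul_apply, aspec6_v]
  simp only [nsmul_eq_mul, ZMod.natCast_zmod_val]
  split_ifs with hba
  · subst hba
    simp only [Pi.single_eq_same]
    rw [neg_add, ← sum_neg_distrib, sub_eq_add_neg]
    congr 1
    refine sum_congr rfl fun b' hb' => ?_
    rw [Pi.single_eq_of_ne (ne_of_mem_erase hb').symm]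
    ring
  · simp only [Pi.single_eq_of_ne hba, sub_zero]
    rw [sum_eq_single b]
    · rw [Pi.single_eq_same, mul_one]
    · intro b' _ hb'
      rw [Pi.single_eq_of_ne hb'.symm, mul_zero]
    · intro hb'
      exact absurd (mem_erase.2 ⟨hba, hb⟩) hb'

theorem aspec6_total (G : Glb k) {a : k} (ha : a ∈ G.S) (w : k → ZMod G.l) (e : ZMod G.l) :
    ∑ b ∈ G.S, aspec6_v G a w e b = -e := by
  classical
  rw [← add_sum_erase _ _ ha, sum_congr rfl (f := aspec6_v G a w e) 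
    (g := fun b => w (b - a)⁻¹) fun b hb => if_neg (ne_of_mem_erase hb), aspec6_v, if_pos rfl]
  ring

/-- The interpretations at the roots `a ∈ S`. -/
structure GFam (E : Env α) (G : Glb k) (φ : G.S → α → k) : Prop where
  fam : Fam E (fun a : G.S => G.mdl a.1 a.2) φ
  a_eq : ∀ a, φ a E.a = a.1
  fx_eq : ∀ a, monicP (φ a) E.fx = ∏ b ∈ G.S, (X - C b)
  η_eq : ∀ a a', φ a E.η = φ a' E.η

namespace GFam

variable {E : Env α} {G : Glb k} {φ : G.S → α → k} (h : GFam E G φ)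
include h

/-- **Canonicity.**  With `exists_PP`: `tau (mdl a) (cl a) w = τ ŵ`, `ŵ b = w (b-a)⁻¹` for `b ≠ a`,
`ŵ a = -∑ w`.  Put `Ξ' a = Ξ a - τ 1_a`, so `Qt + Ξ' a = λ^B (cl a J_a)` and `λ^B (Ξ' a) = 0`.  Then
`Ξ' a - Ξ' a' = λ^B y` with `y` in the finite `λ`-stable subgroup `grp a ⊔ grp a'` of cardinality
`≤ 2^B` (`card_grp`, `pow_clB_le`; it is the image of the product), and `λ^(2B) y = 0`, so
`Ξ' a = Ξ' a'` by `nil_index`.  Apply `λ^(m-1)`: `τ (v a) = τ (v a')`, `v a = ŵ a - [m = 1] 1_a`, so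
`v a - v a'` is constant on `S`; take `v = v a₀`.  It is not constant: for `m = 1` its sum over `S`
is `-1`, while constants have sum `0` as `l ∣ #S`. -/
theorem core {cells : List (List α)}
    (hc : ∀ a : G.S, ∃ lab, Lab (G.mdl a.1 a.2) (φ a) cells lab) :
    Res (fun a : G.S => G.mdl a.1 a.2) φ cells.length (E.core cells) fun r =>
      ∃ v : k → ZMod G.l, (∃ b ∈ G.S, ∃ b' ∈ G.S, v b ≠ v b') ∧
        ∀ a : G.S, ∀ b ∈ G.S, b ≠ a.1 →
          (toP (φ a) r.2).eval (b - a.1)⁻¹ = G.z ^ (v b - v a.1).val := by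
  classical
  obtain ⟨P, _, s, τ, Qt, cl, hσ, hker, hτ, hcl⟩ := G.exists_PP
  choose lab hlab using hc
  refine (h.fam.core (cl := fun a : G.S => cl a.1 a.2) (fun a => (hcl a.1 a.2).1) hlab).mono ?_
  rintro ⟨m, ω⟩ ⟨hm, H⟩
  choose Ξ J w hJ hQ hΞ hs hnc hev using H
  change G.S → k → ZMod G.l at w
  dsimp only at hm hs hnc hev ⊢
  obtain ⟨a₀, ha₀⟩ := G.hne
  have hB := (h.fam.pt ⟨a₀, ha₀⟩).B_pos
  have hlam : ∀ (j : ℕ) (u : k → ZMod G.l), j ≠ 0 → ((s - 1) ^ j) (τ u) = 0 := by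
    intro j u hj
    obtain ⟨j, rfl⟩ := Nat.exists_eq_succ_of_ne_zero hj
    rw [pow_succ, AddMonoid.End.coe_mul, Function.comp_apply]
    have : (s - 1) (τ u) = 0 := by
      change s (τ u) - τ u = 0
      rw [hσ, sub_self]
    rw [this, map_zero]
  have key : ∀ a a' : G.S, Ξ a - τ (Pi.single a.1 1) = Ξ a' - τ (Pi.single a'.1 1) := by
    intro a a'
    have hS := (hcl a.1 a.2).1
    have hS' := (hcl a'.1 a'.2).1
    have := hS.finite_grp
    have := hS'.finite_grp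
    obtain ⟨_, hcard⟩ := aspec6_card hS.grp hS'.grp
    have hclB : (G.mdl a'.1 a'.2).clB = (G.mdl a.1 a.2).clB := by
      unfold Mdl.clB
      rw [G.mdl_N, G.mdl_N]
      rfl
    have h1 : Ξ a - τ (Pi.single a.1 1) - (Ξ a' - τ (Pi.single a'.1 1)) =
        ((s - 1) ^ E.B) (cl a.1 a.2 (J a) - cl a'.1 a'.2 (J a')) := by
      rw [map_sub, ← hQ a, ← hQ a', (hcl a.1 a.2).2.2, (hcl a'.1 a'.2).2.2]
      abel
    rw [← sub_eq_zero, h1]
    refine nil_index (s - 1) (hS.grp ⊔ hS'.grp) (fun x hx => ?_) (hcard.trans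
      ((Nat.mul_le_mul hS.card_grp hS'.card_grp).trans ?_)) (j := E.B + E.B)
      (sub_mem (AddSubgroup.mem_sup_left ⟨_, hJ a, rfl⟩) (AddSubgroup.mem_sup_right ⟨_, hJ a', rfl⟩))
      ?_
    · obtain ⟨y, hy, z, hz, rfl⟩ := AddSubgroup.mem_sup.1 hx
      rw [map_add]
      exact add_mem (AddSubgroup.mem_sup_left (hS.grp_stable y hy))
        (AddSubgroup.mem_sup_right (hS'.grp_stable z hz))
    · rw [hclB]
      exact (h.fam.pt a).pow_clB_le
    · rw [pow_add, AddMonoid.End.coe_mul, Function.comp_apply, ← h1]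
      simp only [map_sub, hΞ, hlam _ _ hB.ne', sub_self]
  set e : ZMod G.l := if m = 1 then 1 else 0 with he
  have h2 : ∀ a : G.S, ((s - 1) ^ (m - 1)) (Ξ a - τ (Pi.single a.1 1)) =
      τ (aspec6_v G a.1 (w a) e) := by
    intro a
    rw [← aspec6_tau G τ hτ a.2 (cl a.1 a.2) (hcl a.1 a.2).2.1, map_sub, hs a]
    congr 1
    rw [he]
    split_ifs with h1
    · rw [h1]; rfl
    · rw [hlam _ _ (by omega), Pi.single_zero, map_zero]
  have h3 : ∀ a : G.S, ∀ b ∈ G.S, aspec6_v G a₀ (w ⟨a₀, ha₀⟩) e b -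
      aspec6_v G a₀ (w ⟨a₀, ha₀⟩) e a.1 =
      aspec6_v G a.1 (w a) e b - aspec6_v G a.1 (w a) e a.1 := by
    intro a b hb
    have h4 := hker (aspec6_v G a₀ (w ⟨a₀, ha₀⟩) e - aspec6_v G a.1 (w a) e)
      (by rw [map_sub, ← h2 a, ← h2 ⟨a₀, ha₀⟩, key a ⟨a₀, ha₀⟩, sub_self]) b hb a.1 a.2
    simp only [Pi.sub_apply] at h4
    linear_combination h4
  refine ⟨aspec6_v G a₀ (w ⟨a₀, ha₀⟩) e, ?_, fun a b hb hba => ?_⟩
  · by_cases h1 : m = 1
    · by_contra hcon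
      push Not at hcon
      have h5 : ∑ b ∈ G.S, aspec6_v G a₀ (w ⟨a₀, ha₀⟩) e b = 0 := by
        rw [sum_congr rfl fun b hb => hcon b hb a₀ ha₀, sum_const, nsmul_eq_mul,
          (ZMod.natCast_eq_zero_iff _ _).2 G.hdvd, zero_mul]
      have h6 := (aspec6_total G ha₀ _ e).symm.trans h5
      rw [he, if_pos h1] at h6
      have := Fact.mk G.hl
      exact one_ne_zero (neg_eq_zero.1 h6)
    · obtain ⟨c, hc, c', hc', hne⟩ := hnc ⟨a₀, ha₀⟩ (by omega)
      obtain ⟨b, hb, rfl⟩ := mem_image.1 hc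
      obtain ⟨b', hb', rfl⟩ := mem_image.1 hc'
      refine ⟨b, mem_of_mem_erase hb, b', mem_of_mem_erase hb', ?_⟩
      rwa [aspec6_v, aspec6_v, if_neg (ne_of_mem_erase hb), if_neg (ne_of_mem_erase hb')]
  · rw [h3 a b hb, hev a _ (mem_image.2 ⟨b, mem_erase.2 ⟨hba, hb⟩, rfl⟩), aspec6_sum, aspec6_v,
      aspec6_v, if_neg hba, if_pos rfl, sub_neg_eq_add, ← add_assoc]
    rfl

end GFam

end Crest.Agent.R312
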