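import Crest.Agent.R312.ASpec6

/-! # Row 312, part A: the final zero divisor -/

set_option autoImplicit false
set_option linter.unusedSectionVars false

noncomputable section

open Polynomial Finset

namespace Crest.Agent.R312

variable {α : Type} {k : Type} [Field k] [Fintype k]

namespace GFam

variable {E : Env α} {G : Glb k} {φ : G.S → α → k} (h : GFam E G φ)
include h

omit h in
private theorem aspec6b_pow_add (G : Glb k) (x y : ZMod G.l) :
    G.z ^ (x + y).val = G.z ^ x.val * G.z ^ y.val := by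
  rw [← pow_add, ZMod.val_add]
  conv_rhs => rw [← Nat.mod_add_div (x.val + y.val) G.l, pow_add, pow_mul, G.hz.pow_eq_one, one_pow,
    mul_one]

omit h in
private theorem aspec6b_pow_inj (G : Glb k) {x y : ZMod G.l} (e : G.z ^ x.val = G.z ^ y.val) :
    x = y :=
  ZMod.val_injective _ (G.hz.pow_inj (ZMod.val_lt x) (ZMod.val_lt y) e)

omit h in
private theorem aspec6b_find (c : k) (hc : c ≠ 0) [DecidableEq k] (l : List k) :
    ((l.map fun x => c * x).find? fun x => decide (x ≠ 0)).getD 0 =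
      c * (l.find? fun x => decide (x ≠ 0)).getD 0 := by
  induction l with
  | nil => simp
  | cons x l ih =>
    by_cases hx : x = 0
    · simpa [hx] using ih
    · simp [hx, hc]

private theorem aspec6b_deg (a : G.S) (Ω₀ : List α) :
    (toP (φ a) (E.omega Ω₀)).degree < G.S.card := by
  have h1 : E.fx.length = G.S.card := by
    rw [← monicP_natDegree (φ := φ a), h.fx_eq,
      natDegree_prod_of_monic _ _ fun b _ => monic_X_sub_C b]
    simp
  refine (degree_toP_lt _).trans_le ?_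
  rw [← h1]
  exact_mod_cast E.O.length_prem_le E.fx _

theorem omega_eval {Ω₀ : List α} {v : k → ZMod G.l}
    (hv : ∀ a : G.S, ∀ b ∈ G.S, b ≠ a.1 →
      (toP (φ a) Ω₀).eval (b - a.1)⁻¹ = G.z ^ (v b - v a.1).val) (a : G.S) {b : k} (hb : b ∈ G.S) :
    (toP (φ a) (E.omega Ω₀)).eval b = G.z ^ (v b - v a.1).val := by
  classical
  have hp := h.fam.pt a
  have hO : E.OX.Hom fun l => (toP (φ a) l).eval b := by
    refine hp.hom.quot_eval E.fx ?_
    rw [h.fx_eq, eval_prod]
    exact Finset.prod_eq_zero hb (by simp)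
  have e1 : (toP (φ a) [E.O.neg E.a, E.O.one]).eval b = b - a.1 := by
    simp only [toP, hp.hom.neg, hp.hom.one, h.a_eq, eval_add, eval_mul, eval_C, eval_X, eval_zero]
    ring
  have e2 : toP (fun l => (toP (φ a) l).eval b) (Ω₀.map fun c => [c]) = toP (φ a) Ω₀ := by
    rw [toP_map]
    simp only [toP_singleton, eval_C]
  have e3 := hO.add
  have e4 := hO.mul
  have e5 := hO.sub
  have e6 := hO.horner
  have e7 := hO.pinv hp.card
  have e8 := hO.ind hp.card
  have e9 := hO.one
  rw [Env.omega, e3, e4, e5, e6, e7, e8, e9, e1, e2]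
  by_cases hba : b = a.1
  · simp [hba]
  · rw [if_neg (sub_ne_zero.2 hba), hv a b hb hba]
    simp

/-- `toP (φ a) (omega Ω₀) = C (z^(-v a)) * Θ` for the interpolation polynomial `Θ` of
`b ↦ z^(v b)` (both have degree `< #S`), so the first nonzero coefficient is `z^(-v a) θ`. -/
theorem resv_eq {Ω₀ : List α} {v : k → ZMod G.l}
    (hv : ∀ a : G.S, ∀ b ∈ G.S, b ≠ a.1 →
      (toP (φ a) Ω₀).eval (b - a.1)⁻¹ = G.z ^ (v b - v a.1).val) :
    ∃ θ : k, θ ≠ 0 ∧ ∀ a : G.S, φ a (E.resv Ω₀) = G.z ^ (-v a.1).val * θ := by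
  classical
  obtain ⟨a₀⟩ := h.fam.ne
  have hz : G.z ≠ 0 := G.hz.ne_zero G.hl.ne_zero
  have hF : ∀ a : G.S, φ a (E.resv Ω₀) =
      (((E.omega Ω₀).map (φ a)).find? fun x => decide (x ≠ 0)).getD 0 := fun a => by
    have hp := h.fam.pt a
    have := hp.hom.firstNZ hp.hom.self (nz := E.O.ind E.q) (fun x => by
      convert hp.hom.ind hp.card x) (E.omega Ω₀)
    rw [Env.resv]
    convert this
  have hP : ∀ a : G.S, toP (φ a) (E.omega Ω₀) =
      C (G.z ^ (-v a.1).val * G.z ^ (v a₀.1).val) * toP (φ a₀) (E.omega Ω₀) := fun a => by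
    refine eq_of_degrees_lt_of_eval_finset_eq G.S (h.aspec6b_deg a Ω₀) ?_ fun b hb => ?_
    · rw [degree_C_mul (mul_ne_zero (pow_ne_zero _ hz) (pow_ne_zero _ hz))]
      exact h.aspec6b_deg a₀ Ω₀
    · rw [eval_mul, eval_C, h.omega_eval hv a hb, h.omega_eval hv a₀ hb, ← aspec6b_pow_add,
        ← aspec6b_pow_add]
      congr 2
      ring
  have hL : ∀ a : G.S, (E.omega Ω₀).map (φ a) = ((E.omega Ω₀).map (φ a₀)).map
      fun x => G.z ^ (-v a.1).val * G.z ^ (v a₀.1).val * x := fun a => by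
    refine List.ext_getElem (by simp) fun i h1 h2 => ?_
    have := congrArg (fun p => p.coeff i) (hP a)
    simp only [coeff_C_mul, coeff_toP] at this
    rw [List.getD_eq_getElem _ _ h1, List.getD_eq_getElem _ _ (by simpa using h1)] at this
    rw [this]
    simp
  refine ⟨G.z ^ (v a₀.1).val * φ a₀ (E.resv Ω₀), mul_ne_zero (pow_ne_zero _ hz) ?_, fun a => ?_⟩
  · have hp := h.fam.pt a₀
    refine (hp.hom.firstNZ_mem hp.hom.self (nz := E.O.ind E.q) (fun x => by
      convert hp.hom.ind hp.card x) (l := E.omega Ω₀) ?_).1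
    by_contra hn
    push Not at hn
    have h0 := h.omega_eval hv a₀ a₀.2
    rw [(toP_eq_zero_iff _).2 hn, eval_zero] at h0
    exact pow_ne_zero _ hz h0.symm
  · rw [hF a, hL a, aspec6b_find _ (mul_ne_zero (pow_ne_zero _ hz) (pow_ne_zero _ hz)), ← hF a₀,
      mul_assoc]

/-- By `root_nat` the root `ρ` of `θ^l` is the same at all points, `θ = ρ z^i`. -/
theorem exists_bad {Ω₀ : List α} {v : k → ZMod G.l} (hne : ∃ b ∈ G.S, ∃ b' ∈ G.S, v b ≠ v b')
    (hv : ∀ a : G.S, ∀ b ∈ G.S, b ≠ a.1 →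
      (toP (φ a) Ω₀).eval (b - a.1)⁻¹ = G.z ^ (v b - v a.1).val) :
    ∃ x ∈ E.cands Ω₀, Split φ x := by
  obtain ⟨θ, hθ, hr⟩ := h.resv_eq hv
  obtain ⟨b, hb, b', hb', hbb⟩ := hne
  have hp := h.fam.pt ⟨b, hb⟩
  have hl : E.l = G.l := hp.l_eq
  have hz : G.z ≠ 0 := G.hz.ne_zero G.hl.ne_zero
  have hpow : ∀ a : G.S, φ a (E.O.pow (E.resv Ω₀) E.l) = θ ^ G.l := fun a => by
    rw [(h.fam.pt a).hom.pow, hr a, hl, mul_pow, ← pow_mul, mul_comm _ G.l, pow_mul,
      G.hz.pow_eq_one, one_pow, one_mul]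
  set ρ := (Ops.ofRing k).root E.q E.l (φ ⟨b, hb⟩ E.η) (θ ^ G.l) with hρ
  have hroot : ∀ a : G.S, φ a (E.O.root E.q E.l E.η (E.O.pow (E.resv Ω₀) E.l)) = ρ := fun a => by
    rw [(h.fam.pt a).hom.root_nat, hpow, h.η_eq a ⟨b, hb⟩]
  have hρl : ρ ^ E.l = θ ^ G.l := by
    refine root_pow hp.card (hl ▸ G.hl) hp.dvd hp.η_ne hp.η_pow_ne (pow_ne_zero _ hθ) ?_
    rw [← pow_mul, ← hl, Nat.mul_div_cancel' hp.dvd, ← hp.card]
    exact FiniteField.pow_card_sub_one_eq_one θ hθ
  rw [hl] at hρl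
  have hρ0 : ρ ≠ 0 := fun e => by
    rw [e, zero_pow G.hl.ne_zero] at hρl
    exact pow_ne_zero _ hθ hρl.symm
  obtain ⟨i, hi, hi'⟩ := G.hz.eq_pow_of_pow_eq_one (ξ := θ / ρ) (by
    rw [div_pow, hρl, div_self (pow_ne_zero _ hθ)])
  have hθ' : θ = G.z ^ (i : ZMod G.l).val * ρ := by
    rw [ZMod.val_cast_of_lt hi, hi', div_mul_cancel₀ _ hρ0]
  have hx : ∀ a : G.S, φ a (E.O.sub (E.resv Ω₀) (E.O.mul
      (E.O.root E.q E.l E.η (E.O.pow (E.resv Ω₀) E.l)) (E.O.pow E.ζ (-v b + i).val))) =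
      (G.z ^ (-v a.1 + i).val - G.z ^ (-v b + i).val) * ρ := fun a => by
    have hq := h.fam.pt a
    have hζ : φ a E.ζ = G.z := hq.ζ_eq
    rw [hq.hom.sub, hq.hom.mul, hroot, hq.hom.pow, hζ, hr a, aspec6b_pow_add G (-v a.1), sub_mul,
      mul_assoc, ← hθ', mul_comm ρ]
  refine ⟨_, List.mem_map.2 ⟨(-v b + i).val, List.mem_range.2 (by rw [hl]; exact ZMod.val_lt _), rfl⟩,
    ⟨⟨b, hb⟩, ?_⟩, ⟨⟨b', hb'⟩, ?_⟩⟩
  · rw [hx, sub_self, zero_mul]
  · rw [hx]
    refine mul_ne_zero (sub_ne_zero.2 fun e => hbb ?_) hρ0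
    have := aspec6b_pow_inj G e
    exact (neg_injective (add_right_cancel this)).symm

theorem attempt {cells : List (List α)}
    (hc : ∀ a : G.S, ∃ lab, Lab (G.mdl a.1 a.2) (φ a) cells lab) :
    ExcOK (fun a : G.S => G.mdl a.1 a.2) φ cells.length (E.attempt cells) := by
  have h1 : Res (fun a : G.S => G.mdl a.1 a.2) φ cells.length
      (bindS (E.core cells) fun r => E.guard (E.cands r.2) (Sum.inr ())) fun _ => False := by
    refine (h.core hc).bind fun r _ hr => ?_
    obtain ⟨v, hne, hv⟩ := hr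
    refine h.fam.guard fun hg => ?_
    obtain ⟨x, hx, ⟨a, ha⟩, a', ha'⟩ := h.exists_bad hne hv
    exact (ha' ((hg x hx a').1 ((hg x hx a).2 ha))).elim
  rw [Env.attempt]
  generalize (bindS (E.core cells) fun r => E.guard (E.cands r.2) (Sum.inr ())) = r at h1
  cases r with
  | inl e => exact h1
  | inr u => exact h1.elim

/-- After `i` rounds: a zero divisor, or more than `i` cells; there are at most `N` cells
(`Lab.length_le`; the normalisation `take N`, `map (O2.mul O2.one)` preserves `Lab` by `hom2`). -/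
theorem run : Split φ E.run := by
  have hN : ∀ {cells : List (List α)}, (∀ a : G.S, ∃ lab, Lab (G.mdl a.1 a.2) (φ a) cells lab) →
      cells.length ≤ E.N := fun hc => by
    obtain ⟨a⟩ := h.fam.ne
    obtain ⟨lab, hl⟩ := hc a
    rw [(h.fam.pt a).N_eq]
    exact hl.length_le
  have key : ∀ i, ExcOK (fun a : G.S => G.mdl a.1 a.2) φ i
      ((fun st : Exc α => st.elim Sum.inl fun cells =>
        E.attempt ((cells.take E.N).map (E.O2.mul E.O2.one)))^[i] (Sum.inr [E.O2.one])) := by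
    intro i
    induction i with
    | zero =>
      refine ⟨Nat.one_pos, fun a => ⟨fun _ => 0, fun _ _ => Nat.one_pos, fun Z hZ => ?_,
        fun Z hZ b hb => ?_⟩⟩
      · obtain ⟨b, hb⟩ := (G.mdl a.1 a.2).T_nonempty
        exact ⟨b, hb, (Nat.lt_one_iff.1 hZ).symm⟩
      · obtain rfl := Nat.lt_one_iff.1 hZ
        simpa using ((h.fam.pt a).hom2 hb).one
    | succ i ih =>
      rw [Function.iterate_succ_apply']
      generalize (fun st : Exc α => st.elim Sum.inl fun cells =>
        E.attempt ((cells.take E.N).map (E.O2.mul E.O2.one)))^[i] (Sum.inr [E.O2.one]) = st at ih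
      cases st with
      | inl x => exact ih
      | inr cells =>
        obtain ⟨hi, hc⟩ := ih
        have hc' : ∀ a : G.S, ∃ lab, Lab (G.mdl a.1 a.2) (φ a)
            (cells.map (E.O2.mul E.O2.one)) lab := fun a => by
          obtain ⟨lab, hl⟩ := hc a
          refine ⟨lab, by simpa using hl.lt, by simpa using hl.surj, fun Z hZ b hb => ?_⟩
          have hZ' : Z < cells.length := by simpa using hZ
          have hO := (h.fam.pt a).hom2 hb
          have e1 := hO.mul E.O2.one cells[Z]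
          have e2 := hO.one
          have e3 := hl.eval Z hZ' b hb
          rw [List.getD_eq_getElem _ _ hZ'] at e3
          rw [List.getD_eq_getElem _ _ hZ, List.getElem_map, e1, e2, e3, one_mul]
        have h2 := h.attempt hc'
        simp only [Sum.elim_inr, List.take_of_length_le (hN hc)]
        generalize E.attempt (cells.map (E.O2.mul E.O2.one)) = st at h2
        cases st with
        | inl x => exact h2
        | inr cs => exact ⟨lt_of_le_of_lt (by simpa using hi) h2.1, h2.2⟩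
  have h1 := key (E.N + 1)
  rw [Env.run]
  generalize (fun st : Exc α => st.elim Sum.inl fun cells =>
    E.attempt ((cells.take E.N).map (E.O2.mul E.O2.one)))^[E.N + 1] (Sum.inr [E.O2.one]) = st at h1
  cases st with
  | inl x => exact h1
  | inr cells =>
    have := hN h1.2
    have := h1.1
    omega

end GFam

end Crest.Agent.R312
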