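import Crest.Agent.R312.AAlg
import Crest.Prelude.Def_PolyFactor

/-! # Row 312, part A: the factoring algorithm

Monic polynomials over `ZMod p` are given by the lists of their lower coefficients. -/

set_option autoImplicit false
set_option linter.unusedSectionVars false

namespace Crest.Agent.R312

def isZ0 (p x : ℕ) : Bool := decide (x % p = 0)
/-- Zero test in a quotient. -/
def isZq {α : Type} (O : Ops α) (isZ : α → Bool) (f x : List α) : Bool := (O.prem f x).all isZ
def isZp (p : ℕ) (v : List ℕ) : Bool := v.all (isZ0 p)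
def degp (p : ℕ) (v : List ℕ) : ℕ :=
  ((List.range v.length).filter fun i => !isZ0 p (v.getD i 0)).foldr max 0
/-- The monic polynomial associated to a nonzero polynomial. -/
def mon (p : ℕ) (v : List ℕ) : List ℕ :=
  (List.range (degp p v)).map fun i =>
    (zops p).mul (v.getD i 0) ((zops p).pinv p (v.getD (degp p v) 0))
def gcdStep (p : ℕ) (st : List ℕ × List ℕ) : List ℕ × List ℕ :=
  if isZp p st.2 then st else (mon p st.2, (zops p).prem (mon p st.2) (st.1 ++ [1]))
/-- The monic gcd of the monic polynomial `u` and the polynomial `v`. -/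
def pgcd (p : ℕ) (u v : List ℕ) : List ℕ := ((gcdStep p)^[v.length + 1] (u, v)).1
/-- Remainder and quotient. -/
def pdiv (p : ℕ) (d l : List ℕ) : List ℕ × List ℕ :=
  l.foldr (fun c st => ((List.range d.length).map fun i =>
      (zops p).sub ((c :: st.1).getD i 0) ((zops p).mul ((c :: st.1).getD d.length 0) (d.getD i 0)),
    (zops p).add 0 ((c :: st.1).getD d.length 0) :: st.2)) ([], [])
/-- The monic quotient `g / d`. -/
def pquo (p : ℕ) (g d : List ℕ) : List ℕ :=
  (List.range (g.length - d.length)).map fun i => (pdiv p d (g ++ [1])).2.getD i 0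
def splitOne (p : ℕ) (h : List ℕ) (o : Option (List ℕ)) : List (List ℕ) :=
  o.elim [h] fun d =>
    if 0 < d.length ∧ d.length < h.length then [d.map ((zops p).add 0), pquo p h d] else [h]
/-- Repeated splitting. -/
def loop (p : ℕ) (split : List ℕ → Option (List ℕ)) (g : List ℕ) : List (List ℕ) :=
  (fun L => L.flatMap fun h => splitOne p h (split h))^[g.length] [g]

/-- The least prime factor. -/
def mf (n : ℕ) : ℕ := ((List.range (n + 1)).find? fun d => decide (2 ≤ d ∧ d ∣ n)).getD 2
/-- The field `F_p[z]/(φ)`. -/
def kops (p : ℕ) (f : List ℕ) : Ops (List ℕ) := (zops p).quot f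
def kisZ (p : ℕ) (f : List ℕ) : List ℕ → Bool := isZq (zops p) (isZ0 p) f
/-- The algebra `k[T]/(g)`. -/
def aops (p : ℕ) (f g : List ℕ) : Ops (List (List ℕ)) := (kops p f).quot (g.map fun c => [c])
/-- `X^n g(a + 1/X)`. -/
def mkF (p : ℕ) (f g : List ℕ) : List (List (List ℕ)) :=
  (aops p f g).poly.sum ((List.range (g.length + 1)).map fun i =>
    (aops p f g).pmul ((aops p f g).poly.prod (List.replicate i [(aops p f g).one, [[], [1]]]))
      (List.replicate (g.length - i) [] ++ [[[(g ++ [1]).getD i 0]]]))
/-- The environment; `e = (φ, η)`. -/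
def mkEnv (p l : ℕ) (e : List ℕ × List ℕ) (g : List ℕ) : Env (List (List ℕ)) where
  O := aops p e.1 g
  isZ := isZq (kops p e.1) (kisZ p e.1) (g.map fun c => [c])
  q := p ^ e.1.length
  l := l
  η := [e.2]
  F := mkF p e.1 g
  Fm := (List.range (g.length - 1)).map fun i => (aops p e.1 g).mul ((mkF p e.1 g).getD i [])
    ((aops p e.1 g).pinv (p ^ e.1.length) ((mkF p e.1 g).getD (g.length - 1) []))
  a := [[], [1]]
  fx := g.map fun c => [[c]]
/-- The idempotent attached to a zero divisor, as a polynomial over the prime field. -/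
def idem (p : ℕ) (f g : List ℕ) (x : List (List ℕ)) : List ℕ :=
  ((aops p f g).ind (p ^ f.length) x).map fun κ => ((zops p).prem f κ).getD 0 0
/-- A proper factor of a squarefree split polynomial of degree `≥ 2`. -/
def splitS (p : ℕ) (tbl : List (List ℕ × List ℕ)) (g : List ℕ) : Option (List ℕ) :=
  if g.length ≤ 1 then none else
    some (pgcd p g (idem p (tbl.getD (mf g.length) ([], [])).1 g
      (mkEnv p (mf g.length) (tbl.getD (mf g.length) ([], [])) g).run))
/-- The roots of a squarefree split polynomial; `ks = range K`. -/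
def roots (p : ℕ) (ks : List ℕ) (tbl : List (List ℕ × List ℕ)) (m : List ℕ) : List ℕ :=
  if p ≤ ks.length then ks else (loop p (splitS p tbl) m).map fun h => (zops p).neg (h.getD 0 0)
/-- Kernel of a linear map from coefficient vectors of length `n` to polynomials of degree `< n'`. -/
def kerL (p n n' : ℕ) (T : ℕ → List ℕ) : List (List ℕ) :=
  (zops p).kerP (zops p).self.list (zops p).self.list p (fun (i : ℕ) r => r.getD i 0)
    (List.range n') ((List.range n).map fun i => (unitV i, T i))
/-- A squarefree split polynomial killing the element `h` of the Berlekamp algebra of `g`. -/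
def killer (p : ℕ) (g h : List ℕ) : List ℕ :=
  pgcd p (mon p (((kerL p (g.length + 1) g.length fun i => ((zops p).quot g).pow h i).find?
      fun m => !isZp p m).getD []))
    (((zops p).quot (mon p (((kerL p (g.length + 1) g.length
      fun i => ((zops p).quot g).pow h i).find? fun m => !isZp p m).getD []))).sub
      (((zops p).quot (mon p (((kerL p (g.length + 1) g.length
        fun i => ((zops p).quot g).pow h i).find? fun m => !isZp p m).getD []))).pow [0, 1] p)
      [0, 1])
/-- A proper factor of a reducible polynomial (Berlekamp). -/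
def splitG (p : ℕ) (ks : List ℕ) (tbl : List (List ℕ × List ℕ)) (g : List ℕ) : Option (List ℕ) :=
  ((kerL p g.length g.length fun i => ((zops p).quot g).pow (unitV i) p).find?
    fun h => !isZp p h).elim
    (((kerL p g.length g.length fun i =>
      ((zops p).quot g).sub (((zops p).quot g).pow (unitV i) p) (unitV i)).find?
        fun h => !isZp p h.tail).bind fun h =>
      ((roots p ks tbl (killer p g h)).map fun c =>
        pgcd p g ((zops p).padd h [(zops p).neg c])).find?
          fun d => decide (0 < d.length ∧ d.length < g.length))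
    fun h => some (pgcd p g h)
def factorWith (p : ℕ) (ks : List ℕ) (tbl : List (List ℕ × List ℕ)) (g : List ℕ) :
    List (List ℕ) := loop p (splitG p ks tbl) g

/-- The character of order `l` modulo `r` with `χ(p) = z`, with values in `F_p[z]/(f)`. -/
def chi (p l : ℕ) (f : List ℕ) (r t : ℕ) : List ℕ :=
  if t % r = 0 then [] else (kops p f).pow [0, 1] (((List.range l).find? fun j =>
    decide (t ^ ((r - 1) / l) % r = ((p % r) ^ ((r - 1) / l)) ^ j % r)).getD 0)
/-- `χ(-1) r ∏_{1 ≤ i < l-1} J(χ, χ^i)`, the `l`-th power of the Gauss sum. -/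
def etaOf (p l : ℕ) (f : List ℕ) (r : ℕ) : List ℕ :=
  (kops p f).mul ((kops p f).mul (chi p l f r (r - 1)) [r])
    ((kops p f).prod ((List.range' 1 (l - 2)).map fun i => (kops p f).sum ((List.range r).map
      fun t => (kops p f).mul (chi p l f r t) ((kops p f).pow (chi p l f r (r + 1 - t)) i))))
def findEta (p l : ℕ) (f : List ℕ) (R : ℕ) : List ℕ :=
  (((List.range (R + 1)).map (etaOf p l f)).find? fun η => !kisZ p f η &&
    !kisZ p f ((kops p f).sub ((kops p f).pow η ((p ^ f.length - 1) / l)) (kops p f).one)).getD []
/-- The search bound. -/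
def bnd (C p l : ℕ) : ℕ := C * (l + Nat.size p) ^ C
def entry (C p : ℕ) (ks : List ℕ) (tbl : List (List ℕ × List ℕ)) (l : ℕ) : List ℕ × List ℕ :=
  ((factorWith p ks tbl (List.replicate (l - 1) 1)).headD [],
    findEta p l ((factorWith p ks tbl (List.replicate (l - 1) 1)).headD []) (bnd C p l))
def table (C p : ℕ) (ks : List ℕ) : List (List ℕ × List ℕ) :=
  ks.foldl (fun tbl l => tbl ++ [entry C p ks tbl (min l ks.length)]) []
/-- The factors (full coefficient lists) of the polynomial with coefficient list `cs`. -/
def factorAll (C p : ℕ) (cs : List ℕ) : List (List ℕ) :=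
  if (mon p cs).length = 0 then [] else
    (factorWith p (List.range cs.length) (table C p (List.range cs.length)) (mon p cs)).map
      fun h => h ++ [1]
/-- The algorithm on bit strings. -/
def mainF (C : ℕ) (s : List Bool) : List Bool :=
  (factorAll C (((PolyFactor.decodeLists s).headD []).headD 0)
    ((PolyFactor.decodeLists s).headD []).tail).flatMap PolyFactor.encNatList

/-- The analytic input: a small prime `r ≡ 1 (mod l)` modulo which `p` is not an `l`-th power. -/
def NR : Prop := ∃ C : ℕ, ∀ p l : ℕ, p.Prime → l.Prime → l < p →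
  ∃ r : ℕ, r.Prime ∧ r ≤ C * (l + Nat.size p) ^ C ∧ r % l = 1 ∧ r ≠ p ∧
    ¬ ∃ x : ZMod r, x ^ l = (p : ZMod r)

end Crest.Agent.R312
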