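import Crest.Agent.R312.ATop
import Crest.Agent.R312.AOpsF

/-! # Row 312, part A: gcd, division, the splitting loop -/

set_option autoImplicit false
set_option linter.unusedSectionVars false

noncomputable section

open Polynomial

namespace Crest.Agent.R312

variable {p : ℕ} [Fact p.Prime]

/-- The polynomial over `ZMod p` with the given coefficients. -/
abbrev tp (p : ℕ) (l : List ℕ) : (ZMod p)[X] := toP (fun n : ℕ => (n : ZMod p)) l
/-- The monic polynomial over `ZMod p` with the given lower coefficients. -/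
abbrev mp (p : ℕ) (l : List ℕ) : (ZMod p)[X] := monicP (fun n : ℕ => (n : ZMod p)) l

theorem zhom : (zops p).Hom (fun n : ℕ => (n : ZMod p)) :=
  zops_hom p (Fact.out : p.Prime).pos (ZMod.natCast_self p)

theorem atops1_coeff (l : List ℕ) (i : ℕ) : (tp p l).coeff i = ((l.getD i 0 : ℕ) : ZMod p) :=
  zhom.coeff_toP l i
theorem atops1_coeff_range (n : ℕ) (f : ℕ → ℕ) (i : ℕ) :
    (tp p ((List.range n).map f)).coeff i = if i < n then (f i : ZMod p) else 0 := by
  rw [atops1_coeff]
  split_ifs with h
  · rw [List.getD_eq_getElem _ _ (by simpa using h)]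
    simp
  · rw [List.getD_eq_default _ _ (by simpa using h), Nat.cast_zero]
theorem atops1_coeff_mp (n : ℕ) (f : ℕ → ℕ) (i : ℕ) :
    (mp p ((List.range n).map f)).coeff i =
      if i < n then (f i : ZMod p) else if i = n then 1 else 0 := by
  rw [mp, monicP, coeff_add, atops1_coeff_range, List.length_map, List.length_range, coeff_X_pow]
  split_ifs with h1 h2 h2
  · omega
  · rw [add_zero]
  · rw [zero_add]
  · rw [zero_add]
theorem atops1_foldr_le (L : List ℕ) (n : ℕ) : L.foldr max 0 ≤ n ↔ ∀ i ∈ L, i ≤ n := by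
  induction L with
  | nil => simp
  | cons a L ih => simp [ih]
theorem isZ0_iff (x : ℕ) : isZ0 p x = true ↔ (x : ZMod p) = 0 := by
  simp only [isZ0, decide_eq_true_eq, ZMod.natCast_eq_zero_iff, Nat.dvd_iff_mod_eq_zero]
theorem isZp_iff (v : List ℕ) : isZp p v = true ↔ tp p v = 0 := by
  simp only [isZp, List.all_eq_true, isZ0_iff, toP_eq_zero_iff]
theorem isZq_iff {α B : Type} [CommRing B] {O : Ops α} {φ : α → B} (h : O.Hom φ) {isZ : α → Bool}
    (hZ : ∀ x, isZ x = true ↔ φ x = 0) (f x : List α) :
    isZq O isZ f x = true ↔ monicP φ f ∣ toP φ x := by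
  rw [← modByMonic_eq_zero_iff_dvd (monicP_monic f), ← h.prem, toP_eq_zero_iff]
  simp only [isZq, List.all_eq_true, hZ]
theorem degp_eq (v : List ℕ) : degp p v = (tp p v).natDegree := by
  have hmem : ∀ i, i ∈ (List.range v.length).filter (fun i => !isZ0 p (v.getD i 0)) ↔
      (tp p v).coeff i ≠ 0 := by
    intro i
    rw [List.mem_filter, List.mem_range, Bool.not_eq_true', ← Bool.not_eq_true, isZ0_iff,
      atops1_coeff]
    refine ⟨fun h => h.2, fun h => ⟨?_, h⟩⟩
    by_contra hi
    rw [List.getD_eq_default _ _ (not_lt.1 hi)] at h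
    exact h Nat.cast_zero
  refine le_antisymm ((atops1_foldr_le _ _).2 fun i hi => le_natDegree_of_ne_zero ((hmem i).1 hi))
    (natDegree_le_iff_coeff_eq_zero.2 fun N hN => ?_)
  by_contra h
  exact absurd ((atops1_foldr_le _ _).1 le_rfl N ((hmem N).2 h)) (not_le.2 hN)
theorem tp_append_one (l : List ℕ) : tp p (l ++ [1]) = mp p l := by
  rw [tp, toP_append, toP_singleton, mp, monicP, Nat.cast_one, C_1, mul_one, add_comm]
theorem tp_unitV (i : ℕ) : tp p (unitV i) = X ^ i := by
  have h : toP (fun n : ℕ => (n : ZMod p)) (List.replicate i 0) = 0 :=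
    (toP_eq_zero_iff _).2 fun x hx => by rw [List.eq_of_mem_replicate hx, Nat.cast_zero]
  rw [unitV, tp_append_one, mp, monicP, h, List.length_replicate, add_zero]
theorem mon_spec {v : List ℕ} (hv : tp p v ≠ 0) :
    C (tp p v).leadingCoeff * mp p (mon p v) = tp p v := by
  have hl : (tp p v).leadingCoeff ≠ 0 := leadingCoeff_ne_zero.2 hv
  ext i
  rw [coeff_C_mul, mon, atops1_coeff_mp, degp_eq, zhom.mul, zhom.pinv (ZMod.card p),
    ← atops1_coeff, ← atops1_coeff, coeff_natDegree]
  split_ifs with h1 h2
  · field_simp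
  · rw [h2, mul_one, coeff_natDegree]
  · rw [mul_zero, coeff_eq_zero_of_natDegree_lt (by omega)]
theorem length_mon (v : List ℕ) : (mon p v).length = (tp p v).natDegree := by
  rw [mon, List.length_map, List.length_range, degp_eq]
theorem atops1_gcd (k : ℕ) (st : List ℕ × List ℕ) (hk : st.2.length < k) :
    Ideal.span {mp p ((gcdStep p)^[k] st).1} = Ideal.span {mp p st.1, tp p st.2} := by
  induction k generalizing st with
  | zero => omega
  | succ k ih =>
    by_cases h : isZp p st.2 = true
    · have h1 : gcdStep p st = st := by rw [gcdStep, if_pos h]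
      rw [Function.iterate_fixed h1, (isZp_iff _).1 h, Ideal.span_insert,
        Ideal.span_singleton_eq_bot.2 rfl, sup_bot_eq]
    · have h0 : tp p st.2 ≠ 0 := fun h0 => h ((isZp_iff _).2 h0)
      have h1 : gcdStep p st = (mon p st.2, (zops p).prem (mon p st.2) (st.1 ++ [1])) := by
        rw [gcdStep, if_neg h]
      have h2 : (tp p st.2).natDegree < st.2.length :=
        (natDegree_lt_iff_degree_lt h0).2 (degree_toP_lt _)
      have h3 := (zops p).length_prem_le (mon p st.2) (st.1 ++ [1])
      rw [length_mon] at h3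
      rw [Function.iterate_succ_apply, h1, ih _ (by dsimp only; omega)]
      dsimp only
      have h4 : tp p ((zops p).prem (mon p st.2) (st.1 ++ [1])) =
          mp p st.1 %ₘ mp p (mon p st.2) := by
        rw [← tp_append_one]
        exact zhom.prem _ _
      have h5 := mon_spec h0
      have h6 := modByMonic_add_div (mp p st.1) (mp p (mon p st.2))
      have h7 : C (tp p st.2).leadingCoeff⁻¹ * tp p st.2 = mp p (mon p st.2) := by
        conv_lhs => rw [← h5]
        rw [h5, ← mul_right_inj' (C_ne_zero.2 (leadingCoeff_ne_zero.2 h0)), h5, ← mul_assoc,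
          ← C_mul, mul_inv_cancel₀ (leadingCoeff_ne_zero.2 h0), C_1, one_mul]
      rw [h4]
      refine le_antisymm (Ideal.span_le.2 ?_) (Ideal.span_le.2 ?_)
      · rintro x (rfl | rfl)
        · exact Ideal.mem_span_pair.2 ⟨0, C (tp p st.2).leadingCoeff⁻¹, by rw [h7]; ring⟩
        · exact Ideal.mem_span_pair.2 ⟨1, -(mp p st.1 /ₘ mp p (mon p st.2)) *
            C (tp p st.2).leadingCoeff⁻¹, by rw [mul_assoc, h7]; linear_combination -h6⟩
      · rintro x (rfl | rfl)
        · exact Ideal.mem_span_pair.2 ⟨mp p st.1 /ₘ mp p (mon p st.2), 1, by linear_combination h6⟩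
        · exact Ideal.mem_span_pair.2 ⟨C (tp p st.2).leadingCoeff, 0, by linear_combination h5⟩
theorem pgcd_spec (u v : List ℕ) :
    Ideal.span {mp p (pgcd p u v)} = Ideal.span {mp p u, tp p v} := by
  exact atops1_gcd (v.length + 1) (u, v) (Nat.lt_succ_self _)
theorem pgcd_dvd_left (u v : List ℕ) : mp p (pgcd p u v) ∣ mp p u := by
  rw [← Ideal.mem_span_singleton, pgcd_spec]
  exact Ideal.subset_span (by simp)
theorem pgcd_dvd_right (u v : List ℕ) : mp p (pgcd p u v) ∣ tp p v := by
  rw [← Ideal.mem_span_singleton, pgcd_spec]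
  exact Ideal.subset_span (by simp)
/-- The gcd with a nonzero zero divisor is a proper factor. -/
theorem pgcd_proper {u v : List ℕ} (h1 : ¬ mp p u ∣ tp p v) (h2 : ¬ IsCoprime (mp p u) (tp p v)) :
    0 < (pgcd p u v).length ∧ (pgcd p u v).length < u.length := by
  constructor
  · rw [List.length_pos_iff]
    intro h0
    have h3 := pgcd_spec (p := p) u v
    have h4 : (1 : (ZMod p)[X]) ∈ Ideal.span {mp p (pgcd p u v)} := by
      rw [h0]
      exact Ideal.subset_span (by simp [mp, monicP, toP])
    rw [h3, Ideal.mem_span_pair] at h4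
    exact h2 h4
  · by_contra h0
    have h3 : mp p u = mp p (pgcd p u v) :=
      eq_of_monic_of_dvd_of_natDegree_le (monicP_monic _) (monicP_monic _) (pgcd_dvd_left u v)
        (by rw [monicP_natDegree, monicP_natDegree]; omega)
    exact h1 (h3 ▸ pgcd_dvd_right u v)
theorem atops1_step (d w : List ℕ) (hw : w.length ≤ d.length + 1) :
    tp p w = tp p ((List.range d.length).map fun i =>
      (zops p).sub (w.getD i 0) ((zops p).mul (w.getD d.length 0) (d.getD i 0))) +
      mp p d * C ((w.getD d.length 0 : ℕ) : ZMod p) := by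
  ext i
  rw [coeff_add, coeff_mul_C, atops1_coeff_range, mp, monicP, coeff_add, coeff_X_pow,
    atops1_coeff d, atops1_coeff, zhom.sub, zhom.mul]
  split_ifs with h1 h2 h2
  · omega
  · ring
  · rw [h2, List.getD_eq_default d _ le_rfl, Nat.cast_zero]
    ring
  · rw [List.getD_eq_default d _ (by omega), List.getD_eq_default w _ (by omega), Nat.cast_zero]
    ring
theorem atops1_pdiv (d l : List ℕ) : (pdiv p d l).1.length ≤ d.length ∧
    tp p l = tp p (pdiv p d l).1 + mp p d * tp p (pdiv p d l).2 := by
  induction l with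
  | nil => simp [pdiv, tp, toP]
  | cons c l ih =>
    have e : pdiv p d (c :: l) = ((List.range d.length).map fun i =>
        (zops p).sub ((c :: (pdiv p d l).1).getD i 0)
          ((zops p).mul ((c :: (pdiv p d l).1).getD d.length 0) (d.getD i 0)),
        (zops p).add 0 ((c :: (pdiv p d l).1).getD d.length 0) :: (pdiv p d l).2) := rfl
    rw [e]
    refine ⟨by simp, ?_⟩
    have h1 := atops1_step (p := p) d (c :: (pdiv p d l).1) (by simpa using ih.1)
    have h2 : ∀ (a : ℕ) (m : List ℕ), tp p (a :: m) = C (a : ZMod p) + X * tp p m := fun _ _ => rfl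
    dsimp only
    rw [h2] at h1
    rw [h2, h2, zhom.add, Nat.cast_zero, zero_add]
    linear_combination h1 + X * ih.2
theorem pquo_spec {g d : List ℕ} (h : mp p d ∣ mp p g) : mp p d * mp p (pquo p g d) = mp p g := by
  obtain ⟨h1, h2⟩ := atops1_pdiv (p := p) d (g ++ [1])
  rw [tp_append_one] at h2
  have h3 : tp p (pdiv p d (g ++ [1])).1 = 0 := by
    refine eq_zero_of_dvd_of_degree_lt (p := mp p d) ?_ ?_
    · rw [eq_sub_of_add_eq h2.symm]
      exact dvd_sub h (dvd_mul_right _ _)
    · rw [degree_eq_natDegree (monicP_monic d).ne_zero, monicP_natDegree]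
      exact (degree_toP_lt _).trans_le (by exact_mod_cast h1)
  rw [h3, zero_add] at h2
  have h4 : (tp p (pdiv p d (g ++ [1])).2).Monic :=
    (monicP_monic d).of_mul_monic_left (by
      have h8 : (mp p g).Monic := monicP_monic g
      rwa [h2] at h8)
  have h5 : (tp p (pdiv p d (g ++ [1])).2).natDegree = g.length - d.length := by
    have h6 := congrArg natDegree h2
    rw [(monicP_monic d).natDegree_mul h4, monicP_natDegree, monicP_natDegree] at h6
    omega
  rw [h2]
  congr 1
  ext i
  rw [pquo, atops1_coeff_mp, ← atops1_coeff, ← h5]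
  split_ifs with h7 h8
  · rfl
  · rw [h8, coeff_natDegree, h4.leadingCoeff]
  · rw [coeff_eq_zero_of_natDegree_lt (by omega)]

end Crest.Agent.R312
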