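import Crest.Agent.R312.ATopS1

/-! # Row 312, part A: the splitting loop, kernels -/

set_option autoImplicit false
set_option linter.unusedSectionVars false

noncomputable section

open Polynomial

namespace Crest.Agent.R312

variable {p : ℕ} [Fact p.Prime]

theorem atops1b_mp_map (d : List ℕ) : mp p (d.map ((zops p).add 0)) = mp p d := by
  unfold mp monicP
  rw [List.length_map, toP_map]
  congr 2
  funext x
  have := (zhom (p := p)).add 0 x
  simpa using this

theorem atops1b_one {split : List ℕ → Option (List ℕ)} {Good : (ZMod p)[X] → Prop}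
    (hdvd : ∀ f f' : (ZMod p)[X], Good f → f'.Monic → f' ∣ f → Good f')
    (hsplit : ∀ h d, Good (mp p h) → split h = some d → mp p d ∣ mp p h) {h : List ℕ}
    (hg : Good (mp p h)) (hpos : 0 < h.length) :
    ((splitOne p h (split h)).map (mp p)).prod = mp p h ∧
      (∀ x ∈ splitOne p h (split h), 0 < x.length ∧ Good (mp p x)) ∧
      ((splitOne p h (split h)).map List.length).sum = h.length ∧
      (((∀ d, split h = some d → ¬ (0 < d.length ∧ d.length < h.length)) ∧
          splitOne p h (split h) = [h]) ∨
        ((¬ ∀ d, split h = some d → ¬ (0 < d.length ∧ d.length < h.length)) ∧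
          (splitOne p h (split h)).length = 2)) := by
  by_cases hst : ∀ d, split h = some d → ¬ (0 < d.length ∧ d.length < h.length)
  · have e : splitOne p h (split h) = [h] := by
      unfold splitOne
      cases hs : split h with
      | none => rfl
      | some d => exact if_neg (hst d hs)
    rw [e]
    refine ⟨by simp, fun x hx => ?_, by simp, Or.inl ⟨hst, rfl⟩⟩
    rw [List.mem_singleton.1 hx]
    exact ⟨hpos, hg⟩
  · have hst' := hst
    push Not at hst'
    obtain ⟨d, hs, hd1, hd2⟩ := hst'
    have e : splitOne p h (split h) = [d.map ((zops p).add 0), pquo p h d] := by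
      unfold splitOne
      rw [hs]
      exact if_pos ⟨hd1, hd2⟩
    have hq : (pquo p h d).length = h.length - d.length := by simp [pquo]
    have h1 := hsplit h d hg hs
    have h2 := pquo_spec h1
    rw [e]
    refine ⟨by simp [atops1b_mp_map, h2], fun x hx => ?_, ?_, Or.inr ⟨hst, rfl⟩⟩
    · rcases List.mem_pair.1 hx with rfl | rfl
      · rw [List.length_map, atops1b_mp_map]
        exact ⟨hd1, hdvd _ _ hg (monicP_monic _) h1⟩
      · exact ⟨by omega, hdvd _ _ hg (monicP_monic _) (Dvd.intro_left _ h2)⟩
    · simp only [List.map_cons, List.map_nil, List.sum_cons, List.sum_nil, List.length_map, hq]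
      omega

theorem atops1b_list {split : List ℕ → Option (List ℕ)} {Good : (ZMod p)[X] → Prop}
    (hdvd : ∀ f f' : (ZMod p)[X], Good f → f'.Monic → f' ∣ f → Good f')
    (hsplit : ∀ h d, Good (mp p h) → split h = some d → mp p d ∣ mp p h) (L : List (List ℕ))
    (hL : ∀ h ∈ L, 0 < h.length ∧ Good (mp p h)) :
    ((L.flatMap fun h => splitOne p h (split h)).map (mp p)).prod = (L.map (mp p)).prod ∧
      (∀ x ∈ L.flatMap fun h => splitOne p h (split h), 0 < x.length ∧ Good (mp p x)) ∧
      ((L.flatMap fun h => splitOne p h (split h)).map List.length).sum =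
        (L.map List.length).sum ∧
      (((∀ h ∈ L, ∀ d, split h = some d → ¬ (0 < d.length ∧ d.length < h.length)) ∧
          (L.flatMap fun h => splitOne p h (split h)) = L) ∨
        L.length < (L.flatMap fun h => splitOne p h (split h)).length) := by
  induction L with
  | nil => simp
  | cons h L ih =>
    obtain ⟨i1, i2, i3, i4⟩ := ih fun x hx => hL x (List.mem_cons_of_mem _ hx)
    obtain ⟨o1, o2, o3, o4⟩ := atops1b_one hdvd hsplit (hL h List.mem_cons_self).2
      (hL h List.mem_cons_self).1
    rw [List.flatMap_cons]
    refine ⟨by rw [List.map_append, List.prod_append, i1, o1, List.map_cons, List.prod_cons],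
      fun x hx => (List.mem_append.1 hx).elim (o2 x) (i2 x),
      by rw [List.map_append, List.sum_append, i3, o3, List.map_cons, List.sum_cons], ?_⟩
    rcases o4 with ⟨a1, a2⟩ | ⟨-, a2⟩
    · rcases i4 with ⟨b1, b2⟩ | b
      · refine Or.inl ⟨fun x hx => ?_, by rw [a2, b2]; rfl⟩
        rcases List.mem_cons.1 hx with rfl | hx
        · exact a1
        · exact b1 x hx
      · right
        rw [a2, List.length_append, List.length_cons, List.length_singleton]
        omega
    · right
      rw [List.length_append, a2, List.length_cons]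
      rcases i4 with ⟨-, b2⟩ | b
      · rw [b2]; omega
      · omega

theorem atops1b_len (L : List (List ℕ)) (hL : ∀ h ∈ L, 0 < h.length) :
    L.length ≤ (L.map List.length).sum := by
  induction L with
  | nil => simp
  | cons h L ih =>
    have h1 := ih fun x hx => hL x (List.mem_cons_of_mem _ hx)
    have h2 := hL h List.mem_cons_self
    rw [List.map_cons, List.sum_cons, List.length_cons]
    omega

/-- The splitting loop.  `Good` is a property inherited by monic divisors.  After `i` rounds either
all members are stable (`splitOne` does nothing) or the list has more than `i` members; the lengths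
are positive with sum `g.length`. -/
theorem loop_spec {split : List ℕ → Option (List ℕ)} {Good : (ZMod p)[X] → Prop}
    (hdvd : ∀ f f' : (ZMod p)[X], Good f → f'.Monic → f' ∣ f → Good f')
    (hsplit : ∀ h d, Good (mp p h) → split h = some d → mp p d ∣ mp p h) {g : List ℕ}
    (hg : Good (mp p g)) (hpos : 0 < g.length) :
    ((loop p split g).map (mp p)).prod = mp p g ∧
      ∀ h ∈ loop p split g, 0 < h.length ∧ Good (mp p h) ∧
        ∀ d, split h = some d → ¬ (0 < d.length ∧ d.length < h.length) := by
  have key : ∀ i : ℕ, ∀ L, L = (fun L : List (List ℕ) =>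
      L.flatMap fun h => splitOne p h (split h))^[i] [g] →
      (L.map (mp p)).prod = mp p g ∧ (∀ h ∈ L, 0 < h.length ∧ Good (mp p h)) ∧
        (L.map List.length).sum = g.length ∧
        ((∀ h ∈ L, ∀ d, split h = some d → ¬ (0 < d.length ∧ d.length < h.length)) ∨
          i < L.length) := by
    intro i
    induction i with
    | zero =>
      rintro L rfl
      refine ⟨by simp, fun h hh => ?_, by simp, Or.inr (by simp)⟩
      rw [List.mem_singleton.1 hh]
      exact ⟨hpos, hg⟩
    | succ i ih =>
      rintro L rfl
      obtain ⟨i1, i2, i3, i4⟩ := ih _ rfl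
      rw [Function.iterate_succ_apply']
      generalize (fun L : List (List ℕ) => L.flatMap fun h => splitOne p h (split h))^[i] [g] = L
        at i1 i2 i3 i4
      obtain ⟨o1, o2, o3, o4⟩ := atops1b_list hdvd hsplit L i2
      refine ⟨o1.trans i1, o2, o3.trans i3, ?_⟩
      rcases o4 with ⟨a1, a2⟩ | a
      · left
        rw [a2]
        exact a1
      · rcases i4 with b | b
        · left
          have e : (L.flatMap fun h => splitOne p h (split h)) = L := by
            conv_rhs => rw [← List.flatMap_singleton' L]
            refine List.flatMap_congr fun h hh => ?_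
            rcases (atops1b_one hdvd hsplit (i2 h hh).2 (i2 h hh).1).2.2.2 with c | c
            · exact c.2
            · exact absurd (b h hh) c.1
          rw [e]
          exact b
        · right
          omega
  obtain ⟨k1, k2, k3, k4⟩ := key g.length (loop p split g) rfl
  have k5 := atops1b_len _ fun h hh => (k2 h hh).1
  refine ⟨k1, fun h hh => ⟨(k2 h hh).1, (k2 h hh).2, ?_⟩⟩
  rcases k4 with b | b
  · exact b h hh
  · omega

/-- `kerL` for a linear map `𝒯` on polynomials. -/
theorem kerL_spec (n n' : ℕ) (T : ℕ → List ℕ) (𝒯 : (ZMod p)[X] →ₗ[ZMod p] (ZMod p)[X])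
    (hT : ∀ i < n, tp p (T i) = 𝒯 (X ^ i)) (hlen : ∀ i < n, (T i).length ≤ n')
    (f : (ZMod p)[X]) :
    f ∈ lspan (ZMod p) (tp p) (kerL p n n' T) ↔ f.degree < n ∧ 𝒯 f = 0 := by
  have hk := (zhom (p := p)).kerP (ZMod.card p) (zhom (p := p)).polyM (zhom (p := p)).polyM
    (fn := fun (i : ℕ) (r : List ℕ) => r.getD i 0) (lam := fun i => lcoeff (ZMod p) i)
    (List.range n') (fun i _ r => ((zhom (p := p)).coeff_toP r i).symm)
    ((List.range n).map fun i => (unitV i, T i)) 𝒯 (fun r hr => by
      obtain ⟨i, hi, rfl⟩ := List.mem_map.1 hr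
      exact (hT i (List.mem_range.1 hi)).trans (congrArg 𝒯 (tp_unitV i).symm))
    (fun y hy h0 => by
      have h1 : y ∈ degreeLT (ZMod p) n' := by
        refine lspan_le.2 (fun r hr => ?_) hy
        obtain ⟨i, hi, rfl⟩ := List.mem_map.1 hr
        rw [mem_degreeLT]
        exact (degree_toP_lt _).trans_le (Nat.cast_le.2 (hlen i (List.mem_range.1 hi)))
      rw [mem_degreeLT, degree_lt_iff_coeff_zero] at h1
      ext i
      by_cases hi : i < n'
      · exact h0 i (List.mem_range.2 hi)
      · exact h1 i (not_lt.1 hi))
  have e : lspan (ZMod p) (fun r : List ℕ × List ℕ => tp p r.1)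
      ((List.range n).map fun i => (unitV i, T i)) = degreeLT (ZMod p) n := by
    refine le_antisymm (lspan_le.2 fun r hr => ?_) ?_
    · obtain ⟨i, hi, rfl⟩ := List.mem_map.1 hr
      rw [mem_degreeLT]
      change (tp p (unitV i)).degree < n
      rw [tp_unitV, degree_X_pow]
      exact Nat.cast_lt.2 (List.mem_range.1 hi)
    · rw [degreeLT_eq_span_X_pow, Submodule.span_le]
      intro x hx
      obtain ⟨i, hi, rfl⟩ := Finset.mem_image.1 (Finset.mem_coe.1 hx)
      have := mem_lspan (B := ZMod p) (ψ := fun r : List ℕ × List ℕ => tp p r.1)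
        (List.mem_map.2 ⟨i, List.mem_range.2 (Finset.mem_range.1 hi), rfl⟩ :
          (unitV i, T i) ∈ (List.range n).map fun i => (unitV i, T i))
      rwa [tp_unitV] at this
  unfold kerL
  rw [hk, e, Submodule.mem_inf, mem_degreeLT, LinearMap.mem_ker]

end Crest.Agent.R312
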