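import Crest.Agent.R312.ATopS1
import Crest.Agent.R312.ASpec6

/-! # Row 312, part A: splitting a squarefree split polynomial -/

set_option autoImplicit false
set_option linter.unusedSectionVars false

noncomputable section

open Polynomial Finset

namespace Crest.Agent.R312

variable {p : ℕ} [Fact p.Prime]

/-- A valid table entry: an irreducible polynomial `φ`, and a non-`l`-th power in `F_p[z]/(φ)`. -/
structure EntOK (p l : ℕ) (e : List ℕ × List ℕ) : Prop where
  irr : Irreducible (mp p e.1)
  dvd : l ∣ p ^ e.1.length - 1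
  ne : ¬ mp p e.1 ∣ tp p e.2
  pow : ¬ mp p e.1 ∣ tp p e.2 ^ ((p ^ e.1.length - 1) / l) - 1

/-- Squarefree and split. -/
def SqSplit (f : (ZMod p)[X]) : Prop := f ∣ X ^ p - X

theorem SqSplit.eq_prod {f : (ZMod p)[X]} (h : SqSplit f) (hf : f.Monic) :
    ∃ S : Finset (ZMod p), f = ∏ b ∈ S, (X - C b) := by
  have hp := (Fact.out : p.Prime).one_lt
  have h0 := FiniteField.X_pow_card_sub_X_ne_zero (ZMod p) hp
  have hr : (X ^ p - X : (ZMod p)[X]).roots = Finset.univ.val := by
    simpa only [ZMod.card] using FiniteField.roots_X_pow_card_sub_X (ZMod p)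
  have hs : (X ^ p - X : (ZMod p)[X]).Splits := by
    rw [splits_iff_card_roots, hr, FiniteField.X_pow_card_sub_X_natDegree_eq _ hp,
      ← Finset.card_def, Finset.card_univ, ZMod.card]
  exact ⟨⟨f.roots, Multiset.nodup_of_le (hr ▸ roots.le_of_dvd h0 h) Finset.univ.nodup⟩,
    (hs.of_dvd h0 h).eq_prod_roots_of_monic hf⟩

theorem mf_spec {n : ℕ} (hn : 2 ≤ n) : (mf n).Prime ∧ mf n ∣ n := by
  have h1 : n.minFac ∣ n := Nat.minFac_dvd n
  have h2 : n.minFac.Prime := Nat.minFac_prime (by omega)
  have : mf n = n.minFac := by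
    rw [mf, List.find?_range_eq_some.2 ⟨decide_eq_true ⟨h2.two_le, h1⟩,
      List.mem_range.2 (Nat.lt_succ_of_le (Nat.minFac_le (by omega))), fun j hj => ?_⟩,
      Option.getD_some]
    rw [Bool.not_eq_true', decide_eq_false_iff_not]
    exact fun h3 => (Nat.minFac_le_of_dvd h3.1 h3.2).not_gt hj
  rw [this]
  exact ⟨h2, h1⟩

/-- The interpretation of an element of `k[T]/(g)` at the point `a` of a field `k` in which `z` is a
root of `φ`. -/
def evA {k : Type} [Field k] (z a : k) (x : List (List ℕ)) : k :=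
  (toP (fun κ : List ℕ => (toP (fun n : ℕ => (n : k)) κ).eval z) x).eval a

theorem atops2_homog {R ι : Type} [CommRing R] [IsDomain R] (s : Finset ι) (f : ι → R) (u v : R) :
    ∑ i ∈ range (s.card + 1), (∏ b ∈ s, (X - C (f b))).coeff i * v ^ (s.card - i) * u ^ i =
      ∏ b ∈ s, (u - f b * v) := by
  have h1 : (∏ b ∈ s, (X - C (f b))).scaleRoots v = ∏ b ∈ s, (X - C (f b * v)) := by
    induction s using Finset.cons_induction with
    | empty => simp
    | cons a s ha ih =>
      rw [prod_cons, prod_cons, mul_scaleRoots_of_noZeroDivisors, ih, X_sub_C_scaleRoots]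
  have h2 := congrArg (eval u) h1
  rw [eval_eq_sum_range, natDegree_scaleRoots] at h2
  simpa only [coeff_scaleRoots, natDegree_finsetProd_X_sub_C_eq_card, eval_prod, eval_sub, eval_X,
    eval_C] using h2

section aux
variable {k : Type} [Field k]

theorem atops2_single (z a : k) (κ : List ℕ) :
    evA z a [κ] = (toP (fun n : ℕ => (n : k)) κ).eval z := by simp [evA, toP]

theorem atops2_a (z a : k) : evA z a [[], [1]] = a := by simp [evA, toP]

theorem atops2_monic (z : k) (g : List ℕ) :
    monicP (fun κ : List ℕ => (toP (fun n : ℕ => (n : k)) κ).eval z) (g.map fun c => [c]) =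
      monicP (fun n : ℕ => (n : k)) g := by
  simp [monicP, toP_map, toP]

theorem atops2_len {g : List ℕ} {S : Finset k}
    (hg : monicP (fun n : ℕ => (n : k)) g = ∏ b ∈ S, (X - C b)) : g.length = S.card := by
  rw [← monicP_natDegree (φ := fun n : ℕ => (n : k)), hg, natDegree_finsetProd_X_sub_C_eq_card]

variable [CharP k p]

theorem atops2_z : (zops p).Hom (fun n : ℕ => (n : k)) :=
  zops_hom p (Fact.out : p.Prime).pos (CharP.cast_eq_zero k p)

theorem atops2_hom {f g : List ℕ} {z : k} (hz : (monicP (fun n : ℕ => (n : k)) f).eval z = 0)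
    {S : Finset k} (hg : monicP (fun n : ℕ => (n : k)) g = ∏ b ∈ S, (X - C b)) {a : k}
    (ha : a ∈ S) : (aops p f g).Hom (evA z a) :=
  (atops2_z.quot_eval f hz).quot_eval _ (by
    rw [atops2_monic, hg, eval_prod]
    exact prod_eq_zero ha (by simp))

end aux

/-- `X^n g(a + 1/X) = ∏_{b ≠ a} (1 + (a - b) X)`. -/
theorem toP_mkF {k : Type} [Field k] [CharP k p] {f g : List ℕ} {z : k}
    (hz : (monicP (fun n : ℕ => (n : k)) f).eval z = 0) (G : Glb k)
    (hg : monicP (fun n : ℕ => (n : k)) g = ∏ b ∈ G.S, (X - C b)) (a : k) (ha : a ∈ G.S) :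
    toP (evA z a) (mkF p f g) = (G.mdl a ha).F := by
  classical
  have h := atops2_hom (p := p) hz hg ha
  have h1 := atops2_homog G.S (fun b => (C b : k[X])) (1 + C a * X) X
  rw [← mul_prod_erase _ (fun b => 1 + C a * X - C b * X) ha, add_sub_cancel_right, one_mul] at h1
  rw [mkF, h.poly.sum, List.map_map, G.mdl_F, prod_congr rfl fun b _ =>
    show 1 + C (a - b) * X = 1 + C a * X - C b * X by rw [C_sub]; ring, ← h1, ← atops2_len hg,
    Finset.sum_eq_multiset_sum, range_val, Multiset.range, Multiset.map_coe, Multiset.sum_coe]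
  refine congrArg _ (List.map_congr_left fun i _ => ?_)
  have e1 : (∏ b ∈ G.S, (X - C (C b : k[X]))).coeff i = C (((g ++ [1]).getD i 0 : ℕ) : k) := by
    have e2 : toP (fun n : ℕ => (n : k)) (g ++ [1]) = ∏ b ∈ G.S, (X - C b) := by
      rw [← hg, toP_append, monicP, toP_singleton, Nat.cast_one, C_1, mul_one, add_comm]
    have e5 : (toP (fun n : ℕ => (n : k)) (g ++ [1])).coeff i = ((g ++ [1]).getD i 0 : ℕ) :=
      (atops2_z (p := p)).coeff_toP (g ++ [1]) i
    rw [← e5, e2, ← coeff_map, Polynomial.map_prod]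
    simp only [Polynomial.map_sub, map_X, map_C]
  have e3 : toP (evA z a) (List.replicate (g.length - i) []) = 0 :=
    (toP_eq_zero_iff _).2 fun x hx => by rw [List.eq_of_mem_replicate hx]; exact h.zero
  have e4 : toP (evA z a) [(aops p f g).one, [[], [1]]] = 1 + C a * X := by
    simp only [toP, h.one, atops2_a, C_1]
    ring
  rw [e1]
  refine (h.poly.mul _ _).trans ?_
  rw [h.poly.prod, List.map_replicate, List.prod_replicate, e4, toP_append, e3, toP_singleton,
    atops2_single, toP_singleton, eval_C, List.length_replicate]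
  ring

/-- The environment is interpreted at every root. -/
theorem gfam_mkEnv {k : Type} [Field k] [Fintype k] [CharP k p] {l : ℕ} {e : List ℕ × List ℕ}
    {g : List ℕ} {z : k} (hz : (monicP (fun n : ℕ => (n : k)) e.1).eval z = 0)
    (hinj : ∀ κ : List ℕ, (toP (fun n : ℕ => (n : k)) κ).eval z = 0 → mp p e.1 ∣ tp p κ)
    (hcard : Fintype.card k = p ^ e.1.length) (hdvd : l ∣ p ^ e.1.length - 1) (G : Glb k)
    (hl : G.l = l) (hη0 : (toP (fun n : ℕ => (n : k)) e.2).eval z ≠ 0)
    (hη : (toP (fun n : ℕ => (n : k)) e.2).eval z ^ ((p ^ e.1.length - 1) / l) = G.z)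
    (hg : monicP (fun n : ℕ => (n : k)) g = ∏ b ∈ G.S, (X - C b)) :
    GFam (mkEnv p l e g) G (fun a => evA z a.1) := by
  have hk := (atops2_z (p := p)).quot_eval e.1 hz
  have hη' : ∀ a : k, evA z a (mkEnv p l e g).η = (toP (fun n : ℕ => (n : k)) e.2).eval z :=
    fun a => atops2_single z a e.2
  refine ⟨⟨fun a => ?_, fun x => ?_, G.hne.coe_sort⟩, fun a => atops2_a z a.1, fun a => ?_,
    fun a a' => (hη' _).trans (hη' _).symm⟩
  · have h := atops2_hom (p := p) hz hg a.2
    have hF := toP_mkF (p := p) hz G hg a.1 a.2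
    refine ⟨h, hcard, hl.symm, hdvd, (hη' _).trans_ne hη0, by rw [hη']; exact hη, hF, ?_⟩
    have hN : (G.mdl a.1 a.2).Fm.natDegree = g.length - 1 := by
      rw [Mdl.Fm_natDegree, G.mdl_N, atops2_len hg]
    have hm := (G.mdl a.1 a.2).Fm_monic
    have hc : ∀ i, evA z a.1 ((mkF p e.1 g).getD i []) =
        (G.mdl a.1 a.2).lc * (G.mdl a.1 a.2).Fm.coeff i := fun i => by
      rw [← coeff_C_mul, ← Mdl.F, ← hF]
      exact (h.coeff_toP _ i).symm
    have hlc := (G.mdl a.1 a.2).hlc
    change monicP _ ((List.range (g.length - 1)).map _) = _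
    ext i
    rw [monicP, coeff_add, coeff_toP, List.map_map, List.length_map, List.length_range, coeff_X_pow]
    rcases lt_trichotomy i (g.length - 1) with hi | hi | hi
    · rw [if_neg hi.ne, zero_add, List.getD_eq_getElem _ _ (by simpa using hi), List.getElem_map,
        List.getElem_range, Function.comp_apply, h.mul, h.pinv hcard, hc, hc, ← hN,
        hm.coeff_natDegree]
      field_simp
    · rw [if_pos hi, List.getD_eq_default _ _ (by simpa using hi.ge), hi, ← hN, hm.coeff_natDegree,
        add_zero]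
    · rw [if_neg hi.ne', List.getD_eq_default _ _ (by simpa using hi.le), add_zero,
        coeff_eq_zero_of_natDegree_lt (hN ▸ hi)]
  · have h1 : ∀ κ, kisZ p e.1 κ = true ↔ (toP (fun n : ℕ => (n : k)) κ).eval z = 0 := fun κ => by
      refine (isZq_iff zhom isZ0_iff e.1 κ).trans ⟨fun h => ?_, hinj κ⟩
      have h2 := Polynomial.map_dvd (ZMod.castHom (dvd_refl p) k) h
      simp only [map_toP, map_monicP, map_natCast] at h2
      exact eval_eq_zero_of_dvd_of_eval_eq_zero h2 hz
    refine (isZq_iff hk h1 _ x).trans ?_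
    rw [atops2_monic, hg]
    refine ⟨fun h a => eval_eq_zero_of_dvd_of_eval_eq_zero h ?_, fun h => prod_dvd_of_coprime
      (fun a _ b _ hab => pairwise_coprime_X_sub_C Function.injective_id hab)
      fun a ha => dvd_iff_isRoot.2 (h ⟨a, ha⟩)⟩
    rw [eval_prod]
    exact prod_eq_zero a.2 (by simp)
  · rw [← hg]
    change monicP _ (g.map _) = _
    simp [monicP, toP_map, toP, atops2_single]

end Crest.Agent.R312
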