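import Crest.Agent.R312.ATopS2
import Crest.Agent.R312.ATopS1b
import Crest.Agent.R312.ASpec6b

/-! # Row 312, part A: the roots of a squarefree split polynomial -/

set_option autoImplicit false
set_option linter.unusedSectionVars false

noncomputable section

open Polynomial Finset

namespace Crest.Agent.R312

variable {p : ℕ} [Fact p.Prime]

theorem atops2b_tp_surj (Q : (ZMod p)[X]) : ∃ κ : List ℕ, tp p κ = Q := by
  induction Q using Polynomial.induction_on' with
  | add P Q hP hQ =>
    obtain ⟨κ, rfl⟩ := hP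
    obtain ⟨κ', rfl⟩ := hQ
    exact ⟨_, zhom.poly.add κ κ'⟩
  | monomial n c =>
    refine ⟨(zops p).poly.mul [c.val] (unitV n), ?_⟩
    have h := (zhom (p := p)).poly.mul [c.val] (unitV n)
    rw [toP_singleton, ZMod.natCast_zmod_val] at h
    rw [← C_mul_X_pow_eq_monomial, ← tp_unitV]
    exact h

theorem atops2b_map_tp {k : Type} [Field k] [CharP k p] (κ : List ℕ) :
    (tp p κ).map (ZMod.castHom (dvd_refl p) k) = toP (fun n : ℕ => (n : k)) κ := by
  rw [map_toP]
  simp only [map_natCast]

theorem atops2b_map_mp {k : Type} [Field k] [CharP k p] (κ : List ℕ) :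
    (mp p κ).map (ZMod.castHom (dvd_refl p) k) = monicP (fun n : ℕ => (n : k)) κ := by
  rw [map_monicP]
  simp only [map_natCast]

theorem atops2b_lin (f : List ℕ) (a : ZMod p) (y : List (List ℕ)) :
    (toP (fun κ : List ℕ => (tp p κ %ₘ mp p f).coeff 0) y).eval a =
      ((toP (tp p) y).eval (C a) %ₘ mp p f).coeff 0 := by
  induction y with
  | nil => simp [toP]
  | cons κ y ih =>
    simp only [toP, eval_add, eval_C, eval_mul, eval_X, ih]
    rw [add_modByMonic, ← smul_eq_C_mul, smul_modByMonic, coeff_add, coeff_smul, smul_eq_mul]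

theorem atops2b_ev {k : Type} [Field k] [CharP k p] (z : k) (a : ZMod p) (y : List (List ℕ)) :
    (((toP (tp p) y).eval (C a)).map (ZMod.castHom (dvd_refl p) k)).eval z =
      evA z (ZMod.castHom (dvd_refl p) k a) y := by
  unfold evA
  induction y with
  | nil => simp [toP]
  | cons κ y ih =>
    simp only [toP, eval_add, eval_C, eval_mul, eval_X, Polynomial.map_add, Polynomial.map_mul,
      map_C, ih, atops2b_map_tp]

theorem atops2b_field {F : (ZMod p)[X]} (hF : Irreducible F) :
    ∃ (k : Type) (_ : Field k) (_ : Fintype k) (_ : CharP k p) (z : k),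
      Fintype.card k = p ^ F.natDegree ∧
        ∀ Q : (ZMod p)[X], (Q.map (ZMod.castHom (dvd_refl p) k)).eval z = 0 ↔ F ∣ Q := by
  have : Fact (Irreducible F) := ⟨hF⟩
  have hfin : Module.Finite (ZMod p) (AdjoinRoot F) := (AdjoinRoot.powerBasis hF.ne_zero).finite
  have : Finite (AdjoinRoot F) := Module.finite_of_finite (ZMod p)
  have hch : CharP (AdjoinRoot F) p :=
    charP_of_injective_algebraMap (algebraMap (ZMod p) (AdjoinRoot F)).injective p
  let hft : Fintype (AdjoinRoot F) := Fintype.ofFinite _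
  refine ⟨AdjoinRoot F, inferInstance, hft, hch, AdjoinRoot.root F, ?_, fun Q => ?_⟩
  · rw [← Nat.card_eq_fintype_card, Module.natCard_eq_pow_finrank (K := ZMod p),
      (AdjoinRoot.powerBasis hF.ne_zero).finrank, Nat.card_zmod, AdjoinRoot.powerBasis_dim]
  · rw [RingHom.ext_zmod (ZMod.castHom (dvd_refl p) (AdjoinRoot F))
      (algebraMap (ZMod p) (AdjoinRoot F)), eval_map_algebraMap, AdjoinRoot.aeval_eq,
      AdjoinRoot.mk_eq_zero]

/-- At a root `a ∈ F_p` of `g`, the value of `idem` is the indicator of `x(a) ≠ 0`: the value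
`e(a) = ∑_i κ_i(z) a^i ∈ {0, 1}`, and the constant coefficients of the reduced `κ_i` give the image of
`e(a)` under the `F_p`-linear map "constant coefficient" (reduce `∑_i a^i κ_i - e(a)` modulo `φ`). -/
theorem idem_eval {k : Type} [Field k] [Fintype k] [CharP k p] [DecidableEq k] {f g : List ℕ}
    {z : k} (hf : 0 < f.length) (hz : (monicP (fun n : ℕ => (n : k)) f).eval z = 0)
    (hinj : ∀ κ : List ℕ, (toP (fun n : ℕ => (n : k)) κ).eval z = 0 → mp p f ∣ tp p κ)
    (hcard : Fintype.card k = p ^ f.length) (x : List (List ℕ)) {a : ZMod p}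
    (ha : (mp p g).eval a = 0) :
    (tp p (idem p f g x)).eval a = if evA z (ZMod.castHom (dvd_refl p) k a) x = 0 then 0 else 1 := by
  have hp : 0 < p := (Fact.out : p.Prime).pos
  have hk : (kops p f).Hom (fun κ : List ℕ => (toP (fun n : ℕ => (n : k)) κ).eval z) :=
    (zops_hom p hp (CharP.cast_eq_zero k p)).quot_eval f hz
  have hg : (monicP (fun κ : List ℕ => (toP (fun n : ℕ => (n : k)) κ).eval z)
      (g.map fun c => [c])).eval (ZMod.castHom (dvd_refl p) k a) = 0 := by
    have h1 : monicP (fun κ : List ℕ => (toP (fun n : ℕ => (n : k)) κ).eval z)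
        (g.map fun c => [c]) = monicP (fun n : ℕ => (n : k)) g := by
      unfold monicP
      rw [toP_map, List.length_map]
      simp only [toP_singleton, eval_C]
    rw [h1, ← atops2b_map_mp (p := p), eval_map, eval₂_at_apply, ha, map_zero]
  have hA : (aops p f g).Hom (evA z (ZMod.castHom (dvd_refl p) k a)) := hk.quot_eval _ hg
  have hy := hA.ind hcard x
  set y := (aops p f g).ind (p ^ f.length) x with hydef
  set e₀ : ZMod p := if evA z (ZMod.castHom (dvd_refl p) k a) x = 0 then 0 else 1 with he₀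
  have hy' : evA z (ZMod.castHom (dvd_refl p) k a) y = ZMod.castHom (dvd_refl p) k e₀ := by
    rw [he₀, apply_ite (ZMod.castHom (dvd_refl p) k), map_zero, map_one]
    convert hy
  obtain ⟨κ, hκ⟩ := atops2b_tp_surj ((toP (tp p) y).eval (C a) - C e₀)
  have hdvd : mp p f ∣ (toP (tp p) y).eval (C a) - C e₀ := by
    rw [← hκ]
    apply hinj
    rw [← atops2b_map_tp (p := p), hκ, Polynomial.map_sub, eval_sub, atops2b_ev, map_C, eval_C, hy',
      sub_self]
  have hmon : (mp p f).Monic := monicP_monic f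
  have h2 : tp p (idem p f g x) = toP (fun κ : List ℕ => (tp p κ %ₘ mp p f).coeff 0) y := by
    unfold idem
    rw [tp, toP_map]
    congr 1
    funext κ
    rw [← (zhom (p := p)).prem f κ, (zhom (p := p)).coeff_toP]
    rfl
  rw [h2, atops2b_lin, modByMonic_eq_of_dvd_sub hmon hdvd,
    (modByMonic_eq_self_iff hmon).2 (degree_C_le.trans_lt ?_), coeff_C_zero]
  rw [degree_eq_natDegree hmon.ne_zero, monicP_natDegree]
  exact_mod_cast hf

/-- Take `k = AdjoinRoot (mp p e.1)`, `G.S` the image of the set of roots,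
`G.z = η^((q-1)/l)` (`isPrimitiveRoot_of_nonres`), `GFam.run`, `idem_eval`, `pgcd_proper`. -/
theorem splitS_spec {tbl : List (List ℕ × List ℕ)} {g : List ℕ} (hg : SqSplit (mp p g))
    (h2 : 2 ≤ g.length) (htbl : EntOK p (mf g.length) (tbl.getD (mf g.length) ([], []))) :
    ∃ d, splitS p tbl g = some d ∧ 0 < d.length ∧ d.length < g.length := by
  classical
  set e := tbl.getD (mf g.length) ([], []) with he
  obtain ⟨hl, hlg⟩ := mf_spec h2
  obtain ⟨k, _, _, _, z, hcard, hz⟩ := atops2b_field htbl.irr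
  rw [monicP_natDegree] at hcard
  have hf : 0 < e.1.length := by
    have := htbl.irr.natDegree_pos
    rwa [monicP_natDegree] at this
  have hz0 : (monicP (fun n : ℕ => (n : k)) e.1).eval z = 0 := by
    rw [← atops2b_map_mp (p := p)]
    exact (hz _).2 dvd_rfl
  have hinj : ∀ κ : List ℕ, (toP (fun n : ℕ => (n : k)) κ).eval z = 0 → mp p e.1 ∣ tp p κ :=
    fun κ h => (hz _).1 (by rwa [atops2b_map_tp])
  have hη0 : (toP (fun n : ℕ => (n : k)) e.2).eval z ≠ 0 := fun h => htbl.ne (hinj _ h)
  have hη1 : (toP (fun n : ℕ => (n : k)) e.2).eval z ^ ((p ^ e.1.length - 1) / mf g.length) ≠ 1 := by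
    intro h
    refine htbl.pow ((hz _).1 ?_)
    rw [Polynomial.map_sub, Polynomial.map_pow, Polynomial.map_one, atops2b_map_tp, eval_sub,
      eval_pow, eval_one, h, sub_self]
  obtain ⟨S, hS⟩ := hg.eq_prod (monicP_monic g)
  have hSc : S.card = g.length := by
    have h1 := congrArg natDegree hS
    rw [monicP_natDegree, natDegree_prod_of_monic _ _ fun b _ => monic_X_sub_C b] at h1
    simpa using h1.symm
  have hroot : ∀ b ∈ S, (mp p g).eval b = 0 := fun b hb => by
    rw [hS, eval_prod]
    exact prod_eq_zero hb (by simp)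
  let G : Glb k := ⟨mf g.length, hl, _, isPrimitiveRoot_of_nonres hcard hl htbl.dvd hη0 hη1,
    S.map ⟨ZMod.castHom (dvd_refl p) k, (ZMod.castHom (dvd_refl p) k).injective⟩,
    by rwa [card_map, hSc], by rw [map_nonempty, ← card_pos]; omega⟩
  have hG : monicP (fun n : ℕ => (n : k)) g = ∏ b ∈ G.S, (X - C b) := by
    rw [← atops2b_map_mp (p := p), hS, Polynomial.map_prod, prod_map]
    simp
  obtain ⟨⟨a, ha⟩, a', ha'⟩ := (gfam_mkEnv hz0 hinj hcard htbl.dvd G rfl hη0 rfl hG).run
  obtain ⟨b, hb, hba⟩ := mem_map.1 a.2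
  obtain ⟨b', hb', hba'⟩ := mem_map.1 a'.2
  have h1 := idem_eval hf hz0 hinj hcard (mkEnv p (mf g.length) e g).run (hroot b hb)
  have h1' := idem_eval hf hz0 hinj hcard (mkEnv p (mf g.length) e g).run (hroot b' hb')
  have hba1 : ZMod.castHom (dvd_refl p) k b = a.1 := hba
  have hba2 : ZMod.castHom (dvd_refl p) k b' = a'.1 := hba'
  rw [hba1, if_pos ha] at h1
  rw [hba2, if_neg ha'] at h1'
  refine ⟨_, if_neg (by omega), pgcd_proper (fun h => ?_) fun h => ?_⟩
  · have h3 := eval_eq_zero_of_dvd_of_eval_eq_zero h (hroot b' hb')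
    rw [h1'] at h3
    exact one_ne_zero h3
  · have h3 := h.map (evalRingHom b)
    rw [coe_evalRingHom, hroot b hb, h1] at h3
    exact not_isCoprime_zero_zero h3

theorem splitS_dvd {tbl : List (List ℕ × List ℕ)} {g d : List ℕ} (h : splitS p tbl g = some d) :
    mp p d ∣ mp p g := by
  unfold splitS at h
  split_ifs at h
  obtain rfl := Option.some.inj h
  exact pgcd_dvd_left _ _

/-- The table is valid up to `n`. -/
def TblOK (p : ℕ) (ks : List ℕ) (tbl : List (List ℕ × List ℕ)) (n : ℕ) : Prop :=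
  ks = List.range ks.length ∧
    (p ≤ ks.length ∨ ∀ l, l.Prime → l ≤ n → EntOK p l (tbl.getD l ([], [])))

theorem roots_spec {ks : List ℕ} {tbl : List (List ℕ × List ℕ)} {m : List ℕ}
    (htbl : TblOK p ks tbl m.length) (hm : SqSplit (mp p m)) {c : ZMod p}
    (hc : (mp p m).eval c = 0) : ∃ x ∈ roots p ks tbl m, (x : ZMod p) = c := by
  unfold roots
  split_ifs with hp
  · refine ⟨c.val, ?_, ZMod.natCast_zmod_val c⟩
    rw [htbl.1, List.mem_range]
    exact (ZMod.val_lt c).trans_le hp
  · have hT := htbl.2.resolve_left hp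
    have hpos : 0 < m.length := by
      rcases m with _ | ⟨x, m⟩
      · simp [monicP, toP] at hc
      · simp
    obtain ⟨h1, h2⟩ := loop_spec (split := splitS p tbl) (Good := fun f => f ∣ mp p m)
      (fun f f' hf _ h => h.trans hf) (fun h d _ hd => splitS_dvd hd) dvd_rfl hpos
    rw [← h1, eval_list_prod, List.prod_eq_zero_iff, List.map_map, List.mem_map] at hc
    obtain ⟨h, hh, hc⟩ := hc
    obtain ⟨h3, h4, h5⟩ := h2 h hh
    have hlen : h.length ≤ m.length := by
      have := natDegree_le_of_dvd h4 (monicP_monic m).ne_zero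
      rwa [monicP_natDegree, monicP_natDegree] at this
    have h6 : ¬ 2 ≤ h.length := fun h7 => by
      obtain ⟨hl, hlg⟩ := mf_spec h7
      obtain ⟨d, hd, hd'⟩ := splitS_spec (tbl := tbl) (h4.trans hm) h7
        (hT _ hl ((Nat.le_of_dvd h3 hlg).trans hlen))
      exact h5 d hd hd'
    obtain ⟨x, rfl⟩ := List.length_eq_one_iff.1 (show h.length = 1 by omega)
    refine ⟨_, List.mem_map.2 ⟨[x], hh, rfl⟩, ?_⟩
    have h8 := (zhom (p := p)).neg x
    simp [monicP, toP] at hc
    simp only [List.getD_cons_zero]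
    rw [h8]
    linear_combination -hc

end Crest.Agent.R312
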