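import Crest.Agent.R312.ATopS2b

/-! # Row 312, part A: Berlekamp's reduction -/

set_option autoImplicit false
set_option linter.unusedSectionVars false

noncomputable section

open Polynomial Finset

namespace Crest.Agent.R312

variable {p : ℕ} [Fact p.Prime]

theorem atops3_len_sub (g x y : List ℕ) : (((zops p).quot g).sub x y).length ≤ g.length :=
  Ops.length_prem_le _ _ _

theorem atops3_tp_sub (g x y : List ℕ) :
    tp p (((zops p).quot g).sub x y) = (tp p x - tp p y) %ₘ mp p g := by
  refine aopss_mod (monicP_monic g) (aopss_deg (atops3_len_sub g x y)) ?_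
  have hq := (zhom (p := p)).quot g (Ideal.Quotient.mk (Ideal.span {mp p g}))
    (Ideal.Quotient.eq_zero_iff_mem.2 (Ideal.mem_span_singleton_self _))
  have := hq.sub x y
  rw [← map_sub, Ideal.Quotient.eq, Ideal.mem_span_singleton] at this
  exact this

theorem atops3_find {L : List (List ℕ)} {P : List ℕ → Bool} {S : Submodule (ZMod p) (ZMod p)[X]}
    (hP : ∀ r, P r = false → tp p r ∈ S) (h : L.find? P = none) :
    lspan (ZMod p) (tp p) L ≤ S := by
  rw [lspan_le]
  intro r hr
  rw [List.find?_eq_none] at h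
  exact hP r (by simpa using h r hr)

theorem atops3_tblOK {ks : List ℕ} {tbl : List (List ℕ × List ℕ)} {n m : ℕ}
    (h : TblOK p ks tbl n) (hmn : m ≤ n) : TblOK p ks tbl m :=
  ⟨h.1, h.2.imp id fun h' l hl hlm => h' l hl (hlm.trans hmn)⟩

theorem atops3_len_le {d g : List ℕ} (h : mp p d ∣ mp p g) : d.length ≤ g.length := by
  have := natDegree_le_of_dvd h (monicP_monic g).ne_zero
  rwa [monicP_natDegree, monicP_natDegree] at this

theorem atops3_degree (g : List ℕ) : (mp p g).degree = g.length := by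
  rw [degree_eq_natDegree (monicP_monic g).ne_zero, monicP_natDegree]

theorem atops3_exists_ker (n : ℕ) (𝒯 : (ZMod p)[X] →ₗ[ZMod p] (ZMod p)[X])
    (h𝒯 : ∀ f, (𝒯 f).degree < n) :
    ∃ f : (ZMod p)[X], f ≠ 0 ∧ f.degree < ((n + 1 : ℕ) : WithBot ℕ) ∧ 𝒯 f = 0 := by
  let φ : degreeLT (ZMod p) (n + 1) →ₗ[ZMod p] degreeLT (ZMod p) n :=
    (𝒯.comp (degreeLT (ZMod p) (n + 1)).subtype).codRestrict _ fun f => mem_degreeLT.2 (h𝒯 _)
  have hfin : ∀ k, Module.finrank (ZMod p) (degreeLT (ZMod p) k) = k := fun k => by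
    rw [(degreeLTEquiv (ZMod p) k).finrank_eq]; simp
  have : ∀ k, Module.Finite (ZMod p) (degreeLT (ZMod p) k) := fun k =>
    Module.Finite.equiv (degreeLTEquiv (ZMod p) k).symm
  have hk : LinearMap.ker φ ≠ ⊥ :=
    LinearMap.ker_ne_bot_of_finrank_lt (by rw [hfin, hfin]; omega)
  obtain ⟨f, hf, hf0⟩ := Submodule.exists_mem_ne_zero_of_ne_bot hk
  refine ⟨f.1, fun h0 => hf0 (Subtype.ext h0), mem_degreeLT.1 f.2, ?_⟩
  exact congrArg Subtype.val (LinearMap.mem_ker.1 hf)

theorem atops3_tp_X : tp p [0, 1] = X := by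
  simp [toP]

theorem atops3_killer_aux {G H : (ZMod p)[X]} (hh : G ∣ H ^ p - H) (m : List ℕ)
    (hm : G ∣ (mp p m).comp H) :
    SqSplit (mp p (pgcd p m (((zops p).quot m).sub (((zops p).quot m).pow [0, 1] p) [0, 1]))) ∧
      G ∣ (mp p (pgcd p m (((zops p).quot m).sub (((zops p).quot m).pow [0, 1] p) [0, 1]))).comp
        H := by
  obtain ⟨v, hv⟩ : ∃ v, v = ((zops p).quot m).sub (((zops p).quot m).pow [0, 1] p) [0, 1] :=
    ⟨_, rfl⟩
  rw [← hv]
  have hV : mp p m ∣ tp p v - (X ^ p - X) := by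
    have hq := (zhom (p := p)).quot m (Ideal.Quotient.mk (Ideal.span {mp p m}))
      (Ideal.Quotient.eq_zero_iff_mem.2 (Ideal.mem_span_singleton_self _))
    have h1 := hq.sub (((zops p).quot m).pow [0, 1] p) [0, 1]
    rw [hq.pow, ← hv] at h1
    have h2 : toP (fun n : ℕ => (n : ZMod p)) [0, 1] = X := atops3_tp_X
    rw [h2, ← map_pow, ← map_sub, Ideal.Quotient.eq, Ideal.mem_span_singleton] at h1
    exact h1
  refine ⟨?_, ?_⟩
  · have h1 := (pgcd_dvd_left (p := p) m v).trans hV
    have h2 := pgcd_dvd_right (p := p) m v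
    have h3 := dvd_sub h2 h1
    rwa [sub_sub_cancel] at h3
  · have h1 : mp p (pgcd p m v) ∈ Ideal.span {mp p m, tp p v} := by
      rw [← pgcd_spec]; exact Ideal.mem_span_singleton_self _
    obtain ⟨a, b, hab⟩ := Ideal.mem_span_pair.1 h1
    obtain ⟨c, hc⟩ := hV
    have h2 : tp p v = mp p m * c + (X ^ p - X) := by rw [← hc]; ring
    rw [← hab, h2]
    simp only [add_comp, mul_comp, sub_comp, pow_comp, X_comp]
    exact dvd_add (hm.mul_left _) ((dvd_add (hm.mul_right _) hh).mul_left _)

theorem atops3_tail (r : List ℕ) : tp p r = C ((r.headD 0 : ℕ) : ZMod p) + X * tp p r.tail := by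
  cases r with
  | nil => simp [toP]
  | cons a l => simp [toP]

/-- `1, h, …, h^n` are dependent modulo `g` (`n = deg g`); the relation `m` and `X^p - X` both kill
`h` modulo `g`, hence so does their gcd. -/
theorem killer_spec {g h : List ℕ} (hh : mp p g ∣ tp p h ^ p - tp p h) :
    SqSplit (mp p (killer p g h)) ∧ (killer p g h).length ≤ g.length ∧
      mp p g ∣ (mp p (killer p g h)).comp (tp p h) := by
  obtain ⟨𝒯, h𝒯⟩ : ∃ 𝒯 : (ZMod p)[X] →ₗ[ZMod p] (ZMod p)[X],
      ∀ f, 𝒯 f = (f.comp (tp p h)) %ₘ mp p g :=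
    ⟨(modByMonicHom (mp p g)).comp (aeval (tp p h)).toLinearMap, fun f => by
      simp [comp_eq_aeval]⟩
  obtain ⟨L, hL⟩ : ∃ L, L = kerL p (g.length + 1) g.length
    fun i => ((zops p).quot g).pow h i := ⟨_, rfl⟩
  have hker : ∀ f, f ∈ lspan (ZMod p) (tp p) L ↔
      f.degree < ((g.length + 1 : ℕ) : WithBot ℕ) ∧ 𝒯 f = 0 := fun f => by
    rw [hL]
    refine kerL_spec _ _ _ 𝒯 (fun i _ => ?_) (fun i _ => Ops.length_quot_pow_le _ _ _ _) f
    rw [h𝒯, pow_comp, X_comp]
    exact zhom.toP_quot_pow g h i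
  have hex : ∃ m0, L.find? (fun m => !isZp p m) = some m0 := by
    by_contra hne
    have hnone : L.find? (fun m => !isZp p m) = none := by
      cases hf : L.find? (fun m => !isZp p m) with
      | none => rfl
      | some m0 => exact absurd ⟨m0, hf⟩ hne
    have hle := atops3_find (p := p) (S := ⊥) (fun r hr => by
      simpa [isZp_iff] using hr) hnone
    obtain ⟨f, hf0, hf1, hf2⟩ := atops3_exists_ker g.length 𝒯 fun f => by
      rw [h𝒯, ← atops3_degree (p := p)]
      exact degree_modByMonic_lt _ (monicP_monic g)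
    exact hf0 (by simpa using hle ((hker f).2 ⟨hf1, hf2⟩))
  obtain ⟨m0, hm0⟩ := hex
  have hmem := (hker _).1 (mem_lspan (List.mem_of_find?_eq_some hm0))
  have hne : tp p m0 ≠ 0 := by
    have := List.find?_some hm0
    rw [Ne, ← isZp_iff]
    simpa using this
  have hk : killer p g h = pgcd p (mon p m0) (((zops p).quot (mon p m0)).sub
      (((zops p).quot (mon p m0)).pow [0, 1] p) [0, 1]) := by
    unfold killer
    rw [← hL, hm0]
    rfl
  have hdiv : mp p g ∣ (mp p (mon p m0)).comp (tp p h) := by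
    have h1 : mp p g ∣ (tp p m0).comp (tp p h) := by
      have := hmem.2
      rwa [h𝒯, modByMonic_eq_zero_iff_dvd (monicP_monic g)] at this
    rw [← mon_spec hne, mul_comp, C_comp] at h1
    have hu : IsUnit (C (tp p m0).leadingCoeff) :=
      isUnit_C.2 (IsUnit.mk0 _ (leadingCoeff_ne_zero.2 hne))
    exact (hu.dvd_mul_left).1 h1
  obtain ⟨h1, h2⟩ := atops3_killer_aux hh (mon p m0) hdiv
  rw [hk]
  refine ⟨h1, ?_, h2⟩
  refine (atops3_len_le (pgcd_dvd_left (p := p) _ _)).trans ?_
  rw [length_mon]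
  have := (natDegree_lt_iff_degree_lt hne).2 hmem.1
  omega

/-- A monic polynomial `g` of positive degree without nonzero nilpotents and without nonconstant
solutions of `h^p = h` modulo `g` is irreducible: if `g = g₁ g₂` with coprime factors there is a
nontrivial idempotent; otherwise `π² ∣ g` and `g / π` is nilpotent. -/
theorem irreducible_of_berlekamp {g : (ZMod p)[X]} (hg : g.Monic) (hpos : 0 < g.natDegree)
    (h0 : ∀ h : (ZMod p)[X], h.degree < g.natDegree → g ∣ h ^ p → h = 0)
    (h1 : ∀ h : (ZMod p)[X], h.degree < g.natDegree → g ∣ h ^ p - h → h.natDegree = 0) :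
    Irreducible g := by
  have hnu : ¬ IsUnit g := fun hu => by
    rw [natDegree_eq_zero_of_isUnit hu] at hpos; exact lt_irrefl _ hpos
  obtain ⟨π, hπm, hπ, q, hq⟩ := exists_monic_irreducible_factor g hnu
  by_contra hirr
  have hqu : ¬ IsUnit q := fun hu => hirr (by
    rw [hq]; exact (irreducible_mul_isUnit hu).2 hπ)
  have hq0 : q ≠ 0 := fun h => hg.ne_zero (by rw [hq, h, mul_zero])
  have hdeg : g.degree = g.natDegree := degree_eq_natDegree hg.ne_zero
  by_cases hπq : π ∣ q
  · obtain ⟨r, hr⟩ := hπq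
    refine hq0 (h0 q ?_ ?_)
    · have h2 : g.natDegree = π.natDegree + q.natDegree := by
        rw [hq, natDegree_mul hπm.ne_zero hq0]
      have h3 := hπ.natDegree_pos
      rw [← natDegree_lt_iff_degree_lt hq0]
      omega
    · have h2 : g ∣ q ^ 2 := ⟨r, by rw [hq, hr]; ring⟩
      exact h2.trans (pow_dvd_pow q (Fact.out : p.Prime).two_le)
  · obtain ⟨a, b, hab⟩ := (hπ.coprime_iff_not_dvd).2 hπq
    have he2 : g ∣ (a * π) ^ 2 - a * π := ⟨-(a * b), by
      rw [hq]; linear_combination (a * π) * hab⟩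
    have hek : ∀ k : ℕ, g ∣ (a * π) ^ (k + 1) - a * π := fun k => by
      induction k with
      | zero => simp
      | succ k ih =>
        have : (a * π) ^ (k + 1 + 1) - a * π =
            (a * π) * ((a * π) ^ (k + 1) - a * π) + ((a * π) ^ 2 - a * π) := by ring
        rw [this]
        exact dvd_add (ih.mul_left _) he2
    have hep : g ∣ (a * π) ^ p - a * π := by
      have := hek (p - 1)
      rwa [Nat.sub_add_cancel (Fact.out : p.Prime).one_le] at this
    obtain ⟨e, he⟩ : ∃ e, e = (a * π) %ₘ g := ⟨_, rfl⟩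
    have hd : g ∣ e - a * π := by rw [he]; exact aopss_dvd _ _
    have hed : e.degree < g.natDegree := by
      rw [he, ← hdeg]; exact degree_modByMonic_lt _ hg
    have hee : g ∣ e ^ p - e := by
      have h2 : e ^ p - e = (e ^ p - (a * π) ^ p) + ((a * π) ^ p - a * π) - (e - a * π) := by ring
      rw [h2]
      exact dvd_sub (dvd_add (hd.trans (sub_dvd_pow_sub_pow _ _ _)) hep) hd
    have hc := eq_C_of_natDegree_eq_zero (h1 e hed hee)
    have hπe : π ∣ e := by
      have h2 : π ∣ e - a * π := (Dvd.intro _ hq.symm).trans hd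
      have h3 := dvd_add h2 (dvd_mul_left π a)
      rwa [sub_add_cancel] at h3
    have he0 : e = 0 := by
      by_contra hne
      have h2 := natDegree_le_of_dvd hπe hne
      have h3 := hπ.natDegree_pos
      have h4 := h1 e hed hee
      omega
    have hq1 : q ∣ 1 := by
      have h2 : q ∣ e - a * π := (Dvd.intro_left _ hq.symm).trans hd
      rw [he0, zero_sub, dvd_neg] at h2
      rw [← hab]
      exact dvd_add h2 (dvd_mul_left _ _)
    exact hqu (isUnit_of_dvd_one hq1)

theorem splitG_dvd {ks : List ℕ} {tbl : List (List ℕ × List ℕ)} {g d : List ℕ}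
    (h : splitG p ks tbl g = some d) : mp p d ∣ mp p g := by
  unfold splitG at h
  cases hf : (kerL p g.length g.length fun i => ((zops p).quot g).pow (unitV i) p).find?
      fun h => !isZp p h with
  | some x =>
    rw [hf] at h
    simp only [Option.elim_some, Option.some.injEq] at h
    rw [← h]
    exact pgcd_dvd_left _ _
  | none =>
    rw [hf] at h
    simp only [Option.elim_none] at h
    obtain ⟨x, -, hx⟩ := Option.bind_eq_some_iff.1 h
    obtain ⟨c, -, hc⟩ := List.mem_map.1 (List.mem_of_find?_eq_some hx)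
    rw [← hc]
    exact pgcd_dvd_left _ _

/-- The map `h ↦ h^p %ₘ g` is linear (`ZMod.expand_card`).  A nonzero `h` with `g ∣ h^p` gives a
proper gcd; for nonconstant `h` with `g ∣ h^p - h`, `g ∣ ∏_c (h - c)` over the roots `c` of the killer, so
some `h - c` is not prime to `g`, and `g ∤ h - c` by degrees. -/
theorem splitG_spec {ks : List ℕ} {tbl : List (List ℕ × List ℕ)} {g : List ℕ}
    (htbl : TblOK p ks tbl g.length) (hpos : 0 < g.length)
    (h : ∀ d, splitG p ks tbl g = some d → ¬ (0 < d.length ∧ d.length < g.length)) :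
    Irreducible (mp p g) := by
  have hG := monicP_monic (φ := fun n : ℕ => (n : ZMod p)) g
  have hn : (mp p g).natDegree = g.length := monicP_natDegree g
  have hnu : ¬ IsUnit (mp p g) := fun hu => by
    rw [natDegree_eq_zero_of_isUnit hu] at hn; omega
  have hndvd : ∀ f : (ZMod p)[X], f ≠ 0 → f.degree < g.length → ¬ mp p g ∣ f := fun f hf hd hdv => by
    have h1 := natDegree_le_of_dvd hdv hf
    have h2 := (natDegree_lt_iff_degree_lt hf).2 hd
    omega
  obtain ⟨𝒯, h𝒯⟩ : ∃ 𝒯 : (ZMod p)[X] →ₗ[ZMod p] (ZMod p)[X], ∀ f, 𝒯 f = (f ^ p) %ₘ mp p g :=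
    ⟨(modByMonicHom (mp p g)).comp (expand (ZMod p) p).toLinearMap, fun f => by
      simp [ZMod.expand_card]⟩
  obtain ⟨𝒮, h𝒮⟩ : ∃ 𝒮 : (ZMod p)[X] →ₗ[ZMod p] (ZMod p)[X],
      ∀ f, 𝒮 f = (f ^ p - f) %ₘ mp p g :=
    ⟨(modByMonicHom (mp p g)).comp ((expand (ZMod p) p).toLinearMap - LinearMap.id), fun f => by
      simp [ZMod.expand_card]⟩
  obtain ⟨L1, hL1⟩ : ∃ L, L = kerL p g.length g.length
    fun i => ((zops p).quot g).pow (unitV i) p := ⟨_, rfl⟩
  obtain ⟨L2, hL2⟩ : ∃ L, L = kerL p g.length g.length fun i =>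
      ((zops p).quot g).sub (((zops p).quot g).pow (unitV i) p) (unitV i) := ⟨_, rfl⟩
  have hk1 : ∀ f, f ∈ lspan (ZMod p) (tp p) L1 ↔ f.degree < g.length ∧ mp p g ∣ f ^ p := fun f => by
    rw [hL1, kerL_spec _ _ _ 𝒯 (fun i _ => ?_) (fun i _ => Ops.length_quot_pow_le _ _ _ _) f, h𝒯,
      modByMonic_eq_zero_iff_dvd hG]
    rw [h𝒯, ← tp_unitV]
    exact zhom.toP_quot_pow g _ p
  have hk2 : ∀ f, f ∈ lspan (ZMod p) (tp p) L2 ↔
      f.degree < g.length ∧ mp p g ∣ f ^ p - f := fun f => by
    rw [hL2, kerL_spec _ _ _ 𝒮 (fun i _ => ?_) (fun i _ => atops3_len_sub _ _ _) f, h𝒮,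
      modByMonic_eq_zero_iff_dvd hG]
    have h1 : tp p (((zops p).quot g).pow (unitV i) p) = (tp p (unitV i) ^ p) %ₘ mp p g :=
      zhom.toP_quot_pow g _ p
    rw [h𝒮, atops3_tp_sub, h1, tp_unitV]
    refine modByMonic_eq_of_dvd_sub hG ?_
    rw [sub_sub_sub_cancel_right]
    exact aopss_dvd _ _
  unfold splitG at h
  rw [← hL1, ← hL2] at h
  cases hf1 : L1.find? fun h => !isZp p h with
  | some x =>
    exfalso
    rw [hf1] at h
    have hx := (hk1 _).1 (mem_lspan (List.mem_of_find?_eq_some hf1))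
    have hne : tp p x ≠ 0 := by
      have := List.find?_some hf1
      rw [Ne, ← isZp_iff]
      simpa using this
    refine h _ rfl (pgcd_proper (hndvd _ hne hx.1) fun hc => hnu ?_)
    exact (hc.pow_right (n := p)).isUnit_of_dvd' dvd_rfl hx.2
  | none =>
    rw [hf1] at h
    simp only [Option.elim_none] at h
    have hle1 := atops3_find (p := p) (S := ⊥) (fun r hr => by
      simpa [isZp_iff] using hr) hf1
    cases hf2 : L2.find? fun h => !isZp p h.tail with
    | none =>
      have hle2 := atops3_find (p := p) (S := degreeLE (ZMod p) 0) (fun r hr => by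
        have h1 : tp p r.tail = 0 := by simpa [isZp_iff] using hr
        rw [mem_degreeLE, atops3_tail, h1, mul_zero, add_zero]
        exact degree_C_le) hf2
      refine irreducible_of_berlekamp hG (by omega) (fun f hf hd => ?_) (fun f hf hd => ?_)
      · rw [hn] at hf
        simpa using hle1 ((hk1 f).2 ⟨hf, hd⟩)
      · rw [hn] at hf
        exact natDegree_eq_zero_iff_degree_le_zero.2 (mem_degreeLE.1 (hle2 ((hk2 f).2 ⟨hf, hd⟩)))
    | some x =>
      exfalso
      rw [hf2] at h
      simp only [Option.bind_some] at h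
      have hx := (hk2 _).1 (mem_lspan (List.mem_of_find?_eq_some hf2))
      have hne : tp p x.tail ≠ 0 := by
        have := List.find?_some hf2
        rw [Ne, ← isZp_iff]
        simpa using this
      obtain ⟨hs, hlen, hdv⟩ := killer_spec hx.2
      obtain ⟨S, hS⟩ := hs.eq_prod (monicP_monic _)
      have hprod : (mp p (killer p g x)).comp (tp p x) = ∏ b ∈ S, (tp p x - C b) := by
        rw [hS, Polynomial.prod_comp]
        simp
      have hb : ∃ b ∈ S, ¬ IsCoprime (mp p g) (tp p x - C b) := by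
        by_contra hcon
        push Not at hcon
        exact hnu ((IsCoprime.prod_right hcon).isUnit_of_dvd' dvd_rfl (hprod ▸ hdv))
      obtain ⟨b, hbS, hb⟩ := hb
      have hev : (mp p (killer p g x)).eval b = 0 := by
        rw [hS, eval_prod]
        exact Finset.prod_eq_zero hbS (by simp)
      obtain ⟨c, hc, hcb⟩ := roots_spec (atops3_tblOK htbl hlen) hs hev
      have htp : tp p ((zops p).padd x [(zops p).neg c]) = tp p x - C b := by
        have h1 := (zhom (p := p)).poly.add x [(zops p).neg c]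
        have h2 := (zhom (p := p)).neg c
        change toP _ ((zops p).padd x [(zops p).neg c]) = _ at h1
        rw [toP_singleton] at h1
        beta_reduce at h1 h2
        rw [h2, hcb, C_neg, ← sub_eq_add_neg] at h1
        exact h1
      have hne2 : tp p x - C b ≠ 0 := by
        intro h0
        rw [atops3_tail, sub_eq_zero] at h0
        apply hne
        ext i
        have h2 := congrArg (fun f => f.coeff (i + 1)) h0
        simpa [coeff_C_succ] using h2
      have hdeg2 : (tp p x - C b).degree < g.length := by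
        refine (degree_sub_le _ _).trans_lt (max_lt hx.1 (degree_C_le.trans_lt ?_))
        exact_mod_cast hpos
      have hprop := pgcd_proper (p := p) (u := g) (v := (zops p).padd x [(zops p).neg c])
        (by rw [htp]; exact hndvd _ hne2 hdeg2) (by rw [htp]; exact hb)
      cases hf3 : ((roots p ks tbl (killer p g x)).map fun c =>
          pgcd p g ((zops p).padd x [(zops p).neg c])).find?
            fun d => decide (0 < d.length ∧ d.length < g.length) with
      | none =>
        rw [List.find?_eq_none] at hf3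
        exact hf3 _ (List.mem_map.2 ⟨c, hc, rfl⟩) (by simpa using hprop)
      | some d =>
        exact h d hf3 (by simpa using List.find?_some hf3)

theorem factorWith_spec {ks : List ℕ} {tbl : List (List ℕ × List ℕ)} {g : List ℕ}
    (htbl : TblOK p ks tbl g.length) (hpos : 0 < g.length) :
    ((factorWith p ks tbl g).map (mp p)).prod = mp p g ∧
      ∀ h ∈ factorWith p ks tbl g, Irreducible (mp p h) := by
  obtain ⟨h1, h2⟩ := loop_spec (p := p) (split := splitG p ks tbl) (Good := fun f => f ∣ mp p g)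
    (fun f f' hf _ hd => hd.trans hf) (fun h d _ hd => splitG_dvd hd) (g := g) dvd_rfl hpos
  refine ⟨h1, fun h hh => ?_⟩
  obtain ⟨h3, h4, h5⟩ := h2 h hh
  exact splitG_spec (atops3_tblOK htbl (atops3_len_le h4)) h3 h5

end Crest.Agent.R312
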