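import Crest.Agent.R312.ATop
import Crest.Agent.GQ.CNR

/-! # Row 312: the analytic input `NR` -/

set_option autoImplicit false

namespace Crest.Agent.R312

theorem nr : NR := by
  obtain ⟨C, hC⟩ := Crest.Agent.GC.nr
  refine ⟨C, fun p l hp hl _ => ?_⟩
  obtain ⟨r, hr, hle, hdvd, hne, hy⟩ := hC l p hl hp
  refine ⟨r, hr, ?_, ?_, hne, hy⟩
  · have h1 : Nat.log 2 p ≤ Nat.size p :=
      (Nat.lt_size.2 (Nat.pow_log_le_self 2 hp.ne_zero)).le
    exact hle.trans (Nat.mul_le_mul_left _ (Nat.pow_le_pow_left (by omega) _))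
  · obtain ⟨c, hc⟩ := hdvd
    have h2 := hr.two_le
    have h3 : r = 1 + l * c := by omega
    rw [h3, Nat.add_mul_mod_self_left]
    exact Nat.mod_eq_of_lt hl.one_lt

end Crest.Agent.R312
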